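import Vale.Agent.P113.Defs

/-!
Elementary facts about `rho`, `sigma`, bumps and periodization.
-/

namespace Vale.Agent.P113

open MeasureTheory Set Filter Topology
open scoped ContDiff

lemma rho_eq_glue : rho = fun s => expNegInvGlue (1 - s ^ 2) := by
  funext s
  unfold rho expNegInvGlue
  by_cases h : |s| < 1
  · have : s ^ 2 < 1 := by
      rw [← sq_abs]; nlinarith [abs_nonneg s]
    rw [if_pos h, if_neg (by linarith)]
    congr 1
    rw [neg_div, one_div]
  · have h1 : 1 ≤ |s| := le_of_not_gt h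
    have : 1 ≤ s ^ 2 := by rw [← sq_abs]; nlinarith [abs_nonneg s]
    rw [if_neg h, if_pos (by linarith)]

lemma rho_contDiff : ContDiff ℝ ∞ rho := by
  rw [rho_eq_glue]
  exact expNegInvGlue.contDiff.comp (contDiff_const.sub (contDiff_id.pow 2))

lemma rho_continuous : Continuous rho := rho_contDiff.continuous

lemma rho_zero {s : ℝ} (h : 1 ≤ |s|) : rho s = 0 := by
  rw [rho, if_neg (not_lt.mpr h)]

lemma rho_nonneg (s : ℝ) : 0 ≤ rho s := by
  rw [rho]
  split_ifs
  · positivity
  · exact le_rfl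

lemma rho_compactSupport : HasCompactSupport rho := by
  refine HasCompactSupport.intro (isCompact_Icc (a := (-1:ℝ)) (b := 1)) ?_
  intro s hs
  apply rho_zero
  by_contra h
  exact hs ⟨by linarith [neg_abs_le s], by linarith [le_abs_self s]⟩

lemma rho_integrable : Integrable rho :=
  rho_continuous.integrable_of_hasCompactSupport rho_compactSupport

lemma kappa_pos : 0 < kappa := by
  refine rho_continuous.integral_pos_of_hasCompactSupport_nonneg_nonzero (x := 0)
    rho_compactSupport rho_nonneg ?_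
  simp [rho]

lemma kappa_ne : kappa ≠ 0 := kappa_pos.ne'

lemma sigma_sub (a b : ℝ) : sigma b - sigma a = ∫ t in a..b, rho t :=
  intervalIntegral.integral_Iic_sub_Iic rho_integrable.integrableOn rho_integrable.integrableOn

lemma sigma_hasDerivAt (s : ℝ) : HasDerivAt sigma (rho s) s := by
  have h : sigma = fun b => sigma 0 + ∫ t in (0:ℝ)..b, rho t := by
    funext b
    rw [← sigma_sub]
    ring
  rw [h]
  exact ((intervalIntegral.integral_hasDerivAt_right (rho_continuous.intervalIntegrable _ _)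
    (rho_continuous.stronglyMeasurableAtFilter _ _) rho_continuous.continuousAt)).const_add _

lemma sigma_zero {s : ℝ} (h : s ≤ -1) : sigma s = 0 := by
  apply setIntegral_eq_zero_of_forall_eq_zero
  intro t ht
  apply rho_zero
  have ht' : t ≤ s := ht
  rw [abs_of_nonpos (by linarith)]
  linarith

lemma sigma_top {s : ℝ} (h : 1 ≤ s) : sigma s = kappa := by
  apply setIntegral_eq_integral_of_forall_compl_eq_zero
  intro t ht
  apply rho_zero
  have ht' : s < t := not_le.mp ht
  rw [abs_of_nonneg (by linarith)]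
  linarith

lemma sigma_nonneg (s : ℝ) : 0 ≤ sigma s :=
  integral_nonneg fun t => rho_nonneg t

lemma sigma_le (s : ℝ) : sigma s ≤ kappa :=
  setIntegral_le_integral rho_integrable (Eventually.of_forall rho_nonneg)

lemma sigma_contDiff : ContDiff ℝ ∞ sigma := by
  rw [contDiff_infty_iff_deriv]
  refine ⟨fun s => (sigma_hasDerivAt s).differentiableAt, ?_⟩
  rw [funext fun s => (sigma_hasDerivAt s).deriv]
  exact rho_contDiff

lemma piFun_contDiff (l : ℝ) : ContDiff ℝ ∞ (piFun l) :=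
  sigma_contDiff.sub (sigma_contDiff.comp (contDiff_id.sub contDiff_const))

lemma piFun_hasDerivAt (l s : ℝ) : HasDerivAt (piFun l) (rho s - rho (s - l)) s := by
  have h2 := (sigma_hasDerivAt (s - l)).comp s ((hasDerivAt_id s).sub_const l)
  simp only [mul_one] at h2
  exact (sigma_hasDerivAt s).sub h2

lemma piFun_left {l s : ℝ} (hl : 0 ≤ l) (h : s ≤ -1) : piFun l s = 0 := by
  rw [piFun, sigma_zero h, sigma_zero (by linarith), sub_zero]

lemma piFun_right {l s : ℝ} (hl : 0 ≤ l) (h : l + 1 ≤ s) : piFun l s = 0 := by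
  rw [piFun, sigma_top (by linarith), sigma_top (by linarith), sub_self]

lemma piFun_mid {l s : ℝ} (h1 : 1 ≤ s) (h2 : s ≤ l - 1) : piFun l s = kappa := by
  rw [piFun, sigma_top h1, sigma_zero (by linarith), sub_zero]

lemma iterRho_contDiff (j : ℕ) : ContDiff ℝ ∞ (iteratedDeriv j rho) := by
  induction j with
  | zero => simpa [iteratedDeriv_zero] using rho_contDiff
  | succ j ih =>
      rw [iteratedDeriv_succ]
      exact (contDiff_infty_iff_deriv.mp ih).2

lemma iterRho_hasDerivAt (j : ℕ) (s : ℝ) :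
    HasDerivAt (iteratedDeriv j rho) (iteratedDeriv (j + 1) rho s) s := by
  rw [iteratedDeriv_succ]
  exact ((contDiff_infty_iff_deriv.mp (iterRho_contDiff j)).1 s).hasDerivAt

lemma iterRho_zero (j : ℕ) : ∀ {s : ℝ}, 1 ≤ |s| → iteratedDeriv j rho s = 0 := by
  induction j with
  | zero => intro s hs; simpa [iteratedDeriv_zero] using rho_zero hs
  | succ j ih =>
      intro s hs
      rcases le_abs.mp hs with h | h
      · have h1 : HasDerivWithinAt (iteratedDeriv j rho) 0 (Ici s) s :=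
          (hasDerivWithinAt_const s (Ici s) (0:ℝ)).congr
            (fun t ht => ih (le_abs.mpr (Or.inl (le_trans h ht)))) (ih hs)
        exact (uniqueDiffWithinAt_Ici s).eq_deriv _ (iterRho_hasDerivAt j s).hasDerivWithinAt h1
      · have h1 : HasDerivWithinAt (iteratedDeriv j rho) 0 (Iic s) s :=
          (hasDerivWithinAt_const s (Iic s) (0:ℝ)).congr
            (fun t ht => ih (le_abs.mpr (Or.inr (by have h2 : t ≤ s := ht; linarith)))) (ih hs)
        exact (uniqueDiffWithinAt_Iic s).eq_deriv _ (iterRho_hasDerivAt j s).hasDerivWithinAt h1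

/-- The profile condition of `BumpValid`. -/
def ProfileValid (P : Profile) : Prop := ∀ l, P = Sum.inr l → 0 < ratVal l

lemma profile_contDiff (P : Profile) : ContDiff ℝ ∞ (profileVal P) := by
  cases P with
  | inl j => exact iterRho_contDiff j
  | inr l => exact piFun_contDiff _

lemma profile_bound {P : Profile} (h : ProfileValid P) :
    ∃ R : ℝ, ∀ s, R ≤ |s| → profileVal P s = 0 := by
  cases P with
  | inl j => exact ⟨1, fun s hs => iterRho_zero j hs⟩
  | inr l =>
      have hl : (0:ℝ) < ratVal l := by exact_mod_cast h l rfl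
      refine ⟨(ratVal l : ℝ) + 1, fun s hs => ?_⟩
      rcases le_abs.mp hs with h1 | h1
      · exact piFun_right hl.le h1
      · exact piFun_left hl.le (by linarith)

lemma bump_contDiff (g : Bump) : ContDiff ℝ ∞ (bumpVal g) :=
  (contDiff_id.pow g.1).mul ((profile_contDiff g.2.1).comp
    ((contDiff_const.mul contDiff_id).sub contDiff_const))

lemma bump_bound {g : Bump} (h : BumpValid g) :
    ∃ R : ℝ, ∀ s, R ≤ |s| → bumpVal g s = 0 := by
  obtain ⟨R, hR⟩ := profile_bound h.2
  have ha : (0:ℝ) < |(ratVal g.2.2.1 : ℝ)| := abs_pos.mpr (by exact_mod_cast h.1)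
  refine ⟨(R + |(ratVal g.2.2.2 : ℝ)|) / |(ratVal g.2.2.1 : ℝ)|, fun s hs => ?_⟩
  have h2 : R + |(ratVal g.2.2.2 : ℝ)| ≤ |(ratVal g.2.2.1 : ℝ) * s| := by
    rw [abs_mul, mul_comm]
    exact (div_le_iff₀ ha).mp hs
  have h3 := abs_sub_abs_le_abs_sub ((ratVal g.2.2.1 : ℝ) * s) (ratVal g.2.2.2 : ℝ)
  simp [bumpVal, hR _ (by linarith)]

lemma periodize_add_one (g : ℝ → ℝ) (y : ℝ) : periodize g (y + 1) = periodize g y := by
  unfold periodize
  refine Eq.trans ?_ ((Equiv.addRight (1:ℤ)).tsum_eq (fun m : ℤ => g (y + (m:ℝ))))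
  apply tsum_congr
  intro m
  simp only [Equiv.coe_addRight, Int.cast_add, Int.cast_one]
  congr 1
  ring

lemma periodize_eq_sum {g : ℝ → ℝ} {R : ℝ} (hg : ∀ s, R ≤ |s| → g s = 0) (y : ℝ)
    {N : ℕ} (hN : |y| + R ≤ N) :
    periodize g y = ∑ m ∈ Finset.Icc (-(N:ℤ)) (N:ℤ), g (y + (m:ℝ)) := by
  apply tsum_eq_sum
  intro m hm
  apply hg
  rw [Finset.mem_Icc, not_and_or, not_le, not_le] at hm
  have hm' : (N:ℝ) ≤ |(m:ℝ)| := by
    rcases hm with h | h
    · have : (m:ℝ) < -(N:ℝ) := by exact_mod_cast h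
      linarith [neg_abs_le (m:ℝ)]
    · have : (N:ℝ) < (m:ℝ) := by exact_mod_cast h
      linarith [le_abs_self (m:ℝ)]
  have h3 := abs_sub_abs_le_abs_sub (m:ℝ) (-y)
  rw [abs_neg, sub_neg_eq_add, add_comm (m:ℝ) y] at h3
  linarith

lemma periodize_eventuallyEq {g : ℝ → ℝ} {R : ℝ} (hg : ∀ s, R ≤ |s| → g s = 0) (y : ℝ)
    {N : ℕ} (hN : |y| + 1 + R ≤ N) :
    periodize g =ᶠ[𝓝 y] fun z => ∑ m ∈ Finset.Icc (-(N:ℤ)) (N:ℤ), g (z + (m:ℝ)) := by
  filter_upwards [Metric.ball_mem_nhds y one_pos] with z hz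
  apply periodize_eq_sum hg
  rw [Metric.mem_ball, Real.dist_eq] at hz
  linarith [abs_sub_abs_le_abs_sub z y]

lemma periodize_contDiff {g : ℝ → ℝ} {R : ℝ} (hg : ∀ s, R ≤ |s| → g s = 0)
    (hd : ContDiff ℝ ∞ g) : ContDiff ℝ ∞ (periodize g) := by
  rw [contDiff_iff_contDiffAt]
  intro y
  obtain ⟨N, hN⟩ := exists_nat_ge (|y| + 1 + R)
  refine ContDiffAt.congr_of_eventuallyEq ?_ (periodize_eventuallyEq hg y hN)
  exact (ContDiff.sum fun m _ => hd.comp (contDiff_id.add contDiff_const)).contDiffAt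

lemma periodize_hasDerivAt {g g' : ℝ → ℝ} {R R' : ℝ} (hg : ∀ s, R ≤ |s| → g s = 0)
    (hg' : ∀ s, R' ≤ |s| → g' s = 0) (hd : ∀ s, HasDerivAt g (g' s) s) (y : ℝ) :
    HasDerivAt (periodize g) (periodize g' y) y := by
  obtain ⟨N, hN⟩ := exists_nat_ge (|y| + 1 + max R R')
  have h1 : |y| + 1 + R ≤ N := by linarith [le_max_left R R']
  have h2 : |y| + R' ≤ N := by linarith [le_max_right R R']
  rw [periodize_eq_sum hg' y h2]
  refine HasDerivAt.congr_of_eventuallyEq ?_ (periodize_eventuallyEq hg y h1)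
  exact HasDerivAt.fun_sum fun m _ => (hd (y + m)).comp_add_const y m

lemma periodize_zero_one {g : ℝ → ℝ} (hg : ∀ s, s ≤ 0 ∨ 1 ≤ s → g s = 0) {y : ℝ}
    (h0 : 0 ≤ y) (h1 : y ≤ 1) : periodize g y = g y := by
  unfold periodize
  rw [tsum_eq_single (0:ℤ)]
  · simp
  intro m hm
  apply hg
  rcases lt_or_gt_of_ne hm with h | h
  · left
    have h' : (m:ℝ) ≤ -1 := by exact_mod_cast Int.le_sub_one_of_lt h
    linarith
  · right
    have h' : (1:ℝ) ≤ (m:ℝ) := by exact_mod_cast h
    linarith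

end Vale.Agent.P113
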