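import Vale.Agent.P113.Solution

/-!
The compiled velocity is the unique classical solution, with zero pressure.
-/

namespace Vale.Agent.P113

open Set Filter Topology MeasureTheory
open scoped ContDiff

variable {G : Shift} {c0 : SConf}

lemma pd_eq_deriv_line {g : (Fin 3 → ℝ) → ℝ} {x : Fin 3 → ℝ} (hg : DifferentiableAt ℝ g x)
    {d : ℝ} (j : Fin 3) (h : HasDerivAt (fun s : ℝ => g (x + s • Pi.single j 1)) d 0) :
    pd j g x = d := by
  rw [pd, ← hg.lineDeriv_eq_fderiv]
  exact h.deriv

lemma periodicVel_div (nu : ℝ) (hG : G.Bounded) (t : ℝ) (x : Fin 3 → ℝ) :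
    ∑ i, pd i (fun y => forceVal nu (periodicVel G) t y i) x = 0 := by
  have hd : ∀ i, DifferentiableAt ℝ (fun y => forceVal nu (periodicVel G) t y i) x := fun i =>
    (listVal_contDiff_space nu (periodicVel_valid hG i) t).differentiable (by simp) x
  have hsum : ∀ (L : List (Branch × ℕ)) (f : Branch × ℕ → ℝ → ℝ) (g : Branch × ℕ → ℝ),
      (∀ e, HasDerivAt (f e) (g e) 0) →
      HasDerivAt (fun s => (L.map fun e => f e s).sum) (L.map g).sum 0 := by
    intro L f g h
    induction L with
    | nil => simpa using hasDerivAt_const (0:ℝ) (0:ℝ)
    | cons a L ih =>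
        simp only [List.map_cons, List.sum_cons]
        exact (h a).add ih
  have line : ∀ (x0 : RatCode) (a : ℝ),
      HasDerivAt (fun s : ℝ => lin x0 (a + s)) (dlin x0 a) 0 := by
    intro x0 a
    have h := lin_hasDerivAt x0 (a + 0)
    simpa using h.comp_const_add a 0
  have d0 : pd 0 (fun y => forceVal nu (periodicVel G) t y 0) x
      = ((branches G).zipIdx.map fun e => pulseVal 11 t
          * Real.log (ratVal (ratioCode G e.1) : ℝ) * ivInd (slabOf G e) (x 2)
          * dlin (fixX G e.1) (x 0) * dlin (fixY G e.1) (x 1)).sum := by
    apply pd_eq_deriv_line (hd 0)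
    simp only [fun y => (periodicVel_val nu G t y).1]
    simp only [Pi.add_apply, Pi.smul_apply, Pi.single_apply, smul_eq_mul]
    refine hsum _ _ _ fun e => ?_
    simpa using (((line (fixX G e.1) (x 0)).const_mul _).mul_const _)
  have d1 : pd 1 (fun y => forceVal nu (periodicVel G) t y 1) x
      = ((branches G).zipIdx.map fun e => -(pulseVal 11 t
          * Real.log (ratVal (ratioCode G e.1) : ℝ) * ivInd (slabOf G e) (x 2)
          * dlin (fixX G e.1) (x 0) * dlin (fixY G e.1) (x 1))).sum := by
    apply pd_eq_deriv_line (hd 1)
    simp only [fun y => (periodicVel_val nu G t y).2.1]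
    simp only [Pi.add_apply, Pi.smul_apply, Pi.single_apply, smul_eq_mul]
    refine hsum _ _ _ fun e => ?_
    simpa using (((line (fixY G e.1) (x 1)).const_mul _).fun_neg)
  have d2 : pd 2 (fun y => forceVal nu (periodicVel G) t y 2) x = 0 := by
    apply pd_eq_deriv_line (hd 2)
    simp only [fun y => (periodicVel_val nu G t y).2.2]
    simp [hasDerivAt_const]
  rw [Fin.sum_univ_three, d0, d1, d2, add_zero]
  generalize (branches G).zipIdx = L
  induction L with
  | nil => simp
  | cons a L ih =>
      simp only [List.map_cons, List.sum_cons]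
      linarith

lemma velocity_div (nu : ℝ) (hG : G.Bounded) (t : ℝ) (x : Fin 3 → ℝ) :
    ∑ i, pd i (fun y => forceVal nu (velocity G c0) t y i) x = 0 := by
  have e : ∀ i, pd i (fun y => forceVal nu (velocity G c0) t y i) x
      = pd i (fun y => forceVal nu (periodicVel G) t y i) x := by
    intro i
    have h : (fun y => forceVal nu (velocity G c0) t y i)
        = (fun y => forceVal nu (periodicVel G) t y i)
          + fun y => forceVal nu (transientVel G c0) t y i := by
      funext y
      simp [velocity, forceVal_add]
    have d1 : DifferentiableAt ℝ (fun y => forceVal nu (periodicVel G) t y i) x :=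
      (listVal_contDiff_space nu (periodicVel_valid hG i) t).differentiable (by simp) x
    have d2 : DifferentiableAt ℝ (fun y => forceVal nu (transientVel G c0) t y i) x :=
      (listVal_contDiff_space nu (transientVel_valid G c0 i) t).differentiable (by simp) x
    simp only [pd, h, fderiv_add d1 d2, ContinuousLinearMap.add_apply]
    simpa [pd] using pd_transient nu G c0 i i t x
  simp only [e]
  exact periodicVel_div nu hG t x

lemma velocity_zero (nu : ℝ) (G : Shift) (c : SConf) (x : Fin 3 → ℝ) :
    forceVal nu (velocity G c) 0 x = 0 := by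
  rw [velocity, forceVal_add, periodicVel_idle nu G le_rfl (by norm_num),
    transientVel_idle nu G c (Or.inl (by norm_num)), add_zero]

lemma velocity_classical (nu : ℝ) (hG : G.Bounded) (c : SConf) {T : ℝ} (hT : 0 < T) :
    IsClassicalSolution nu (forceVal nu (compiledForce G c)) T (forceVal nu (velocity G c))
      (fun _ _ => 0) := by
  have hv := velocity_valid hG c
  have hdt : ∀ t ∈ Icc 0 T, ∀ x i, derivWithin (fun s => forceVal nu (velocity G c) s x i)
      (Icc 0 T) t = listVal nu (((velocity G c).component i).flatMap dTime) t x :=
    fun t ht x i => (listVal_hasDerivAt nu (hv i) t x).hasDerivWithinAt.derivWithin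
      (uniqueDiffOn_Icc hT t ht)
  refine
    { periodic_u := fun t _ x j => funext fun i => listVal_periodic nu _ t x j
      periodic_p := fun _ _ _ _ => rfl
      initial := velocity_zero nu G c
      smooth_space := fun t _ i =>
        (listVal_contDiff_space nu (hv i) t).of_le ?_
      diff_time := fun t _ x i =>
        (listVal_hasDerivAt nu (hv i) t x).differentiableAt.differentiableWithinAt
      diff_pressure := fun _ _ => differentiable_const 0
      cont_u := fun i => ((listVal_contDiff nu (hv i)).continuous).continuousOn
      cont_dt := fun i =>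
        (listVal_contDiff nu (listValid_dTime (hv i))).continuous.continuousOn.congr
          fun z hz => hdt z.1 hz.1 z.2 i
      cont_dx := fun i j =>
        (listVal_contDiff nu (listValid_dX j (hv i))).continuous.continuousOn.congr
          fun z _ => listVal_pd nu (hv i) j z.1 z.2
      cont_dxx := ?_
      cont_p := continuousOn_const
      cont_dp := ?_
      mean_zero := fun _ _ => by simp
      momentum := ?_
      div_free := fun t _ x => velocity_div nu hG t x }
  · exact WithTop.coe_le_coe.mpr le_top
  · intro i j k
    refine (listVal_contDiff nu (listValid_dX k (listValid_dX j (hv i)))).continuous.continuousOn.congr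
      fun z _ => ?_
    rw [show pd j (fun x => forceVal nu (velocity G c) z.1 x i) = _ from
      funext fun y => listVal_pd nu (hv i) j z.1 y]
    exact listVal_pd nu (listValid_dX j (hv i)) k z.1 z.2
  · intro j
    exact continuousOn_const.congr fun z _ => (by simp [pd] : pd j (fun _ => (0:ℝ)) z.2 = 0)
  · intro t ht x i
    rw [compiledForce_val nu hG, nsOp_val nu hv, hdt t ht x i]
    have e : deriv (fun s => forceVal nu (velocity G c) s x i) t
        = listVal nu (((velocity G c).component i).flatMap dTime) t x :=
      (listVal_hasDerivAt nu (hv i) t x).deriv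
    rw [e, show pd i (fun _ : Fin 3 → ℝ => (0:ℝ)) x = 0 by simp [pd]]
    ring

theorem velocity_unique_solution {nu : ℝ} (hnu : 0 ≤ nu) (hG : G.Bounded) (c : SConf) :
    IsUniqueGlobalSmoothSolution nu (forceVal nu (compiledForce G c))
      (forceVal nu (velocity G c)) (fun _ _ => 0) :=
  ⟨(contDiff_pi.mpr fun i => listVal_contDiff nu (velocity_valid hG c i)).contDiffOn,
    contDiffOn_const, fun _ hT => velocity_classical nu hG c hT,
    fun _ hT _ _ hv => classical_unique hnu hT (velocity_classical nu hG c hT) hv⟩

lemma compiledForce_smooth (nu : ℝ) (hG : G.Bounded) (c : SConf) :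
    ContDiff ℝ ∞ fun z : ℝ × (Fin 3 → ℝ) => forceVal nu (compiledForce G c) z.1 z.2 :=
  contDiff_pi.mpr fun i => listVal_contDiff nu (compiledForce_valid hG c i)

lemma compiledForce_periodicPart (G : Shift) (c : SConf) :
    (compiledForce G c).periodicPart = nsOp (periodicVel G) := by
  have hp : ∀ i, ListPeriodic ((periodicVel G).component i) := by
    intro i T hT
    fin_cases i <;> simp only [periodicVel, Force.component] at hT <;>
      obtain ⟨e, he, hT⟩ := List.mem_flatMap.mp hT
    · simp only [flowX, planeTerms, List.mem_flatMap, List.mem_map] at hT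
      obtain ⟨a, -, b, -, rfl⟩ := hT
      rfl
    · simp only [flowY, planeTerms, List.mem_flatMap, List.mem_map] at hT
      obtain ⟨a, -, b, -, rfl⟩ := hT
      rfl
    · simp only [flowZ, List.mem_cons, List.not_mem_nil, or_false] at hT
      rcases hT with rfl | rfl <;> rfl
  have h1 : ∀ i, ((nsOp (periodicVel G)).component i).filter termPeriodic
      = (nsOp (periodicVel G)).component i := by
    intro i
    rw [List.filter_eq_self, nsOp_component]
    exact nsComponent_periodic hp (hp i)
  have h2 : ∀ d, ((moveTerm d :: []).flatMap dTime).filter termPeriodic = [] := by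
    intro d
    rw [List.filter_eq_nil_iff]
    intro T hT
    simp [dTime, moveTerm, dList_cons, dList_nil, dTimeFactor, transientPulse, dBump,
      dProfileCase] at hT
    subst hT
    simp [termPeriodic]
  have a0 := h1 0
  have a1 := h1 1
  have a2 := h1 2
  simp only [Force.component, Matrix.cons_val_zero, Matrix.cons_val_one, Matrix.cons_val] at a0 a1 a2
  simp only [compiledForce, Force.periodicPart, Force.add, Force.dt, transientVel,
    List.filter_append, h2, a0, a1, a2, List.append_nil, List.flatMap_nil, List.filter_nil]

lemma compiledForce_transient (nu : ℝ) (G : Shift) (c : SConf) (i : Fin 3) {T : Term}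
    (hT : T ∈ (compiledForce G c).component i) (hp : termPeriodic T = false) {t : ℝ}
    (ht : 1 / 2 ≤ t) (x : Fin 3 → ℝ) : termVal nu T t x = 0 := by
  have hper : T ∉ (nsOp (periodicVel G)).component i := by
    intro hmem
    have h := compiledForce_periodicPart G c
    have hT' : T ∈ ((compiledForce G c).periodicPart).component i := by rw [h]; exact hmem
    fin_cases i <;> simp [Force.periodicPart, Force.component] at hT' <;> simp [hp] at hT'
  rw [compiledForce, Force.add_component, List.mem_append] at hT
  rcases hT with hT | hT
  · exact absurd hT hper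
  · rw [Force.dt_component, List.mem_flatMap] at hT
    obtain ⟨S, hS, hT⟩ := hT
    have hS' : ∃ d, S = moveTerm d := by
      fin_cases i <;> simp [transientVel, Force.component] at hS <;> exact ⟨_, hS⟩
    obtain ⟨d, rfl⟩ := hS'
    simp [dTime, moveTerm, dList_cons, dList_nil, dTimeFactor, transientPulse, dBump,
      dProfileCase] at hT
    subst hT
    have hz : iteratedDeriv 1 rho (8 * t - 2) = 0 :=
      iterRho_zero 1 (le_abs.mpr (Or.inl (by linarith)))
    have h8 : (ratVal (8, 0, 0) : ℝ) = 8 := by norm_num [ratVal]
    have h2 : (ratVal (2, 0, 0) : ℝ) = 2 := by norm_num [ratVal]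
    simp [termVal, timeFactorVal, bumpVal, profileVal, h8, h2, hz]

end Vale.Agent.P113
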