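import Vale.Agent.P113.Zig

/-!
The round structure of the compiled shift and its agreement with the machine.
-/

namespace Vale.Agent.P113

open Function

variable {M : Machine}

/-- The outputs of one round, reading from the window `(p, c)`. -/
def scan (M : Machine) : ℕ → ℕ → List ℕ → List ℕ
  | p, c, [] => [caRule M p c 0, caRule M c 0 0]
  | p, c, a :: l => caRule M p c a :: scan M c a l

/-- A configuration about to read the queue `Q` in queue state `q`. -/
def readConf (M : Machine) (q : ℕ) (h Q : List ℕ) : SConf :=
  (zRead q, h, Q.map sUn ++ [sDollar])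

lemma fire_right {G : Shift} {r : Rule} (h : r.dst < G.left) (c : SConf) :
    G.fire r c = (r.dst, r.wr :: c.2.1, c.2.2.tail) := by
  rw [Shift.fire, if_pos h]

lemma fire_left {G : Shift} {r : Rule} (h : ¬ r.dst < G.left) (c : SConf) :
    G.fire r c = (r.dst, c.2.1.tail, c.2.1.headD 0 :: r.wr :: c.2.2.tail) := by
  rw [Shift.fire, if_neg h]

lemma zRead_right {q : ℕ} (hq : q < qStates M) : zRead q < (shiftOf M).left := by
  rw [shiftOf_left]; unfold zRead zLeft; omega

lemma zCarry_right {q v : ℕ} (hq : q < qStates M) (hv : v < qSyms M) :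
    zCarry M q v < (shiftOf M).left := by
  rw [shiftOf_left]
  have := pair_lt hq hv
  unfold zCarry zLeft
  omega

lemma zMid_right {q : ℕ} (hq : q < qStates M) : zMid M q < (shiftOf M).left := by
  rw [shiftOf_left]; unfold zMid zLeft; omega

lemma zPut_right {q : ℕ} (hq : q < qStates M) : zPut M q < (shiftOf M).left := by
  rw [shiftOf_left]; unfold zPut zLeft; omega

lemma zRet_left (q : ℕ) : ¬ zRet M q < (shiftOf M).left := by
  rw [shiftOf_left]; unfold zRet zLeft; omega

lemma carry_walk (hM : M.Valid) {q v : ℕ} (hq : q < qStates M) (hv : v < qSyms M) :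
    ∀ (Q L : List ℕ), (∀ u ∈ Q, u < qSyms M) →
      (shiftOf M).Run (zCarry M q v, L, Q.map sUn ++ [sDollar]) Q.length False
        (zCarry M q v, (Q.map sUn).reverse ++ L, [sDollar]) := by
  intro Q
  induction Q with
  | nil => intro L _; exact Shift.Run.refl _ _
  | cons u Q ih =>
      intro L hQ
      have hr : (⟨zCarry M q v, sUn u, zCarry M q v, sUn u, false⟩ : Rule) ∈ (shiftOf M).rules := by
        rw [shiftOf_rules]
        exact mem_of_isRule (.pass q v u hq hv (hQ u (by simp)) (pair_lt hq hv))
      have h1 := Shift.Run.single (shiftOf_good hM) hr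
        (c := (zCarry M q v, L, (u :: Q).map sUn ++ [sDollar])) rfl (by simp)
      rw [fire_right (zCarry_right hq hv)] at h1
      simp only [List.map_cons, List.cons_append, List.tail_cons] at h1
      have h2 := h1.trans (ih (sUn u :: L) fun w hw => hQ w (by simp [hw]))
      rw [Nat.add_comm] at h2
      exact h2.congr (by simp) (by simp)

lemma ret_walk (hM : M.Valid) {q p a : ℕ} (hq : q < qStates M) :
    ∀ (W : List ℕ) (h : List ℕ) (u : ℕ) (R : List ℕ), u < qSyms M → (∀ w ∈ W, w < qSyms M) →
      (shiftOf M).Run (zRet M q, W.map sUn ++ sAnn M p a :: h, sUn u :: R) (W.length + 1) False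
        (zRet M q, h, sAnn M p a :: ((W.map sUn).reverse ++ sUn u :: R)) := by
  intro W
  induction W with
  | nil =>
      intro h u R hu _
      have hr : (⟨zRet M q, sUn u, zRet M q, sUn u, false⟩ : Rule) ∈ (shiftOf M).rules := by
        rw [shiftOf_rules]; exact mem_of_isRule (.retPass q u hq hu)
      have h1 := Shift.Run.single (shiftOf_good hM) hr
        (c := (zRet M q, sAnn M p a :: h, sUn u :: R)) rfl rfl
      rw [fire_left (zRet_left q)] at h1
      exact h1.congr (by simp) rfl
  | cons w W ih =>
      intro h u R hu hW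
      have hr : (⟨zRet M q, sUn u, zRet M q, sUn u, false⟩ : Rule) ∈ (shiftOf M).rules := by
        rw [shiftOf_rules]; exact mem_of_isRule (.retPass q u hq hu)
      have h1 := Shift.Run.single (shiftOf_good hM) hr
        (c := (zRet M q, (w :: W).map sUn ++ sAnn M p a :: h, sUn u :: R)) rfl rfl
      rw [fire_left (zRet_left q)] at h1
      simp only [List.map_cons, List.cons_append, List.tail_cons, List.headD_cons] at h1
      have h2 := h1.trans (ih h w (sUn u :: R) (hW w (by simp)) fun x hx => hW x (by simp [hx]))
      rw [Nat.add_comm] at h2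
      exact h2.congr (by simp) (by simp)

/-- What a queue rule appends. -/
def appended (M : Machine) (q v : ℕ) : List ℕ :=
  if q < cellSize M * cellSize M then [v] else [v, extraSym M q]

/-- One queue step. -/
lemma queue_step (hM : M.Valid) {q a q' v : ℕ} (hx : (q, a, q', v) ∈ queueRules M)
    (h Q : List ℕ) (hQ : ∀ u ∈ Q, u < qSyms M) :
    ∃ n, 0 < n ∧ (shiftOf M).Run (readConf M q h (a :: Q)) n (readHot M a = true)
      (readConf M q' (sAnn M q a :: h) (Q ++ appended M q' v)) := by
  obtain ⟨hq, ha, hq', hv⟩ : q < qStates M ∧ a < qSyms M ∧ q' < qStates M ∧ v < qSyms M :=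
    queueRules_bound hM hx
  have hG := shiftOf_good hM
  have r1 : (⟨zRead q, sUn a, zCarry M q' v, sAnn M q a, readHot M a⟩ : Rule)
      ∈ (shiftOf M).rules := by
    rw [shiftOf_rules]
    exact mem_of_isRule (.read q a q' v hx _ rfl hq ha hv (pair_lt hq' hv) (pair_lt hq ha))
  have s1 := Shift.Run.single hG r1 (c := readConf M q h (a :: Q)) rfl (by simp [readConf])
  rw [fire_right (zCarry_right hq' hv)] at s1
  simp only [readConf, List.map_cons, List.cons_append, List.tail_cons] at s1
  have s2 := carry_walk hM hq' hv Q (sAnn M q a :: h) hQ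
  have r3 : (⟨zCarry M q' v, sDollar, endDst M q', sUn v, false⟩ : Rule)
      ∈ (shiftOf M).rules := by
    rw [shiftOf_rules]; exact mem_of_isRule (.last q' v hq' hv (pair_lt hq' hv))
  have s3 := Shift.Run.single hG r3
    (c := (zCarry M q' v, (Q.map sUn).reverse ++ sAnn M q a :: h, [sDollar])) rfl rfl
  have hend : endDst M q' < (shiftOf M).left := by
    unfold endDst
    split_ifs
    · exact zPut_right hq'
    · exact zMid_right hq'
  rw [fire_right hend] at s3
  simp only [List.tail_cons] at s3
  have putStep : ∀ (u : ℕ) (W : List ℕ), u < qSyms M → (∀ w ∈ W, w < qSyms M) →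
      ∃ n, (shiftOf M).Run (zPut M q', sUn u :: (W.map sUn ++ sAnn M q a :: h), []) n False
        (readConf M q' (sAnn M q a :: h) (W.reverse ++ [u])) := by
    intro u W hu hW
    have r5 : (⟨zPut M q', sBlank, zRet M q', sDollar, false⟩ : Rule) ∈ (shiftOf M).rules := by
      rw [shiftOf_rules]; exact mem_of_isRule (.put q' hq')
    have s5 := Shift.Run.single hG r5
      (c := (zPut M q', sUn u :: (W.map sUn ++ sAnn M q a :: h), [])) rfl rfl
    rw [fire_left (zRet_left q')] at s5
    simp only [List.tail_cons, List.tail_nil, List.headD_cons] at s5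
    have s6 := ret_walk hM (p := q) (a := a) hq' W h u [sDollar] hu hW
    have r7 : (⟨zRet M q', sAnn M q a, zRead q', sAnn M q a, false⟩ : Rule)
        ∈ (shiftOf M).rules := by
      rw [shiftOf_rules]; exact mem_of_isRule (.retStop q' q a hq' hq ha (pair_lt hq ha))
    have s7 := Shift.Run.single hG r7
      (c := (zRet M q', h, sAnn M q a :: ((W.map sUn).reverse ++ [sUn u, sDollar]))) rfl rfl
    rw [fire_right (zRead_right hq')] at s7
    exact ⟨_, ((s5.trans s6).trans s7).congr (by simp) (by simp [readConf])⟩
  by_cases hlt : q' < cellSize M * cellSize M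
  · obtain ⟨n, s4⟩ := putStep v Q.reverse hv (by simpa using hQ)
    have e : endDst M q' = zPut M q' := if_pos hlt
    rw [e] at s3
    have s4' : (shiftOf M).Run (zPut M q', sUn v :: ((Q.map sUn).reverse ++ sAnn M q a :: h), []) n
        False (readConf M q' (sAnn M q a :: h) (Q ++ appended M q' v)) := by
      simpa [appended, hlt, List.map_reverse] using s4
    exact ⟨1 + Q.length + 1 + n, by omega,
      (((s1.trans s2).trans s3).trans s4').congr (by simp) rfl⟩
  · have e : endDst M q' = zMid M q' := if_neg hlt
    rw [e] at s3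
    have he := extraSym_lt hq'
    have r4 : (⟨zMid M q', sBlank, zPut M q', sUn (extraSym M q'), false⟩ : Rule)
        ∈ (shiftOf M).rules := by
      rw [shiftOf_rules]; exact mem_of_isRule (.mid q' hq' (not_lt.mp hlt))
    have s4 := Shift.Run.single hG r4
      (c := (zMid M q', sUn v :: ((Q.map sUn).reverse ++ sAnn M q a :: h), [])) rfl rfl
    rw [fire_right (zPut_right hq')] at s4
    simp only [List.tail_nil] at s4
    obtain ⟨n, s5⟩ := putStep (extraSym M q') (v :: Q.reverse) he
      (by simpa [hv] using hQ)
    have s5' : (shiftOf M).Run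
        (zPut M q', sUn (extraSym M q') :: sUn v :: ((Q.map sUn).reverse ++ sAnn M q a :: h), []) n
        False (readConf M q' (sAnn M q a :: h) (Q ++ appended M q' v)) := by
      simpa [appended, hlt, List.map_reverse] using s5
    exact ⟨1 + Q.length + 1 + 1 + n, by omega,
      ((((s1.trans s2).trans s3).trans s4).trans s5').congr (by simp) rfl⟩

/-- All entries are cells. -/
def CellList (M : Machine) (l : List ℕ) : Prop := ∀ a ∈ l, a < cellSize M

lemma cell_qSym {a : ℕ} (h : a < cellSize M) : a < qSyms M := by unfold qSyms; omega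

lemma readHot_cell {a : ℕ} (h : a < cellSize M) : readHot M a = cellHot M a := by
  simp [readHot, h]

lemma readHot_mark {a : ℕ} (h : cellSize M ≤ a) : readHot M a = false := by
  simp [readHot, not_lt.mpr h]

lemma window_round (hM : M.Valid) :
    ∀ (rest : List ℕ) (p c : ℕ) (out h : List ℕ), p < cellSize M → c < cellSize M →
      CellList M rest → CellList M out →
      ∃ n h', 0 < n ∧ (shiftOf M).Run
        (readConf M (winState M p c) h (rest ++ [markA M, markB M] ++ out)) n
        (∃ a ∈ rest, cellHot M a = true)
        (readConf M (startQ M) h' (out ++ scan M p c rest ++ [markA M, markB M])) := by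
  intro rest
  induction rest with
  | nil =>
      intro p c out h hp hc _ hout
      have h0 := cellSize_pos hM
      have f1 := caRule_lt hM hp hc h0
      have f2 := caRule_lt hM hc h0 h0
      have x1 : (winState M p c, markA M, endQ M (caRule M c 0 0), caRule M p c 0)
          ∈ queueRules M :=
        mem_queueRules.mpr (Or.inr (Or.inr (Or.inl ⟨p, hp, c, hc, rfl⟩)))
      obtain ⟨n1, hn1, s1⟩ := queue_step hM x1 h (markB M :: out) (by
        intro u hu
        rcases List.mem_cons.mp hu with rfl | hu
        · unfold markB qSyms; omega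
        · exact cell_qSym (hout u hu))
      have e1 : appended M (endQ M (caRule M c 0 0)) (caRule M p c 0)
          = [caRule M p c 0, caRule M c 0 0] := by
        have h1 : ¬ endQ M (caRule M c 0 0) < cellSize M * cellSize M := by unfold endQ; omega
        have h2 : endQ M (caRule M c 0 0) ≠ startQ M := by unfold endQ startQ; omega
        rw [appended, if_neg h1, extraSym, if_neg h2]
        simp [endQ]
      rw [e1] at s1
      have x2 : (endQ M (caRule M c 0 0), markB M, startQ M, markA M) ∈ queueRules M :=
        mem_queueRules.mpr (Or.inr (Or.inr (Or.inr ⟨_, f2, rfl⟩)))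
      obtain ⟨n2, hn2, s2⟩ := queue_step hM x2 (sAnn M (winState M p c) (markA M) :: h)
        (out ++ [caRule M p c 0, caRule M c 0 0]) (by
        intro u hu
        simp only [List.mem_append, List.mem_cons, List.not_mem_nil, or_false] at hu
        rcases hu with hu | rfl | rfl
        · exact cell_qSym (hout u hu)
        · exact cell_qSym f1
        · exact cell_qSym f2)
      have e2 : appended M (startQ M) (markA M) = [markA M, markB M] := by
        have h1 : ¬ startQ M < cellSize M * cellSize M := by unfold startQ; omega
        rw [appended, if_neg h1, extraSym, if_pos rfl]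
      rw [e2] at s2
      refine ⟨n1 + n2, sAnn M (endQ M (caRule M c 0 0)) (markB M)
        :: sAnn M (winState M p c) (markA M) :: h, by omega, (s1.trans s2).congr ?_ ?_⟩
      · simp [readHot_mark (le_refl (cellSize M)), markA,
          readHot_mark (show cellSize M ≤ markB M by unfold markB; omega)]
      · simp [scan]
  | cons a rest ih =>
      intro p c out h hp hc hr hout
      have ha : a < cellSize M := hr a (by simp)
      have hr' : CellList M rest := fun x hx => hr x (by simp [hx])
      have f1 := caRule_lt hM hp hc ha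
      have x1 : (winState M p c, a, winState M c a, caRule M p c a) ∈ queueRules M :=
        mem_queueRules.mpr (Or.inl ⟨p, hp, c, hc, a, ha, rfl⟩)
      obtain ⟨n1, hn1, s1⟩ := queue_step hM x1 h (rest ++ [markA M, markB M] ++ out) (by
        intro u hu
        simp only [List.mem_append, List.mem_cons, List.not_mem_nil, or_false] at hu
        rcases hu with (hu | rfl | rfl) | hu
        · exact cell_qSym (hr' u hu)
        · unfold markA qSyms; omega
        · unfold markB qSyms; omega
        · exact cell_qSym (hout u hu))
      rw [appended, if_pos (win_lt hc ha)] at s1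
      have e : rest ++ [markA M, markB M] ++ out ++ [caRule M p c a]
          = rest ++ [markA M, markB M] ++ (out ++ [caRule M p c a]) := List.append_assoc _ _ _
      rw [e] at s1
      have hout' : CellList M (out ++ [caRule M p c a]) := by
        intro u hu
        rcases List.mem_append.mp hu with hu | hu
        · exact hout u hu
        · rw [List.mem_singleton] at hu
          exact hu ▸ f1
      obtain ⟨n2, h', hn2, s2⟩ := ih c a (out ++ [caRule M p c a])
        (sAnn M (winState M p c) a :: h) hc ha hr' hout'
      refine ⟨n1 + n2, h', by omega, (s1.trans s2).congr ?_ ?_⟩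
      · simp [readHot_cell ha]
      · simp [scan]

lemma scan_cells (hM : M.Valid) : ∀ (rest : List ℕ) (p c : ℕ), p < cellSize M → c < cellSize M →
    CellList M rest → CellList M (scan M p c rest) := by
  intro rest
  have h0 := cellSize_pos hM
  induction rest with
  | nil =>
      intro p c hp hc _ u hu
      simp only [scan, List.mem_cons, List.not_mem_nil, or_false] at hu
      rcases hu with rfl | rfl
      · exact caRule_lt hM hp hc h0
      · exact caRule_lt hM hc h0 h0
  | cons a rest ih =>
      intro p c hp hc hr u hu
      rcases List.mem_cons.mp hu with rfl | hu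
      · exact caRule_lt hM hp hc (hr a (by simp))
      · exact ih c a hc (hr a (by simp)) (fun x hx => hr x (by simp [hx])) u hu

lemma round (hM : M.Valid) (w h : List ℕ) (hne : w ≠ []) (hw : CellList M w) :
    ∃ n h', 0 < n ∧ (shiftOf M).Run (readConf M (startQ M) h (w ++ [markA M, markB M])) n
      (∃ a ∈ w, cellHot M a = true)
      (readConf M (startQ M) h' (scan M 0 0 w ++ [markA M, markB M])) := by
  obtain ⟨a, rest, rfl⟩ := List.exists_cons_of_ne_nil hne
  have h0 := cellSize_pos hM
  have ha : a < cellSize M := hw a (by simp)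
  have hr : CellList M rest := fun x hx => hw x (by simp [hx])
  have f1 := caRule_lt hM h0 h0 ha
  have x1 : (startQ M, a, winState M 0 a, caRule M 0 0 a) ∈ queueRules M :=
    mem_queueRules.mpr (Or.inr (Or.inl ⟨a, ha, rfl⟩))
  obtain ⟨n1, hn1, s1⟩ := queue_step hM x1 h (rest ++ [markA M, markB M]) (by
    intro u hu
    simp only [List.mem_append, List.mem_cons, List.not_mem_nil, or_false] at hu
    rcases hu with hu | rfl | rfl
    · exact cell_qSym (hr u hu)
    · unfold markA qSyms; omega
    · unfold markB qSyms; omega)
  rw [appended, if_pos (win_lt h0 ha)] at s1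
  obtain ⟨n2, h', hn2, s2⟩ := window_round hM rest 0 a [caRule M 0 0 a]
    (sAnn M (startQ M) a :: h) h0 ha hr (by simpa [CellList] using f1)
  refine ⟨n1 + n2, h', by omega, (s1.trans s2).congr ?_ ?_⟩
  · simp [readHot_cell ha]
  · simp [scan]

/-! ### Agreement with the machine -/

/-- The coded cell of a configuration at a position. -/
def cellAt (M : Machine) (c : Config) (i : ℤ) : ℕ :=
  c.tape i + M.numSymbols * (if i = c.pos then c.state + 1 else 0)

/-- Zero padding of a finite word. -/
def padded (w : List ℕ) (j : ℤ) : ℕ := if 0 ≤ j then w.getD j.toNat 0 else 0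

/-- States and tape symbols are in range. -/
def ConfigOK (M : Machine) (c : Config) : Prop :=
  c.state < M.numStates ∧ ∀ i, c.tape i < M.numSymbols

lemma step_eq (c : Config) :
    M.step c = { state := (act M c.state (c.tape c.pos)).1
                 pos := c.pos + moveOffset (act M c.state (c.tape c.pos)).2.2
                 tape := update c.tape c.pos (act M c.state (c.tape c.pos)).2.1 } := by
  unfold Machine.step act
  split_ifs with h
  · simp [moveOffset]
  · rfl

lemma ConfigOK.step (hM : M.Valid) {c : Config} (h : ConfigOK M c) : ConfigOK M (M.step c) := by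
  rw [step_eq]
  obtain ⟨h1, h2⟩ := act_bound hM h.1 (h.2 c.pos)
  refine ⟨h1, fun i => ?_⟩
  by_cases hi : i = c.pos
  · subst hi; simpa using h2
  · simpa [hi] using h.2 i

lemma cellAt_lt (hM : M.Valid) {c : Config} (h : ConfigOK M c) (i : ℤ) :
    cellAt M c i < cellSize M := by
  have a := h.2 i
  have b : (if i = c.pos then c.state + 1 else 0) ≤ M.numStates := by
    split_ifs
    · exact h.1
    · exact Nat.zero_le _
  have := Nat.mul_le_mul_left M.numSymbols b
  calc cellAt M c i < M.numSymbols + M.numSymbols * M.numStates := by unfold cellAt; omega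
    _ = cellSize M := by unfold cellSize; ring

lemma cellAt_step (hM : M.Valid) {c : Config} (h : ConfigOK M c) (i : ℤ) :
    cellAt M (M.step c) i
      = caRule M (cellAt M c (i - 1)) (cellAt M c i) (cellAt M c (i + 1)) := by
  have hd : ∀ j, headOf M (cellAt M c j) = if j = c.pos then c.state + 1 else 0 := fun j =>
    headOf_cell hM (h.2 j) _
  have sy : ∀ j, symOf M (cellAt M c j) = c.tape j := fun j => symOf_cell (h.2 j) _
  rw [step_eq]
  simp only [caRule, newSym, newHead, cellState, cellWrite, cellMove, hd, sy]
  simp only [cellAt]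
  rcases hmv : (act M c.state (c.tape c.pos)).2.2 with _ | _ | _ <;>
    (by_cases e0 : i = c.pos
     · subst e0
       simp [hmv, moveOffset]
     · by_cases e1 : i - 1 = c.pos
       · have e2 : ¬ i + 1 = c.pos := by omega
         rw [e1]
         simp [hmv, e0, e2, moveOffset] <;> split_ifs <;> (try simp_all) <;> omega
       · by_cases e2 : i + 1 = c.pos
         · rw [e2]
           simp [hmv, e0, e1, moveOffset] <;> split_ifs <;> (try simp_all) <;> omega
         · simp [e0, e1, e2, moveOffset] <;> split_ifs <;> (try simp_all) <;> omega)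

lemma cellHot_iff (hM : M.Valid) {c : Config} (h : ConfigOK M c) (i : ℤ) :
    cellHot M (cellAt M c i) = true ↔ i = c.pos ∧ c.state ∈ M.halting := by
  simp only [cellHot, decide_eq_true_eq, cellAt, headOf_cell hM (h.2 i)]
  split_ifs with e <;> simp [e]

lemma scan_getD : ∀ (rest : List ℕ) (p c k : ℕ),
    (scan M p c rest).getD k 0 = caRule M ((p :: c :: rest).getD k 0)
      ((p :: c :: rest).getD (k + 1) 0) ((p :: c :: rest).getD (k + 2) 0) := by
  intro rest
  induction rest with
  | nil =>
      intro p c k
      match k with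
      | 0 => simp [scan]
      | 1 => simp [scan]
      | k + 2 => simp [scan, caRule_zero]
  | cons a rest ih =>
      intro p c k
      match k with
      | 0 => simp [scan]
      | k + 1 =>
          simp only [scan, List.getD_cons_succ]
          exact ih c a k

lemma scan_padded (w : List ℕ) (j : ℤ) :
    padded (scan M 0 0 w) j
      = caRule M (padded w (j - 2)) (padded w (j - 1)) (padded w j) := by
  by_cases hj : 0 ≤ j
  · obtain ⟨k, rfl⟩ := Int.eq_ofNat_of_zero_le hj
    have hp : padded (scan M 0 0 w) (k:ℤ) = (scan M 0 0 w).getD k 0 := by simp [padded]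
    rw [hp, scan_getD]
    match k with
    | 0 => simp [padded]
    | 1 => simp [padded]
    | k + 2 =>
        simp only [List.getD_cons_succ, padded]
        rw [if_pos (by omega), if_pos (by omega), if_pos (by omega)]
        congr 2
        all_goals omega
  · have h1 : ¬ 0 ≤ j - 1 := by omega
    have h2 : ¬ 0 ≤ j - 2 := by omega
    simp only [padded, if_neg hj, if_neg h1, if_neg h2, caRule_zero]

/-- A word describes a configuration from some offset on. -/
def Describes (M : Machine) (w : List ℕ) (c : Config) : Prop :=
  ∃ o : ℤ, ∀ i : ℤ, cellAt M c i = padded w (i - o)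

lemma Describes.step (hM : M.Valid) {w : List ℕ} {c : Config} (h : ConfigOK M c)
    (hd : Describes M w c) : Describes M (scan M 0 0 w) (M.step c) := by
  obtain ⟨o, ho⟩ := hd
  refine ⟨o - 1, fun i => ?_⟩
  rw [cellAt_step hM h, ho, ho, ho, scan_padded]
  congr 2 <;> ring

lemma Describes.hot (hM : M.Valid) {w : List ℕ} {c : Config} (h : ConfigOK M c)
    (hd : Describes M w c) : (∃ a ∈ w, cellHot M a = true) ↔ c.state ∈ M.halting := by
  obtain ⟨o, ho⟩ := hd
  constructor
  · rintro ⟨a, ha, hh⟩
    obtain ⟨k, hk, rfl⟩ := List.getElem_of_mem ha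
    have e : cellAt M c ((k:ℤ) + o) = w[k] := by
      rw [ho]; simp [padded, hk]
    rw [← e] at hh
    exact ((cellHot_iff hM h _).mp hh).2
  · intro hs
    have hh := (cellHot_iff hM h c.pos).mpr ⟨rfl, hs⟩
    rw [ho, padded] at hh
    split_ifs at hh with hpos
    · by_cases hlt : (c.pos - o).toNat < w.length
      · refine ⟨_, List.getElem_mem hlt, ?_⟩
        rwa [List.getD_eq_getElem _ _ hlt] at hh
      · rw [List.getD_eq_default _ _ (not_lt.mp hlt)] at hh
        simp [cellHot, headOf] at hh
    · simp [cellHot, headOf] at hh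

lemma ConfigOK.init (hM : M.Valid) {w : List ℕ} (hw : ∀ a ∈ w, a < M.numSymbols) :
    ConfigOK M (M.init w) := by
  refine ⟨hM.2.1, fun i => ?_⟩
  simp only [Machine.init]
  split_ifs
  · by_cases hl : i.toNat < w.length
    · rw [List.getD_eq_getElem _ _ hl]; exact hw _ (List.getElem_mem hl)
    · rw [List.getD_eq_default _ _ (not_lt.mp hl)]; exact hM.1
  · exact hM.1

lemma Describes.init (M : Machine) (w : List ℕ) : Describes M (initWord M w) (M.init w) := by
  refine ⟨0, fun i => ?_⟩
  simp only [sub_zero, cellAt, Machine.init, padded, initWord]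
  by_cases hi : 0 ≤ i
  · obtain ⟨k, rfl⟩ := Int.eq_ofNat_of_zero_le hi
    match k with
    | 0 => cases w <;> simp
    | k + 1 =>
        have : ((k:ℤ) + 1) ≠ 0 := by omega
        cases w <;> simp [this]
  · have : i ≠ 0 := by omega
    simp [hi, this]

lemma initWord_cells (hM : M.Valid) {w : List ℕ} (hw : ∀ a ∈ w, a < M.numSymbols) :
    CellList M (initWord M w) := by
  intro a ha
  rcases List.mem_cons.mp ha with rfl | ha
  · have h1 : w.headD 0 < M.numSymbols := headD_lt hM.1 hw
    have h2 := Nat.mul_le_mul_left M.numSymbols (show M.startState + 1 ≤ M.numStates from hM.2.1)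
    calc w.headD 0 + M.numSymbols * (M.startState + 1)
        < M.numSymbols + M.numSymbols * M.numStates := by omega
      _ = cellSize M := by unfold cellSize; ring
  · have h1 := hw a (List.mem_of_mem_tail ha)
    have : M.numSymbols ≤ cellSize M := Nat.le_mul_of_pos_right _ (Nat.succ_pos _)
    omega

lemma rounds (hM : M.Valid) {w : List ℕ} (hw : ∀ a ∈ w, a < M.numSymbols) (t : ℕ) :
    ∃ n h W, t ≤ n ∧
      (shiftOf M).Run (initConf M w) n (∃ s < t, (M.step^[s] (M.init w)).state ∈ M.halting)
        (readConf M (startQ M) h (W ++ [markA M, markB M])) ∧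
      W ≠ [] ∧ CellList M W ∧ Describes M W (M.step^[t] (M.init w)) ∧
      ConfigOK M (M.step^[t] (M.init w)) := by
  induction t with
  | zero =>
      exact ⟨0, [], initWord M w, le_rfl, (Shift.Run.refl _ _).congr (by simp) rfl,
        by simp [initWord], initWord_cells hM hw, Describes.init M w, ConfigOK.init hM hw⟩
  | succ t ih =>
      obtain ⟨n, h, W, hn, run, hne, hW, hd, hc⟩ := ih
      obtain ⟨m, h', hm, run'⟩ := round hM W h hne hW
      refine ⟨n + m, h', scan M 0 0 W, by omega, (run.trans run').congr ?_ rfl, ?_,
        scan_cells hM W 0 0 (cellSize_pos hM) (cellSize_pos hM) hW, ?_, ?_⟩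
      · rw [Describes.hot hM hc hd]
        constructor
        · rintro (⟨s, hs, hh⟩ | hh)
          · exact ⟨s, by omega, hh⟩
          · exact ⟨t, by omega, hh⟩
        · rintro ⟨s, hs, hh⟩
          rcases Nat.lt_succ_iff_lt_or_eq.mp hs with hs | rfl
          · exact Or.inl ⟨s, hs, hh⟩
          · exact Or.inr hh
      · cases W <;> simp [scan]
      · rw [iterate_succ_apply']; exact hd.step hM hc
      · rw [iterate_succ_apply']; exact hc.step hM

/-- The compiled shift runs for ever and fires a hot rule iff the machine halts. -/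
theorem shift_simulates (hM : M.Valid) {w : List ℕ} (hw : ∀ a ∈ w, a < M.numSymbols) :
    (shiftOf M).InRange (initConf M w) ∧
    (∀ n, (shiftOf M).Live ((shiftOf M).next^[n] (initConf M w))) ∧
    ((∃ n, (shiftOf M).Hot ((shiftOf M).next^[n] (initConf M w))) ↔ M.Halts w) := by
  refine ⟨⟨?_, ?_, ?_⟩, ?_, ?_, ?_⟩
  · rw [shiftOf_states]
    have := start_lt (M := M)
    simp only [initConf, zRead, zStates]
    omega
  · simp [initConf]
  · intro a ha
    rw [shiftOf_syms]
    simp only [initConf, List.mem_append, List.mem_map, List.mem_cons,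
      List.not_mem_nil, or_false] at ha
    rcases ha with ⟨u, hu, rfl⟩ | rfl
    · have : u < qSyms M := by
        rcases hu with hu | rfl | rfl
        · exact cell_qSym (initWord_cells hM hw u hu)
        · unfold markA qSyms; omega
        · unfold markB qSyms; omega
      unfold sUn zSyms; omega
    · unfold sDollar zSyms; omega
  · intro n
    obtain ⟨m, h, W, hm, run, -⟩ := rounds hM hw (n + 1)
    exact run.2.1 n (by omega)
  · rintro ⟨n, hn⟩
    obtain ⟨m, h, W, hm, run, -⟩ := rounds hM hw (n + 1)
    obtain ⟨s, -, hh⟩ := run.2.2.mp ⟨n, by omega, hn⟩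
    exact ⟨s, hh⟩
  · rintro ⟨s, hs⟩
    obtain ⟨m, h, W, hm, run, -⟩ := rounds hM hw (s + 1)
    obtain ⟨n, -, hn⟩ := run.2.2.mpr ⟨s, by omega, hs⟩
    exact ⟨n, hn⟩

end Vale.Agent.P113
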