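import Vale.Agent.P113.Classical
import Vale.Agent.P113.Sim

/-!
The compiler and the proof that it is computable.
-/

namespace Vale.Agent.P113

open Primrec

def Shift.equivTuple : Shift ≃ ℕ × ℕ × ℕ × List Rule where
  toFun G := (G.states, G.syms, G.left, G.rules)
  invFun x := ⟨x.1, x.2.1, x.2.2.1, x.2.2.2⟩
  left_inv _ := rfl
  right_inv _ := rfl

instance : Primcodable Shift := Primcodable.ofEquiv _ Shift.equivTuple

/-- Keep the rules whose indices are in range. -/
def Shift.clean (G : Shift) : Shift :=
  { states := G.states, syms := G.syms, left := G.left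
    rules := G.rules.filter fun r =>
      decide ((r.src < G.states ∧ r.dst < G.states) ∧ (r.sym < G.syms ∧ r.wr < G.syms)) }

/-- The force compiler. -/
def compile (p : Machine × List ℕ) : Force :=
  compiledForce (shiftOf p.1).clean (initConf p.1 p.2)

lemma Shift.clean_bounded (G : Shift) : G.clean.Bounded := by
  intro r hr
  simp only [Shift.clean, List.mem_filter, decide_eq_true_eq] at hr
  exact ⟨hr.2.1.1, hr.2.1.2, hr.2.2.1, hr.2.2.2⟩

lemma Shift.Good.clean_eq {G : Shift} (h : G.Good) : G.clean = G := by
  have e : (G.rules.filter fun r =>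
      decide ((r.src < G.states ∧ r.dst < G.states) ∧ (r.sym < G.syms ∧ r.wr < G.syms)))
      = G.rules := by
    rw [List.filter_eq_self]
    intro r hr
    simp [h.src_lt r hr, h.dst_lt r hr, h.sym_lt r hr, h.wr_lt r hr]
  obtain ⟨a, b, c, d⟩ := G
  simp only [Shift.clean] at e ⊢
  rw [e]

section Proofs

variable {α β γ : Type} [Primcodable α] [Primcodable β] [Primcodable γ]

lemma pAdd {f g : α → ℕ} (hf : Primrec f) (hg : Primrec g) : Primrec fun a => f a + g a :=
  nat_add.comp hf hg
lemma pSub {f g : α → ℕ} (hf : Primrec f) (hg : Primrec g) : Primrec fun a => f a - g a :=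
  nat_sub.comp hf hg
lemma pMul {f g : α → ℕ} (hf : Primrec f) (hg : Primrec g) : Primrec fun a => f a * g a :=
  nat_mul.comp hf hg
lemma pApp {f g : α → List β} (hf : Primrec f) (hg : Primrec g) :
    Primrec fun a => f a ++ g a := list_append.comp hf hg
lemma pEq {f g : α → β} (hf : Primrec f) (hg : Primrec g) : PrimrecPred fun a => f a = g a :=
  Primrec.eq.comp hf hg
lemma pLt {f g : α → ℕ} (hf : Primrec f) (hg : Primrec g) : PrimrecPred fun a => f a < g a :=
  nat_lt.comp hf hg
lemma pLe {f g : α → ℕ} (hf : Primrec f) (hg : Primrec g) : PrimrecPred fun a => f a ≤ g a :=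
  nat_le.comp hf hg
lemma pMem [DecidableEq β] {f : α → β} {g : α → List β} (hf : Primrec f) (hg : Primrec g) :
    PrimrecPred fun a => f a ∈ g a :=
  (pLt (list_idxOf.comp hf hg) (list_length.comp hg)).of_eq fun _ => List.idxOf_lt_length_iff

/-! #### machines, rules and shifts -/

lemma machine_tuple : Primrec Machine.equivTuple := Primrec.of_equiv (e := Machine.equivTuple)

lemma p_numStates : Primrec Machine.numStates := fst.comp machine_tuple
lemma p_numSymbols : Primrec Machine.numSymbols := fst.comp (snd.comp machine_tuple)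
lemma p_start : Primrec Machine.startState := fst.comp (snd.comp (snd.comp machine_tuple))
lemma p_halting : Primrec Machine.halting :=
  fst.comp (snd.comp (snd.comp (snd.comp machine_tuple)))
lemma p_table : Primrec Machine.table :=
  snd.comp (snd.comp (snd.comp (snd.comp machine_tuple)))

lemma rule_tuple : Primrec Rule.equivTuple := Primrec.of_equiv (e := Rule.equivTuple)

lemma p_src : Primrec Rule.src := fst.comp rule_tuple
lemma p_sym : Primrec Rule.sym := fst.comp (snd.comp rule_tuple)
lemma p_dst : Primrec Rule.dst := fst.comp (snd.comp (snd.comp rule_tuple))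
lemma p_wr : Primrec Rule.wr := fst.comp (snd.comp (snd.comp (snd.comp rule_tuple)))
lemma p_hot : Primrec Rule.hot := snd.comp (snd.comp (snd.comp (snd.comp rule_tuple)))

lemma pRule {a b c d : α → ℕ} {e : α → Bool} (ha : Primrec a) (hb : Primrec b) (hc : Primrec c)
    (hd : Primrec d) (he : Primrec e) :
    Primrec fun x => (⟨a x, b x, c x, d x, e x⟩ : Rule) :=
  ((Primrec.of_equiv_symm (e := Rule.equivTuple)).comp
    (ha.pair (hb.pair (hc.pair (hd.pair he))))).of_eq fun _ => rfl

lemma shift_tuple : Primrec Shift.equivTuple := Primrec.of_equiv (e := Shift.equivTuple)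

lemma p_states : Primrec Shift.states := fst.comp shift_tuple
lemma p_syms : Primrec Shift.syms := fst.comp (snd.comp shift_tuple)
lemma p_left : Primrec Shift.left := fst.comp (snd.comp (snd.comp shift_tuple))
lemma p_rules : Primrec Shift.rules := snd.comp (snd.comp (snd.comp shift_tuple))

lemma p_action {f : α → Machine} {q a : α → ℕ} (hf : Primrec f) (hq : Primrec q)
    (ha : Primrec a) : Primrec fun x => (f x).action (q x) (a x) := by
  have h1 : Primrec fun x => (f x).table.getD (q x) [] :=
    (list_getD ([] : List Action)).comp (p_table.comp hf) hq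
  have h2 : Primrec fun x => ((f x).table.getD (q x) [])[a x]? := list_getElem?.comp h1 ha
  refine (option_getD.comp h2 (hq.pair (ha.pair (const none)))).of_eq fun x => ?_
  simp [Machine.action, List.getD_eq_getElem?_getD]

lemma p_act {f : α → Machine} {q a : α → ℕ} (hf : Primrec f) (hq : Primrec q) (ha : Primrec a) :
    Primrec fun x => act (f x) (q x) (a x) :=
  (Primrec.ite (pMem hq (p_halting.comp hf)) (hq.pair (ha.pair (const none)))
    (p_action hf hq ha)).of_eq fun _ => rfl

lemma p_headOf {f : α → Machine} {c : α → ℕ} (hf : Primrec f) (hc : Primrec c) :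
    Primrec fun x => headOf (f x) (c x) := nat_div.comp hc (p_numSymbols.comp hf)

lemma p_symOf {f : α → Machine} {c : α → ℕ} (hf : Primrec f) (hc : Primrec c) :
    Primrec fun x => symOf (f x) (c x) := nat_mod.comp hc (p_numSymbols.comp hf)

lemma p_cellAct {f : α → Machine} {c : α → ℕ} (hf : Primrec f) (hc : Primrec c) :
    Primrec fun x => act (f x) (headOf (f x) (c x) - 1) (symOf (f x) (c x)) :=
  p_act hf (pSub (p_headOf hf hc) (const 1)) (p_symOf hf hc)

lemma p_caRule {f : α → Machine} {l c r : α → ℕ} (hf : Primrec f) (hl : Primrec l)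
    (hc : Primrec c) (hr : Primrec r) :
    Primrec fun x => caRule (f x) (l x) (c x) (r x) := by
  have hmv : ∀ {d : α → ℕ} (m : Option Bool), Primrec d →
      PrimrecPred fun x => headOf (f x) (d x) ≠ 0 ∧ cellMove (f x) (d x) = m := fun {d} m hd =>
    (pEq (p_headOf hf hd) (const 0)).not.and (pEq (snd.comp (snd.comp (p_cellAct hf hd))) (const m))
  have hst : ∀ {d : α → ℕ}, Primrec d → Primrec fun x => cellState (f x) (d x) + 1 :=
    fun {d} hd => pAdd (fst.comp (p_cellAct hf hd)) (const 1)
  have hs : Primrec fun x => newSym (f x) (c x) :=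
    (Primrec.ite (pEq (p_headOf hf hc) (const 0)) (p_symOf hf hc)
      (fst.comp (snd.comp (p_cellAct hf hc)))).of_eq fun _ => rfl
  have hh : Primrec fun x => newHead (f x) (l x) (c x) (r x) :=
    (Primrec.ite (hmv none hc) (hst hc) (Primrec.ite (hmv (some true) hl) (hst hl)
      (Primrec.ite (hmv (some false) hr) (hst hr) (const 0)))).of_eq fun _ => by
        simp only [newHead]
  exact pAdd hs (pMul (p_numSymbols.comp hf) hh)

lemma p_cellSize : Primrec cellSize := pMul p_numSymbols (pAdd p_numStates (const 1))
lemma p_qSyms : Primrec qSyms := pAdd p_cellSize (const 2)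
lemma p_qStates : Primrec qStates := pAdd (pAdd (pMul p_cellSize p_cellSize) (const 1)) p_cellSize
lemma p_startQ : Primrec startQ := pMul p_cellSize p_cellSize
lemma p_markA : Primrec markA := p_cellSize
lemma p_markB : Primrec markB := pAdd p_cellSize (const 1)

lemma p_winState {f : α → Machine} {a b : α → ℕ} (hf : Primrec f) (ha : Primrec a)
    (hb : Primrec b) : Primrec fun x => winState (f x) (a x) (b x) :=
  pAdd (pMul ha (p_cellSize.comp hf)) hb

lemma p_endQ {f : α → Machine} {a : α → ℕ} (hf : Primrec f) (ha : Primrec a) :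
    Primrec fun x => endQ (f x) (a x) :=
  pAdd (pAdd (p_startQ.comp hf) (const 1)) ha

lemma p_cells : Primrec fun M => List.range (cellSize M) := list_range.comp p_cellSize

lemma p_queueRules : Primrec queueRules := by
  have m3 : Primrec fun x : ((Machine × ℕ) × ℕ) × ℕ => x.1.1.1 := fst.comp (fst.comp fst)
  have p3 : Primrec fun x : ((Machine × ℕ) × ℕ) × ℕ => x.1.1.2 := snd.comp (fst.comp fst)
  have c3 : Primrec fun x : ((Machine × ℕ) × ℕ) × ℕ => x.1.2 := snd.comp fst
  have r1 : Primrec fun M : Machine =>
      (List.range (cellSize M)).flatMap fun p => (List.range (cellSize M)).flatMap fun c =>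
        (List.range (cellSize M)).map fun a =>
          (winState M p c, a, winState M c a, caRule M p c a) :=
    list_flatMap p_cells
      ((list_flatMap (p_cells.comp fst)
        ((list_map (p_cells.comp (fst.comp fst))
          ((p_winState m3 p3 c3).pair (snd.pair ((p_winState m3 c3 snd).pair
            (p_caRule m3 p3 c3 snd)))).to₂).to₂)).to₂)
  have r2 : Primrec fun M : Machine => (List.range (cellSize M)).map fun a =>
      (startQ M, a, winState M 0 a, caRule M 0 0 a) :=
    list_map p_cells
      ((p_startQ.comp fst).pair (snd.pair ((p_winState fst (const 0) snd).pair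
        (p_caRule fst (const 0) (const 0) snd)))).to₂
  have m2 : Primrec fun x : (Machine × ℕ) × ℕ => x.1.1 := fst.comp fst
  have p2 : Primrec fun x : (Machine × ℕ) × ℕ => x.1.2 := snd.comp fst
  have r3 : Primrec fun M : Machine => (List.range (cellSize M)).flatMap fun p =>
      (List.range (cellSize M)).map fun c =>
        (winState M p c, markA M, endQ M (caRule M c 0 0), caRule M p c 0) :=
    list_flatMap p_cells
      ((list_map (p_cells.comp fst)
        ((p_winState m2 p2 snd).pair ((p_markA.comp m2).pair
          ((p_endQ m2 (p_caRule m2 snd (const 0) (const 0))).pair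
            (p_caRule m2 p2 snd (const 0))))).to₂).to₂)
  have r4 : Primrec fun M : Machine => (List.range (cellSize M)).map fun e =>
      (endQ M e, markB M, startQ M, markA M) :=
    list_map p_cells
      ((p_endQ fst snd).pair ((p_markB.comp fst).pair
        ((p_startQ.comp fst).pair (p_markA.comp fst)))).to₂
  exact (pApp (pApp (pApp r1 r2) r3) r4).of_eq fun _ => rfl

lemma p_zBase : Primrec fun M => qStates M + qStates M * qSyms M :=
  pAdd p_qStates (pMul p_qStates p_qSyms)

lemma p_zCarry {f : α → Machine} {a b : α → ℕ} (hf : Primrec f) (ha : Primrec a)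
    (hb : Primrec b) : Primrec fun x => zCarry (f x) (a x) (b x) :=
  pAdd (p_qStates.comp hf) (pAdd (pMul ha (p_qSyms.comp hf)) hb)

lemma p_zMid {f : α → Machine} {a : α → ℕ} (hf : Primrec f) (ha : Primrec a) :
    Primrec fun x => zMid (f x) (a x) := pAdd (p_zBase.comp hf) ha

lemma p_zPut {f : α → Machine} {a : α → ℕ} (hf : Primrec f) (ha : Primrec a) :
    Primrec fun x => zPut (f x) (a x) :=
  pAdd (pAdd (p_zBase.comp hf) (p_qStates.comp hf)) ha

lemma p_zRet {f : α → Machine} {a : α → ℕ} (hf : Primrec f) (ha : Primrec a) :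
    Primrec fun x => zRet (f x) (a x) :=
  pAdd (pAdd (pAdd (p_zBase.comp hf) (p_qStates.comp hf)) (p_qStates.comp hf)) ha

lemma p_sUn {a : α → ℕ} (ha : Primrec a) : Primrec fun x => sUn (a x) := pAdd (const 2) ha

lemma p_sAnn {f : α → Machine} {a b : α → ℕ} (hf : Primrec f) (ha : Primrec a)
    (hb : Primrec b) : Primrec fun x => sAnn (f x) (a x) (b x) :=
  pAdd (pAdd (const 2) (p_qSyms.comp hf)) (pAdd (pMul ha (p_qSyms.comp hf)) hb)

lemma p_readHot {f : α → Machine} {a : α → ℕ} (hf : Primrec f) (ha : Primrec a) :
    Primrec fun x => readHot (f x) (a x) := by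
  have h1 : PrimrecPred fun x => a x < cellSize (f x) := pLt ha (p_cellSize.comp hf)
  have h2 : PrimrecPred fun x =>
      headOf (f x) (a x) ≠ 0 ∧ headOf (f x) (a x) - 1 ∈ (f x).halting :=
    (pEq (p_headOf hf ha) (const 0)).not.and
      (pMem (pSub (p_headOf hf ha) (const 1)) (p_halting.comp hf))
  exact (Primrec.and.comp h1.decide h2.decide).of_eq fun _ => by simp [readHot, cellHot]

lemma p_qRange : Primrec fun M => List.range (qStates M) := list_range.comp p_qStates
lemma p_uRange : Primrec fun M => List.range (qSyms M) := list_range.comp p_qSyms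

lemma p_allRules : Primrec allRules := by
  have m2 : Primrec fun x : (Machine × ℕ) × ℕ => x.1.1 := fst.comp fst
  have p2 : Primrec fun x : (Machine × ℕ) × ℕ => x.1.2 := snd.comp fst
  have m3 : Primrec fun x : ((Machine × ℕ) × ℕ) × ℕ => x.1.1.1 := fst.comp (fst.comp fst)
  have q3 : Primrec fun x : ((Machine × ℕ) × ℕ) × ℕ => x.1.1.2 := snd.comp (fst.comp fst)
  have v3 : Primrec fun x : ((Machine × ℕ) × ℕ) × ℕ => x.1.2 := snd.comp fst
  have a0 : Primrec fun x : Machine × (ℕ × ℕ × ℕ × ℕ) => x.2.1 := fst.comp snd
  have a1 : Primrec fun x : Machine × (ℕ × ℕ × ℕ × ℕ) => x.2.2.1 := fst.comp (snd.comp snd)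
  have a2 : Primrec fun x : Machine × (ℕ × ℕ × ℕ × ℕ) => x.2.2.2.1 :=
    fst.comp (snd.comp (snd.comp snd))
  have a3 : Primrec fun x : Machine × (ℕ × ℕ × ℕ × ℕ) => x.2.2.2.2 :=
    snd.comp (snd.comp (snd.comp snd))
  have h1 : Primrec readRules :=
    (list_map p_queueRules
      (pRule (a := fun x : Machine × (ℕ × ℕ × ℕ × ℕ) => zRead x.2.1) a0 (p_sUn a1)
        (p_zCarry fst a2 a3) (p_sAnn fst a0 a1) (p_readHot fst a1)).to₂).of_eq fun _ => rfl
  have h2 : Primrec passRules :=
    (list_flatMap p_qRange ((list_flatMap (p_uRange.comp fst)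
      ((list_map (p_uRange.comp (fst.comp fst))
        (pRule (p_zCarry m3 q3 v3) (p_sUn snd) (p_zCarry m3 q3 v3) (p_sUn snd)
          (const false)).to₂).to₂)).to₂)).of_eq fun _ => rfl
  have hend : Primrec fun x : (Machine × ℕ) × ℕ => endDst x.1.1 x.1.2 :=
    (Primrec.ite (pLt p2 (p_startQ.comp m2)) (p_zPut m2 p2) (p_zMid m2 p2)).of_eq fun _ => by
      simp only [endDst, startQ]
      split_ifs with h
      · exact (if_pos h).symm ▸ rfl
      · exact (if_neg h).symm ▸ rfl
  have h3 : Primrec endRules :=
    (list_flatMap p_qRange ((list_map (p_uRange.comp fst)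
      (pRule (p_zCarry m2 p2 snd) (const sDollar) hend (p_sUn snd)
        (const false)).to₂).to₂)).of_eq fun _ => rfl
  have hx : Primrec fun x : Machine × ℕ => extraSym x.1 x.2 :=
    (Primrec.ite (pEq snd (p_startQ.comp fst)) (p_markB.comp fst)
      (pSub snd (pAdd (p_startQ.comp fst) (const 1)))).of_eq fun _ => by
      simp only [extraSym, startQ]
  have hflt : Primrec fun M : Machine => (List.range (qStates M)).filterMap fun q =>
      if cellSize M * cellSize M ≤ q then some q else none :=
    listFilterMap p_qRange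
      (Primrec.ite (pLe (p_startQ.comp fst) snd) (option_some.comp snd) (const none)).to₂
  have h4 : Primrec midRules :=
    (list_map hflt (pRule (p_zMid fst snd) (const sBlank) (p_zPut fst snd) (p_sUn hx)
      (const false)).to₂).of_eq fun M => by
      simp only [midRules, ← List.filterMap_eq_filter, Option.guard, decide_eq_true_eq]
  have h5 : Primrec putRules :=
    (list_map p_qRange (pRule (p_zPut fst snd) (const sBlank) (p_zRet fst snd) (const sDollar)
      (const false)).to₂).of_eq fun _ => rfl
  have h6 : Primrec retPassRules :=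
    (list_flatMap p_qRange ((list_map (p_uRange.comp fst)
      (pRule (p_zRet m2 p2) (p_sUn snd) (p_zRet m2 p2) (p_sUn snd)
        (const false)).to₂).to₂)).of_eq fun _ => rfl
  have h7 : Primrec retStopRules :=
    (list_flatMap p_qRange ((list_flatMap (p_qRange.comp fst)
      ((list_map (p_uRange.comp (fst.comp fst))
        (pRule (c := fun x : ((Machine × ℕ) × ℕ) × ℕ => zRead x.1.1.2) (p_zRet m3 q3)
          (p_sAnn m3 v3 snd) q3 (p_sAnn m3 v3 snd) (const false)).to₂).to₂)).to₂)).of_eq
      fun _ => rfl
  have hdd : Primrec dedupRules :=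
    (list_foldr Primrec.id (const [])
      (Primrec.ite (pMem (fst.comp snd) (snd.comp snd)) (snd.comp snd)
        (list_cons.comp (fst.comp snd) (snd.comp snd))).to₂).of_eq fun _ => rfl
  exact (hdd.comp (pApp (pApp (pApp (pApp (pApp (pApp h1 h2) h3) h4) h5) h6) h7)).of_eq
    fun _ => rfl

lemma p_shiftOf : Primrec shiftOf := by
  have h3 : Primrec fun M : Machine => qStates M + qStates M * qSyms M + qStates M + qStates M :=
    pAdd (pAdd p_zBase p_qStates) p_qStates
  have hs : Primrec zStates := pAdd h3 p_qStates
  have hA : Primrec zSyms := pAdd (pAdd (const 2) p_qSyms) (pMul p_qStates p_qSyms)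
  exact ((Primrec.of_equiv_symm (e := Shift.equivTuple)).comp
    (hs.pair (hA.pair (Primrec.pair (f := zLeft) h3 p_allRules)))).of_eq fun _ => rfl

lemma p_clean : Primrec Shift.clean := by
  have hp : PrimrecPred fun x : Shift × Rule => (x.2.src < x.1.states ∧ x.2.dst < x.1.states) ∧
      (x.2.sym < x.1.syms ∧ x.2.wr < x.1.syms) :=
    ((pLt (p_src.comp snd) (p_states.comp fst)).and (pLt (p_dst.comp snd) (p_states.comp fst))).and
      ((pLt (p_sym.comp snd) (p_syms.comp fst)).and (pLt (p_wr.comp snd) (p_syms.comp fst)))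
  have h : Primrec fun G : Shift => G.rules.filterMap fun r =>
      if (r.src < G.states ∧ r.dst < G.states) ∧ (r.sym < G.syms ∧ r.wr < G.syms)
      then some r else none :=
    listFilterMap p_rules (Primrec.ite hp (option_some.comp snd) (const none)).to₂
  refine ((Primrec.of_equiv_symm (e := Shift.equivTuple)).comp
    (p_states.pair (p_syms.pair (p_left.pair h)))).of_eq fun G => ?_
  simp only [Shift.clean, ← List.filterMap_eq_filter, Option.guard, decide_eq_true_eq]
  rfl

lemma p_initConf : Primrec fun p : Machine × List ℕ => initConf p.1 p.2 := by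
  have hhead : Primrec fun p : Machine × List ℕ => p.2.headD 0 :=
    ((option_getD.comp (list_head?.comp snd) (const 0))).of_eq fun p => by
      cases p.2 <;> rfl
  have hw : Primrec fun p : Machine × List ℕ => initWord p.1 p.2 :=
    list_cons.comp (pAdd hhead (pMul (p_numSymbols.comp fst)
      (pAdd (p_start.comp fst) (const 1)))) (list_tail.comp snd)
  have hl : Primrec fun p : Machine × List ℕ =>
      initWord p.1 p.2 ++ [markA p.1, markB p.1] :=
    pApp hw (list_cons.comp (p_markA.comp fst) (list_cons.comp (p_markB.comp fst) (const [])))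
  exact (Primrec.pair (f := fun p : Machine × List ℕ => zRead (startQ p.1)) (p_startQ.comp fst)
    ((const []).pair (pApp (list_map hl (p_sUn snd).to₂) (const [sDollar])))).of_eq fun _ => rfl

/-! #### terms -/

lemma pRat {a b c : α → ℕ} (ha : Primrec a) (hb : Primrec b) (hc : Primrec c) :
    Primrec fun x => ((a x, b x, c x) : RatCode) := ha.pair (hb.pair hc)

lemma p_ratMul {f g : α → RatCode} (hf : Primrec f) (hg : Primrec g) :
    Primrec fun x => ratMul (f x) (g x) := by
  have a0 := fst.comp hf
  have a1 := fst.comp (snd.comp hf)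
  have a2 := snd.comp (snd.comp hf)
  have b0 := fst.comp hg
  have b1 := fst.comp (snd.comp hg)
  have b2 := snd.comp (snd.comp hg)
  exact pRat (pAdd (pMul a0 b0) (pMul a1 b1)) (pAdd (pMul a0 b1) (pMul a1 b0))
    (pSub (pMul (pAdd a2 (const 1)) (pAdd b2 (const 1))) (const 1))

lemma p_ratAdd {f g : α → RatCode} (hf : Primrec f) (hg : Primrec g) :
    Primrec fun x => ratAdd (f x) (g x) := by
  have a0 := fst.comp hf
  have a1 := fst.comp (snd.comp hf)
  have a2 := pAdd (snd.comp (snd.comp hf)) (const 1)
  have b0 := fst.comp hg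
  have b1 := fst.comp (snd.comp hg)
  have b2 := pAdd (snd.comp (snd.comp hg)) (const 1)
  exact pRat (pAdd (pMul a0 b2) (pMul b0 a2)) (pAdd (pMul a1 b2) (pMul b1 a2))
    (pSub (pMul a2 b2) (const 1))

lemma p_ratNeg {f : α → RatCode} (hf : Primrec f) : Primrec fun x => ratNeg (f x) :=
  pRat (fst.comp (snd.comp hf)) (fst.comp hf) (snd.comp (snd.comp hf))

lemma p_dBump : Primrec dBump := by
  have k : Primrec fun g : Bump => g.1 := fst
  have P : Primrec fun g : Bump => g.2.1 := fst.comp snd
  have a : Primrec fun g : Bump => g.2.2.1 := fst.comp (snd.comp snd)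
  have b : Primrec fun g : Bump => g.2.2.2 := snd.comp (snd.comp snd)
  have h1 : Primrec fun g : Bump => if g.1 = 0 then ([] : List (RatCode × Bump))
      else [(((g.1, 0, 0) : RatCode), ((g.1 - 1, g.2) : Bump))] :=
    Primrec.ite (pEq k (const 0)) (const [])
      (list_cons.comp ((pRat k (const 0) (const 0)).pair ((pSub k (const 1)).pair snd)) (const []))
  have hj : Primrec₂ fun (g : Bump) (j : ℕ) =>
      [(g.2.2.1, ((g.1, Sum.inl (j + 1), g.2.2.1, g.2.2.2) : Bump))] :=
    (list_cons.comp ((a.comp fst).pair ((k.comp fst).pair ((sumInl.comp (pAdd snd (const 1))).pair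
      ((a.comp fst).pair (b.comp fst))))) (const [])).to₂
  have hl : Primrec₂ fun (g : Bump) (l : RatCode) =>
      [(g.2.2.1, ((g.1, Sum.inl 0, g.2.2.1, g.2.2.2) : Bump)),
        (ratNeg g.2.2.1, ((g.1, Sum.inl 0, g.2.2.1, ratAdd g.2.2.2 l) : Bump))] :=
    (list_cons.comp
      ((a.comp fst).pair ((k.comp fst).pair ((const (Sum.inl 0)).pair
        ((a.comp fst).pair (b.comp fst)))))
      (list_cons.comp
        ((p_ratNeg (a.comp fst)).pair ((k.comp fst).pair ((const (Sum.inl 0)).pair
          ((a.comp fst).pair (p_ratAdd (b.comp fst) snd))))) (const []))).to₂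
  refine (pApp h1 (sumCasesOn P hj hl)).of_eq fun g => ?_
  obtain ⟨k, P, a, b⟩ := g
  cases P <;> rfl

lemma p_dList {F : Type} [Primcodable F] {d : F → List (RatCode × F)} (hd : Primrec d) :
    Primrec (dList d) := by
  have g : Primrec fun x : List F × (F × (List F × List (RatCode × List F))) => x.2.1 :=
    fst.comp snd
  have l : Primrec fun x : List F × (F × (List F × List (RatCode × List F))) => x.2.2.1 :=
    fst.comp (snd.comp snd)
  have r : Primrec fun x : List F × (F × (List F × List (RatCode × List F))) => x.2.2.2 :=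
    snd.comp (snd.comp snd)
  exact (snd.comp (list_foldr Primrec.id (const (([] : List F), ([] : List (RatCode × List F))))
    ((list_cons.comp g l).pair (pApp
      (list_map (hd.comp g)
        ((fst.comp snd).pair (list_cons.comp (snd.comp snd) (l.comp fst))).to₂)
      (list_map r
        ((fst.comp snd).pair (list_cons.comp (g.comp fst) (snd.comp snd))).to₂))).to₂)).of_eq
    fun _ => rfl

lemma p_coeffScale {q : α → RatCode} {c : α → Coeff} (hq : Primrec q) (hc : Primrec c) :
    Primrec fun x => coeffScale (q x) (c x) :=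
  (p_ratMul hq (fst.comp hc)).pair (snd.comp hc)

lemma p_dTimeFactor : Primrec dTimeFactor :=
  list_map (p_dBump.comp snd) ((fst.comp snd).pair ((fst.comp fst).pair (snd.comp snd))).to₂

lemma p_dTime : Primrec dTime :=
  list_map ((p_dList p_dTimeFactor).comp (fst.comp snd))
    ((p_coeffScale (fst.comp snd) (fst.comp fst)).pair
      ((snd.comp snd).pair (snd.comp (snd.comp fst)))).to₂

lemma p_dX0 : Primrec dX0 :=
  list_map ((p_dList p_dBump).comp (fst.comp (snd.comp snd)))
    ((p_coeffScale (fst.comp snd) (fst.comp fst)).pair ((fst.comp (snd.comp fst)).pair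
      ((snd.comp snd).pair (snd.comp (snd.comp (snd.comp fst)))))).to₂

lemma p_dX1 : Primrec dX1 :=
  list_map ((p_dList p_dBump).comp (fst.comp (snd.comp (snd.comp snd))))
    ((p_coeffScale (fst.comp snd) (fst.comp fst)).pair ((fst.comp (snd.comp fst)).pair
      ((fst.comp (snd.comp (snd.comp fst))).pair
        ((snd.comp snd).pair (snd.comp (snd.comp (snd.comp (snd.comp fst)))))))).to₂

lemma p_dX2 : Primrec dX2 :=
  list_map ((p_dList p_dBump).comp (snd.comp (snd.comp (snd.comp snd))))
    ((p_coeffScale (fst.comp snd) (fst.comp fst)).pair ((fst.comp (snd.comp fst)).pair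
      ((fst.comp (snd.comp (snd.comp fst))).pair
        ((fst.comp (snd.comp (snd.comp (snd.comp fst)))).pair (snd.comp snd))))).to₂

lemma p_mulList {f g : α → List Term} (hf : Primrec f) (hg : Primrec g) :
    Primrec fun x => mulList (f x) (g x) := by
  have hc : Primrec₂ coeffMul := by
    have a : Primrec fun x : Coeff × Coeff => x.1 := fst
    have b : Primrec fun x : Coeff × Coeff => x.2 := snd
    have n : ∀ {h : Coeff × Coeff → Coeff}, Primrec h → Primrec fun x => (h x).2.1 :=
      fun hh => fst.comp (snd.comp hh)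
    have k : ∀ {h : Coeff × Coeff → Coeff}, Primrec h → Primrec fun x => (h x).2.2.1 :=
      fun hh => fst.comp (snd.comp (snd.comp hh))
    have l : ∀ {h : Coeff × Coeff → Coeff}, Primrec h → Primrec fun x => (h x).2.2.2 :=
      fun hh => snd.comp (snd.comp (snd.comp hh))
    exact ((p_ratMul (fst.comp a) (fst.comp b)).pair ((pAdd (n a) (n b)).pair
      (((pAdd (fst.comp (k a)) (fst.comp (k b))).pair
        (pAdd (snd.comp (k a)) (snd.comp (k b)))).pair (pApp (l a) (l b))))).to₂
  have hm : Primrec₂ termMul := by
    have a : Primrec fun x : Term × Term => x.1 := fst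
    have b : Primrec fun x : Term × Term => x.2 := snd
    have t : ∀ {h : Term × Term → Term}, Primrec h → Primrec fun x => (h x).2.1 :=
      fun hh => fst.comp (snd.comp hh)
    have x0 : ∀ {h : Term × Term → Term}, Primrec h → Primrec fun x => (h x).2.2.1 :=
      fun hh => fst.comp (snd.comp (snd.comp hh))
    have x1 : ∀ {h : Term × Term → Term}, Primrec h → Primrec fun x => (h x).2.2.2.1 :=
      fun hh => fst.comp (snd.comp (snd.comp (snd.comp hh)))
    have x2 : ∀ {h : Term × Term → Term}, Primrec h → Primrec fun x => (h x).2.2.2.2 :=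
      fun hh => snd.comp (snd.comp (snd.comp (snd.comp hh)))
    exact ((hc.comp (fst.comp a) (fst.comp b)).pair ((pApp (t a) (t b)).pair
      ((pApp (x0 a) (x0 b)).pair ((pApp (x1 a) (x1 b)).pair (pApp (x2 a) (x2 b)))))).to₂
  exact list_flatMap hf (list_map (hg.comp fst) (hm.comp (snd.comp fst) snd).to₂).to₂

lemma p_nuTerm : Primrec nuTerm := by
  have c : Primrec fun T : Term => T.1 := fst
  exact ((p_ratNeg (fst.comp c)).pair ((pAdd (fst.comp (snd.comp c)) (const 1)).pair
    (snd.comp (snd.comp c)))).pair snd

lemma p_flat {f : α → List Term} (hf : Primrec f) {d : Term → List Term} (hd : Primrec d) :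
    Primrec fun x => (f x).flatMap d :=
  list_flatMap hf (hd.comp snd).to₂

lemma p_nsOp : Primrec nsOp := by
  have u0 : Primrec fun x : Force × List Term => x.1.1 := fst.comp fst
  have u1 : Primrec fun x : Force × List Term => x.1.2.1 := fst.comp (snd.comp fst)
  have u2 : Primrec fun x : Force × List Term => x.1.2.2 := snd.comp (snd.comp fst)
  have d0 : Primrec fun x : Force × List Term => x.2.flatMap dX0 := p_flat snd p_dX0
  have d1 : Primrec fun x : Force × List Term => x.2.flatMap dX1 := p_flat snd p_dX1
  have d2 : Primrec fun x : Force × List Term => x.2.flatMap dX2 := p_flat snd p_dX2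
  have h : Primrec₂ nsComponent :=
    (pApp (pApp (pApp (pApp (p_flat snd p_dTime) (p_mulList u0 d0)) (p_mulList u1 d1))
      (p_mulList u2 d2))
      (list_map (pApp (pApp (p_flat d0 p_dX0) (p_flat d1 p_dX1)) (p_flat d2 p_dX2))
        (p_nuTerm.comp snd).to₂)).to₂
  exact (h.comp Primrec.id fst).pair ((h.comp Primrec.id (fst.comp snd)).pair
    (h.comp Primrec.id (snd.comp snd)))

lemma p_ivBump {f : α → Iv} (k : ℕ) (hf : Primrec f) : Primrec fun x => ivBump k (f x) :=
  (const k).pair ((const (Sum.inr ((6, 0, 0) : RatCode) : Profile)).pair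
    ((pRat (pMul (const 4) (fst.comp hf)) (const 0) (const 0)).pair
      (pRat (pMul (const 2) (snd.comp hf)) (const 1) (const 0))))

lemma p_gBase : Primrec gBase := pAdd (pMul (const 2) Primrec.id) (const 2)

lemma p_linList {f : α → RatCode} (hf : Primrec f) : Primrec fun x => linList (f x) :=
  list_cons.comp (const (((1, 0, 0) : RatCode), ivBump 1 wholeY))
    (list_cons.comp ((p_ratNeg hf).pair (const (ivBump 0 wholeY))) (const []))

lemma p_dLinList {f : α → RatCode} (hf : Primrec f) : Primrec fun x => dLinList (f x) :=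
  list_flatMap (p_linList hf)
    (list_map (p_dBump.comp (snd.comp snd))
      ((p_ratMul (fst.comp (snd.comp fst)) (fst.comp snd)).pair (snd.comp snd)).to₂).to₂

lemma p_pulse (c : ℕ) : Primrec fun _ : α => [pulse c] := const _

lemma p_planeTerms {q : RatCode} {r : α → RatCode} {chi : α → Iv}
    {X Y : α → List (RatCode × Bump)} (hr : Primrec r) (hc : Primrec chi) (hX : Primrec X)
    (hY : Primrec Y) : Primrec fun x => planeTerms q (r x) (chi x) (X x) (Y x) := by
  have base : Primrec fun z : (α × (RatCode × Bump)) × (RatCode × Bump) => z.1.1 := fst.comp fst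
  have a : Primrec fun z : (α × (RatCode × Bump)) × (RatCode × Bump) => z.1.2 := snd.comp fst
  have b : Primrec fun z : (α × (RatCode × Bump)) × (RatCode × Bump) => z.2 := snd
  exact list_flatMap hX (list_map (hY.comp fst)
    ((((p_ratMul (const q) (p_ratMul (fst.comp a) (fst.comp b))).pair
      ((const 0).pair ((const ((0, 4) : ℕ × ℕ)).pair
        (list_cons.comp (hr.comp base) (const []))))).pair
      ((p_pulse 11).pair ((list_cons.comp (snd.comp a) (const [])).pair
        ((list_cons.comp (snd.comp b) (const [])).pair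
          (list_cons.comp (p_ivBump 0 (hc.comp base)) (const []))))))).to₂).to₂

lemma p_branches : Primrec branches := by
  have g : Primrec fun x : Shift × Rule => x.1 := fst
  exact list_flatMap p_rules
    (Primrec.ite (pLt (p_dst.comp snd) (p_left.comp g))
      (list_cons.comp (snd.pair (const 0)) (const []))
      (list_map (list_range.comp (p_syms.comp g)) ((snd.comp fst).pair snd).to₂)).to₂

lemma zipIdx_eq_filterMap {δ : Type} (l : List δ) :
    l.zipIdx = (List.range l.length).filterMap fun i => l[i]?.map fun a => (a, i) := by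
  have h : ((List.range l.length).filterMap fun i => l[i]?.map fun a => (a, i))
      = ((List.range l.length).attach.map fun i =>
          ((l[i.1]'(List.mem_range.mp i.2)), i.1)) := by
    conv_lhs => rw [← List.attach_map_subtype_val (List.range l.length), List.filterMap_map]
    rw [← List.filterMap_eq_map]
    apply List.filterMap_congr
    intro i _
    simp [List.getElem?_eq_getElem (List.mem_range.mp i.2)]
  rw [h]
  apply List.ext_getElem
  · simp
  · intro i h1 h2
    simp

lemma p_zipIdx {f : α → List β} (hf : Primrec f) : Primrec fun x => (f x).zipIdx :=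
  (listFilterMap (list_range.comp (list_length.comp hf))
    (option_map (list_getElem?.comp (hf.comp fst) snd)
      (snd.pair (snd.comp fst)).to₂).to₂).of_eq fun x => (zipIdx_eq_filterMap (f x)).symm

section Boxes

variable {g : α → Shift} {b : α → Branch}

lemma p_base (hg : Primrec g) : Primrec fun x => gBase (g x).syms :=
  p_gBase.comp (p_syms.comp hg)

lemma p_isRight (hg : Primrec g) (hb : Primrec b) :
    PrimrecPred fun x => (b x).1.dst < (g x).left :=
  pLt (p_dst.comp (fst.comp hb)) (p_left.comp hg)

lemma p_digitX {s a : α → ℕ} (hg : Primrec g) (hs : Primrec s) (ha : Primrec a) :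
    Primrec fun x => digitX (g x).states (g x).syms (s x) (a x) :=
  (pMul (pMul (const 4) (p_states.comp hg)) (p_base hg)).pair
    (pAdd (pMul (pMul (const 2) (p_states.comp hg)) (p_base hg))
      (pMul (const 4) (pAdd (pMul hs (p_base hg)) ha)))

lemma p_stateX {s : α → ℕ} (hg : Primrec g) (hs : Primrec s) :
    Primrec fun x => stateX (g x).states (s x) :=
  (pMul (const 4) (p_states.comp hg)).pair
    (pAdd (pMul (const 2) (p_states.comp hg)) (pMul (const 4) hs))

lemma p_srcX (hg : Primrec g) (hb : Primrec b) : Primrec fun x => srcX (g x) (b x) :=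
  (Primrec.ite (p_isRight hg hb) (p_stateX hg (p_src.comp (fst.comp hb)))
    (p_digitX hg (p_src.comp (fst.comp hb)) (snd.comp hb))).of_eq fun _ => rfl

lemma p_srcY (hg : Primrec g) (hb : Primrec b) : Primrec fun x => srcY (g x) (b x) :=
  (pMul (const 2) (p_base hg)).pair
    (pAdd (p_base hg) (pMul (const 4) (p_sym.comp (fst.comp hb))))

lemma p_dstX (hg : Primrec g) (hb : Primrec b) : Primrec fun x => dstX (g x) (b x) :=
  (Primrec.ite (p_isRight hg hb)
    (p_digitX hg (p_dst.comp (fst.comp hb)) (p_wr.comp (fst.comp hb)))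
    (p_stateX hg (p_dst.comp (fst.comp hb)))).of_eq fun _ => rfl

lemma p_dstY (hg : Primrec g) (hb : Primrec b) : Primrec fun x => dstY (g x) (b x) :=
  (Primrec.ite (p_isRight hg hb) (const wholeY)
    ((pMul (pMul (const 2) (p_base hg)) (p_base hg)).pair
      (pAdd (pMul (p_base hg) (p_base hg)) (pMul (const 4)
        (pAdd (pMul (snd.comp hb) (p_base hg)) (p_wr.comp (fst.comp hb))))))).of_eq fun _ => rfl

lemma p_ratioCode (hg : Primrec g) (hb : Primrec b) :
    Primrec fun x => ratioCode (g x) (b x) :=
  (Primrec.ite (p_isRight hg hb) (pRat (const 1) (const 0) (pSub (p_base hg) (const 1)))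
    (pRat (p_base hg) (const 0) (const 0))).of_eq fun _ => rfl

lemma p_fixX (hg : Primrec g) (hb : Primrec b) : Primrec fun x => fixX (g x) (b x) := by
  have B := p_base hg
  have S := p_states.comp hg
  have B1 := pSub B (const 1)
  have src := p_src.comp (fst.comp hb)
  have dst := p_dst.comp (fst.comp hb)
  have den := pSub (pMul (pMul (const 4) S) B1) (const 1)
  exact (Primrec.ite (p_isRight hg hb)
    (pRat (pAdd (pMul S B1) (pMul (const 2) (pAdd (pMul dst B) (p_wr.comp (fst.comp hb)))))
      (pMul (const 2) src) den)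
    (pRat (pAdd (pMul S B1) (pMul (const 2) (pAdd (pMul src B) (snd.comp hb))))
      (pMul (const 2) dst) den)).of_eq fun _ => rfl

lemma p_fixY (hg : Primrec g) (hb : Primrec b) : Primrec fun x => fixY (g x) (b x) := by
  have B := p_base hg
  have B1 := pSub B (const 1)
  have sym := p_sym.comp (fst.comp hb)
  exact (Primrec.ite (p_isRight hg hb)
    (pRat (pAdd B1 (pMul (const 4) sym)) (const 0) (pSub (pMul (const 4) B1) (const 1)))
    (pRat (pAdd (pMul B B1)
      (pMul (const 4) (pAdd (pMul (snd.comp hb) B) (p_wr.comp (fst.comp hb)))))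
      (pMul (const 4) sym) (pSub (pMul (const 4) (pMul B B1)) (const 1)))).of_eq fun _ => rfl

lemma p_slabOf {e : α → Branch × ℕ} (hg : Primrec g) (he : Primrec e) :
    Primrec fun x => slabOf (g x) (e x) := by
  have n1 := pAdd (list_length.comp (p_branches.comp hg)) (const 1)
  have idx := snd.comp he
  exact ((pMul (const 32) n1).pair
    (Primrec.ite (pEq (p_hot.comp (fst.comp (fst.comp he))) (const true))
      (pAdd (pMul (const 48) n1) (pMul (const 4) idx))
      (pAdd (pMul (const 16) n1) (pMul (const 4) idx)))).of_eq fun _ => rfl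

lemma p_slabShift {I : α → Iv} (hI : Primrec I) : Primrec fun x => slabShift (I x) :=
  p_ratAdd (pRat (pAdd (snd.comp hI) (const 1)) (const 0)
    (pSub (pMul (const 2) (fst.comp hI)) (const 1))) (const ((0, 1, 7) : RatCode))

lemma p_liftTerm {q : α → RatCode} (c : ℕ) {I J : α → Iv} (hq : Primrec q) (hI : Primrec I)
    (hJ : Primrec J) : Primrec fun x => liftTerm (q x) c (I x) (J x) :=
  ((p_ratMul hq (const ((16, 0, 0) : RatCode))).pair
    (const ((0, (0, 3), []) : ℕ × (ℕ × ℕ) × List RatCode))).pair
    ((p_pulse c).pair ((list_cons.comp (p_ivBump 0 hI) (const [])).pair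
      ((list_cons.comp (p_ivBump 0 hJ) (const [])).pair (const []))))

end Boxes

lemma p_flowX : Primrec₂ flowX := by
  have g : Primrec fun x : Shift × (Branch × ℕ) => x.1 := fst
  have e : Primrec fun x : Shift × (Branch × ℕ) => x.2 := snd
  exact (p_planeTerms (p_ratioCode g (fst.comp e)) (p_slabOf g e)
    (p_linList (p_fixX g (fst.comp e))) (p_dLinList (p_fixY g (fst.comp e)))).to₂

lemma p_flowY : Primrec₂ flowY := by
  have g : Primrec fun x : Shift × (Branch × ℕ) => x.1 := fst
  have e : Primrec fun x : Shift × (Branch × ℕ) => x.2 := snd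
  exact (p_planeTerms (p_ratioCode g (fst.comp e)) (p_slabOf g e)
    (p_dLinList (p_fixX g (fst.comp e))) (p_linList (p_fixY g (fst.comp e)))).to₂

lemma p_flowZ : Primrec₂ flowZ := by
  have g : Primrec fun x : Shift × (Branch × ℕ) => x.1 := fst
  have e : Primrec fun x : Shift × (Branch × ℕ) => x.2 := snd
  have hz := p_slabShift (p_slabOf g e)
  exact (list_cons.comp
    (p_liftTerm 9 hz (p_srcX g (fst.comp e)) (p_srcY g (fst.comp e)))
    (list_cons.comp
      (p_liftTerm 13 (p_ratNeg hz) (p_dstX g (fst.comp e)) (p_dstY g (fst.comp e)))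
      (const []))).to₂

lemma p_periodicVel : Primrec periodicVel := by
  have hb := p_zipIdx p_branches
  exact (list_flatMap hb p_flowX).pair ((list_flatMap hb p_flowY).pair (list_flatMap hb p_flowZ))

lemma p_transientVel : Primrec₂ transientVel := by
  have g : Primrec fun x : Shift × SConf => x.1 := fst
  have henc : Primrec₂ encCode :=
    (list_foldr snd (const ((0, 0, 0) : RatCode))
      (pRat (pAdd (pMul (pMul (const 2) (fst.comp snd))
          (pAdd (snd.comp (snd.comp (snd.comp snd))) (const 1))) (fst.comp (snd.comp snd)))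
        (const 0)
        (pSub (pMul (pAdd (snd.comp (snd.comp (snd.comp snd))) (const 1)) (fst.comp fst))
          (const 1))).to₂).to₂
  have hx : Primrec fun x : Shift × SConf => shiftX x.1 x.2 :=
    pRat (pMul (const 2) (fst.comp snd)) (const 0)
      (pSub (pMul (const 4) (p_states.comp g)) (const 1))
  have hy : Primrec fun x : Shift × SConf => shiftY x.1 x.2 :=
    p_ratMul (const ((1, 0, 1) : RatCode))
      (henc.comp (p_gBase.comp (p_syms.comp g)) (snd.comp (snd.comp snd)))
  have mv : ∀ {d : Shift × SConf → RatCode}, Primrec d →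
      Primrec fun x : Shift × SConf => [moveTerm (d x)] := fun hd =>
    list_cons.comp (((p_ratMul hd (const ((8, 0, 0) : RatCode))).pair
      (const ((0, (0, 1), []) : ℕ × (ℕ × ℕ) × List RatCode))).pair
      (const (([transientPulse], [], [], []) :
        List TimeFactor × List Bump × List Bump × List Bump))) (const [])
  exact ((mv hx).pair ((mv hy).pair (const []))).to₂

theorem compile_primrec : Primrec compile := by
  have hG : Primrec fun p : Machine × List ℕ => (shiftOf p.1).clean :=
    p_clean.comp (p_shiftOf.comp fst)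
  have hP := p_nsOp.comp (p_periodicVel.comp hG)
  have hT : Primrec fun p : Machine × List ℕ =>
      (transientVel (shiftOf p.1).clean (initConf p.1 p.2)) :=
    p_transientVel.comp hG p_initConf
  exact (pApp (fst.comp hP) (p_flat (fst.comp hT) p_dTime)).pair
    ((pApp (fst.comp (snd.comp hP)) (p_flat (fst.comp (snd.comp hT)) p_dTime)).pair
      (pApp (snd.comp (snd.comp hP)) (p_flat (snd.comp (snd.comp hT)) p_dTime)))

end Proofs

end Vale.Agent.P113
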