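import Mathlib

/-!
Definitions used by the statement for P113: Turing machines, the admissible forces,
classical solutions of forced Navier-Stokes on the flat torus (written as periodic
functions on `Fin 3 → ℝ`) and trajectories.
-/

namespace Vale.Agent.P113

open MeasureTheory Set
open scoped ContDiff

/-! ### Machines -/

/-- New state, written symbol and move (`none`: stay, `some true`: right, `some false`: left). -/
abbrev Action := ℕ × ℕ × Option Bool

/-- A deterministic one-tape machine with states `0, …, numStates - 1` and symbols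
`0, …, numSymbols - 1`; the symbol `0` is the blank. -/
structure Machine where
  numStates : ℕ
  numSymbols : ℕ
  startState : ℕ
  halting : List ℕ
  table : List (List Action)

/-- A machine as a tuple of its data. -/
def Machine.equivTuple : Machine ≃ ℕ × ℕ × ℕ × List ℕ × List (List Action) where
  toFun M := (M.numStates, M.numSymbols, M.startState, M.halting, M.table)
  invFun x := ⟨x.1, x.2.1, x.2.2.1, x.2.2.2.1, x.2.2.2.2⟩
  left_inv _ := rfl
  right_inv _ := rfl

instance : Primcodable Machine := Primcodable.ofEquiv _ Machine.equivTuple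

/-- The transition function; a missing table entry means that nothing changes. -/
def Machine.action (M : Machine) (q a : ℕ) : Action :=
  (M.table.getD q []).getD a (q, a, none)

/-- The start state and everything in the table are inside the state set and the alphabet. -/
def Machine.Valid (M : Machine) : Prop :=
  0 < M.numSymbols ∧ M.startState < M.numStates ∧
    ∀ row ∈ M.table, ∀ e ∈ row, e.1 < M.numStates ∧ e.2.1 < M.numSymbols

/-- A state, a head position and a two-sided tape. -/
structure Config where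
  state : ℕ
  pos : ℤ
  tape : ℤ → ℕ

/-- The head displacement of a move. -/
def moveOffset : Option Bool → ℤ
  | none => 0
  | some true => 1
  | some false => -1

/-- One step; halting configurations are fixed. -/
def Machine.step (M : Machine) (c : Config) : Config :=
  if c.state ∈ M.halting then c
  else
    { state := (M.action c.state (c.tape c.pos)).1
      pos := c.pos + moveOffset (M.action c.state (c.tape c.pos)).2.2
      tape := Function.update c.tape c.pos (M.action c.state (c.tape c.pos)).2.1 }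

/-- The word `w` on an otherwise blank tape, with the head at its first cell. -/
def Machine.init (M : Machine) (w : List ℕ) : Config :=
  { state := M.startState
    pos := 0
    tape := fun i => if 0 ≤ i then w.getD i.toNat 0 else 0 }

/-- `M` reaches a halting state on `w` after finitely many steps, possibly none. -/
def Machine.Halts (M : Machine) (w : List ℕ) : Prop :=
  ∃ n : ℕ, (M.step^[n] (M.init w)).state ∈ M.halting

/-! ### Rationals as data -/

/-- `(p, n, d)` is the code of the rational `(p - n) / (d + 1)`. -/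
abbrev RatCode := ℕ × ℕ × ℕ

/-- The rational coded by a triple. -/
def ratVal (r : RatCode) : ℚ := ((r.1 : ℚ) - (r.2.1 : ℚ)) / ((r.2.2 : ℚ) + 1)

/-! ### Admissible functions -/

/-- `exp (-1/(1-s^2))` on `|s| < 1`, else `0`. -/
noncomputable def rho (s : ℝ) : ℝ := if |s| < 1 then Real.exp (-1 / (1 - s ^ 2)) else 0

/-- The integral of `rho`. -/
noncomputable def kappa : ℝ := ∫ s : ℝ, rho s

/-- The primitive of `rho` vanishing at `-∞`. -/
noncomputable def sigma (s : ℝ) : ℝ := ∫ t in Iic s, rho t

/-- `sigma s - sigma (s - l)`. -/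
noncomputable def piFun (l s : ℝ) : ℝ := sigma s - sigma (s - l)

/-- `Sum.inl j` codes the derivative of order `j` of `rho`; `Sum.inr l` codes `piFun l`. -/
abbrev Profile := ℕ ⊕ RatCode

/-- The function coded by a profile. -/
noncomputable def profileVal : Profile → ℝ → ℝ
  | Sum.inl j, s => iteratedDeriv j rho s
  | Sum.inr l, s => piFun (ratVal l : ℝ) s

/-- `(k, P, a, b)` codes the bump `s ↦ s^k * P (a s - b)`. -/
abbrev Bump := ℕ × Profile × RatCode × RatCode

/-- The function coded by a bump. -/
noncomputable def bumpVal (g : Bump) (s : ℝ) : ℝ :=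
  s ^ g.1 * profileVal g.2.1 ((ratVal g.2.2.1 : ℝ) * s - (ratVal g.2.2.2 : ℝ))

/-- `a ≠ 0`, and `l > 0` for a plateau profile. -/
def BumpValid (g : Bump) : Prop :=
  ratVal g.2.2.1 ≠ 0 ∧ ∀ l, g.2.1 = Sum.inr l → 0 < ratVal l

/-- The periodization with period one. -/
noncomputable def periodize (g : ℝ → ℝ) (y : ℝ) : ℝ := ∑' m : ℤ, g (y + (m : ℝ))

/-- `(q, m, (n₁, n₂), logs)` codes `q * ν^m * κ^(n₁ - n₂) * ∏ ln r`. -/
abbrev Coeff := RatCode × ℕ × (ℕ × ℕ) × List RatCode

/-- The number coded by a coefficient. -/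
noncomputable def coeffVal (nu : ℝ) (c : Coeff) : ℝ :=
  (ratVal c.1 : ℝ) * nu ^ c.2.1 * kappa ^ ((c.2.2.1.1 : ℤ) - (c.2.2.1.2 : ℤ))
    * (c.2.2.2.map fun r => Real.log (ratVal r : ℝ)).prod

/-- A factor of the time function: `(true, g)` is the periodization of `g`, `(false, g)` is `g`. -/
abbrev TimeFactor := Bool × Bump

/-- The function coded by a time factor. -/
noncomputable def timeFactorVal (g : TimeFactor) (t : ℝ) : ℝ :=
  if g.1 then periodize (bumpVal g.2) t else bumpVal g.2 t

/-- Coefficient, time factors and the factors in `x₁`, `x₂`, `x₃`. An empty list means `1`. -/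
abbrev Term := Coeff × List TimeFactor × List Bump × List Bump × List Bump

/-- A product of periodized bumps. -/
noncomputable def spaceVal (l : List Bump) (y : ℝ) : ℝ :=
  (l.map fun g => periodize (bumpVal g) y).prod

/-- The function coded by a term. -/
noncomputable def termVal (nu : ℝ) (T : Term) (t : ℝ) (x : Fin 3 → ℝ) : ℝ :=
  coeffVal nu T.1 * (T.2.1.map fun g => timeFactorVal g t).prod * spaceVal T.2.2.1 (x 0)
    * spaceVal T.2.2.2.1 (x 1) * spaceVal T.2.2.2.2 (x 2)

/-- All bumps are valid and all logarithms are of positive rationals. -/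
def TermValid (T : Term) : Prop :=
  (∀ r ∈ T.1.2.2.2, 0 < ratVal r) ∧ (∀ g ∈ T.2.1, BumpValid g.2) ∧
    (∀ g ∈ T.2.2.1, BumpValid g) ∧ (∀ g ∈ T.2.2.2.1, BumpValid g) ∧
      (∀ g ∈ T.2.2.2.2, BumpValid g)

/-- The time function is `1` or a product of periodizations only. -/
def termPeriodic (T : Term) : Bool := T.2.1.all fun g => g.1

/-- A list of terms for each of the three components. -/
abbrev Force := List Term × List Term × List Term

/-- The list of the `i`th component. -/
def Force.component (F : Force) : Fin 3 → List Term := ![F.1, F.2.1, F.2.2]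

/- The standard codings of these products and lists, named to help instance search. -/
instance instPrimcodableRatCode : Primcodable RatCode := inferInstance
instance instPrimcodableBump : Primcodable Bump := inferInstance
instance instPrimcodableBumpList : Primcodable (List Bump) := inferInstance
instance instPrimcodableTimeFactors : Primcodable (List TimeFactor) := inferInstance
instance instPrimcodableCoeff : Primcodable Coeff := inferInstance
instance instPrimcodableTerm : Primcodable Term := inferInstance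
instance instPrimcodableTermList : Primcodable (List Term) := inferInstance
instance instPrimcodableForce : Primcodable Force := inferInstance

/-- The vector field coded by the three lists. -/
noncomputable def forceVal (nu : ℝ) (F : Force) (t : ℝ) (x : Fin 3 → ℝ) : Fin 3 → ℝ :=
  fun i => ((F.component i).map fun T => termVal nu T t x).sum

/-- The periodic terms of each component, in the listed order. -/
def Force.periodicPart (F : Force) : Force :=
  (F.1.filter termPeriodic, F.2.1.filter termPeriodic, F.2.2.filter termPeriodic)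

/-! ### The equations -/

/-- The partial derivative in the `j`th coordinate. -/
noncomputable def pd (j : Fin 3) (g : (Fin 3 → ℝ) → ℝ) (x : Fin 3 → ℝ) : ℝ :=
  fderiv ℝ g x (Pi.single j 1)

/-- A fundamental domain of the torus. -/
def unitCube : Set (Fin 3 → ℝ) := Icc 0 1

/-- A classical solution from rest on `[0,T] × 𝕋³`, written with periodic functions. -/
structure IsClassicalSolution (nu : ℝ) (f : ℝ → (Fin 3 → ℝ) → Fin 3 → ℝ) (T : ℝ)
    (u : ℝ → (Fin 3 → ℝ) → Fin 3 → ℝ) (p : ℝ → (Fin 3 → ℝ) → ℝ) : Prop where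
  periodic_u : ∀ t ∈ Icc 0 T, ∀ x j, u t (x + Pi.single j 1) = u t x
  periodic_p : ∀ t ∈ Icc 0 T, ∀ x j, p t (x + Pi.single j 1) = p t x
  initial : ∀ x, u 0 x = 0
  smooth_space : ∀ t ∈ Icc 0 T, ∀ i, ContDiff ℝ 2 fun x => u t x i
  diff_time : ∀ t ∈ Icc 0 T, ∀ x i, DifferentiableWithinAt ℝ (fun s => u s x i) (Icc 0 T) t
  diff_pressure : ∀ t ∈ Icc 0 T, Differentiable ℝ (p t)
  cont_u : ∀ i, ContinuousOn (fun z : ℝ × (Fin 3 → ℝ) => u z.1 z.2 i) (Icc 0 T ×ˢ univ)
  cont_dt : ∀ i, ContinuousOn
    (fun z : ℝ × (Fin 3 → ℝ) => derivWithin (fun s => u s z.2 i) (Icc 0 T) z.1)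
    (Icc 0 T ×ˢ univ)
  cont_dx : ∀ i j, ContinuousOn
    (fun z : ℝ × (Fin 3 → ℝ) => pd j (fun x => u z.1 x i) z.2) (Icc 0 T ×ˢ univ)
  cont_dxx : ∀ i j k, ContinuousOn
    (fun z : ℝ × (Fin 3 → ℝ) => pd k (pd j fun x => u z.1 x i) z.2) (Icc 0 T ×ˢ univ)
  cont_p : ContinuousOn (fun z : ℝ × (Fin 3 → ℝ) => p z.1 z.2) (Icc 0 T ×ˢ univ)
  cont_dp : ∀ j, ContinuousOn
    (fun z : ℝ × (Fin 3 → ℝ) => pd j (p z.1) z.2) (Icc 0 T ×ˢ univ)
  mean_zero : ∀ t ∈ Icc 0 T, ∫ x in unitCube, p t x = 0
  momentum : ∀ t ∈ Icc 0 T, ∀ x i,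
    derivWithin (fun s => u s x i) (Icc 0 T) t + ∑ j, u t x j * pd j (fun y => u t y i) x
      = -pd i (p t) x + nu * (∑ j, pd j (pd j fun y => u t y i) x) + f t x i
  div_free : ∀ t ∈ Icc 0 T, ∀ x, ∑ i, pd i (fun y => u t y i) x = 0

/-- Smoothness on `[0,∞) × 𝕋³`, classicality on every `[0,T]`, and uniqueness there. -/
def IsUniqueGlobalSmoothSolution (nu : ℝ) (f : ℝ → (Fin 3 → ℝ) → Fin 3 → ℝ)
    (u : ℝ → (Fin 3 → ℝ) → Fin 3 → ℝ) (p : ℝ → (Fin 3 → ℝ) → ℝ) : Prop :=
  ContDiffOn ℝ ∞ (fun z : ℝ × (Fin 3 → ℝ) => u z.1 z.2) (Ici 0 ×ˢ univ) ∧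
  ContDiffOn ℝ ∞ (fun z : ℝ × (Fin 3 → ℝ) => p z.1 z.2) (Ici 0 ×ˢ univ) ∧
  (∀ T : ℝ, 0 < T → IsClassicalSolution nu f T u p) ∧
  ∀ T : ℝ, 0 < T → ∀ v q, IsClassicalSolution nu f T v q →
    ∀ t ∈ Icc 0 T, ∀ x, v t x = u t x ∧ q t x = p t x

/-- A lift of a particle trajectory from `a`, for `t ≥ 0`. -/
def IsTrajectory (u : ℝ → (Fin 3 → ℝ) → Fin 3 → ℝ) (a : Fin 3 → ℝ)
    (X : ℝ → Fin 3 → ℝ) : Prop :=
  X 0 = a ∧ ∀ t, 0 ≤ t → HasDerivWithinAt X (u t (X t)) (Ici 0) t

/-- Membership, on the torus, in the image of an open box with rational corners. -/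
def InBox (lo hi : Fin 3 → ℚ) (x : Fin 3 → ℝ) : Prop :=
  ∃ k : Fin 3 → ℤ, ∀ i, (lo i : ℝ) < x i + (k i : ℝ) ∧ x i + (k i : ℝ) < (hi i : ℝ)

end Vale.Agent.P113
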