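import Vale.Agent.P113.Defs

/-!
Uniqueness of classical solutions on the flat torus by the energy method.
-/

namespace Vale.Agent.P113

open MeasureTheory Set Filter Topology
open scoped ContDiff

lemma pd_continuous {g : (Fin 3 → ℝ) → ℝ} (hg : ContDiff ℝ 1 g) (j : Fin 3) :
    Continuous (pd j g) :=
  ((hg.continuous_fderiv (by norm_num)).clm_apply continuous_const)

lemma pd_contDiff {g : (Fin 3 → ℝ) → ℝ} (hg : ContDiff ℝ 2 g) (j : Fin 3) :
    ContDiff ℝ 1 (pd j g) :=
  (hg.fderiv_right (m := 1) (by norm_num)).clm_apply contDiff_const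

lemma pd_sub {f g : (Fin 3 → ℝ) → ℝ} {x : Fin 3 → ℝ} (hf : DifferentiableAt ℝ f x)
    (hg : DifferentiableAt ℝ g x) (j : Fin 3) :
    pd j (fun y => f y - g y) x = pd j f x - pd j g x := by
  simp only [pd, fderiv_fun_sub hf hg, ContinuousLinearMap.sub_apply]

lemma pd_add {f g : (Fin 3 → ℝ) → ℝ} {x : Fin 3 → ℝ} (hf : DifferentiableAt ℝ f x)
    (hg : DifferentiableAt ℝ g x) (j : Fin 3) :
    pd j (fun y => f y + g y) x = pd j f x + pd j g x := by
  simp only [pd, fderiv_fun_add hf hg, ContinuousLinearMap.add_apply]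

lemma pd_mul {f g : (Fin 3 → ℝ) → ℝ} {x : Fin 3 → ℝ} (hf : DifferentiableAt ℝ f x)
    (hg : DifferentiableAt ℝ g x) (j : Fin 3) :
    pd j (fun y => f y * g y) x = f x * pd j g x + pd j f x * g x := by
  simp only [pd, fderiv_fun_mul hf hg, ContinuousLinearMap.add_apply,
    ContinuousLinearMap.smul_apply, smul_eq_mul]
  ring

lemma pd_const_mul {g : (Fin 3 → ℝ) → ℝ} {x : Fin 3 → ℝ} (hg : DifferentiableAt ℝ g x) (c : ℝ)
    (j : Fin 3) : pd j (fun y => c * g y) x = c * pd j g x := by
  simp only [pd, fderiv_const_mul hg c, ContinuousLinearMap.smul_apply, smul_eq_mul]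

lemma integral_div_periodic {G : Fin 3 → (Fin 3 → ℝ) → ℝ} (hd : ∀ j, Differentiable ℝ (G j))
    (hc : Continuous fun x => ∑ j, pd j (G j) x)
    (hper : ∀ i x, G i (x + Pi.single i 1) = G i x) :
    ∫ x in unitCube, ∑ j, pd j (G j) x = 0 := by
  have h := integral_divergence_of_hasFDerivAt_off_countable' (n := 2)
    (a := (0 : Fin 3 → ℝ)) (b := (1 : Fin 3 → ℝ)) (fun _ => zero_le_one) G
    (fun i x => fderiv ℝ (G i) x) ∅ countable_empty
    (fun i => (hd i).continuous.continuousOn) (fun x _ i => (hd i x).hasFDerivAt)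
    (hc.continuousOn.integrableOn_compact isCompact_Icc)
  refine h.trans (Finset.sum_eq_zero fun i _ => ?_)
  rw [sub_eq_zero]
  apply setIntegral_congr_fun measurableSet_Icc
  intro x _
  have e : Fin.insertNth i (1:ℝ) x = Fin.insertNth i (0:ℝ) x + (Pi.single i 1 : Fin 3 → ℝ) := by
    funext k
    induction k using Fin.succAboveCases i with
    | x => simp
    | p k => simp [Fin.succAbove_ne]
  simpa [e] using hper i (Fin.insertNth i (0:ℝ) x)

lemma unitCube_compact : IsCompact unitCube := isCompact_Icc

lemma unitCube_finite : IsFiniteMeasure (volume.restrict unitCube) :=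
  isFiniteMeasure_restrict.mpr unitCube_compact.measure_lt_top.ne

lemma periodic_int {g : (Fin 3 → ℝ) → ℝ} (hper : ∀ x j, g (x + Pi.single j 1) = g x)
    (x : Fin 3 → ℝ) : g x = g fun i => Int.fract (x i) := by
  have one : ∀ (j : Fin 3) (n : ℤ) (y : Fin 3 → ℝ), g (y + Pi.single j (n:ℝ)) = g y := by
    intro j n
    induction n using Int.induction_on with
    | zero => intro y; simp
    | succ n ih =>
        intro y
        have h : y + Pi.single j (((n:ℤ) + 1 : ℤ) : ℝ)
            = (y + Pi.single j (((n:ℤ) : ℝ))) + Pi.single j 1 := by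
          rw [add_assoc, ← Pi.single_add]
          push_cast
          rfl
        rw [h, hper, ih]
    | pred n ih =>
        intro y
        have h : (y + Pi.single j ((-(n:ℤ) - 1 : ℤ) : ℝ)) + Pi.single j 1
            = y + Pi.single j ((-(n:ℤ) : ℤ) : ℝ) := by
          rw [add_assoc, ← Pi.single_add]
          congr 2
          push_cast
          ring
        rw [← hper _ j, h, ih]
  have h : x = (((fun i => Int.fract (x i)) + Pi.single 0 ((⌊x 0⌋ : ℤ) : ℝ))
      + Pi.single 1 ((⌊x 1⌋ : ℤ) : ℝ)) + Pi.single 2 ((⌊x 2⌋ : ℤ) : ℝ) := by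
    funext i
    fin_cases i <;> simp [Pi.single_apply, Int.fract_add_floor]
  conv_lhs => rw [h]
  rw [one, one, one]

lemma fract_mem_cube (x : Fin 3 → ℝ) : (fun i => Int.fract (x i)) ∈ unitCube :=
  ⟨fun i => Int.fract_nonneg _, fun i => (Int.fract_lt_one _).le⟩

lemma zero_of_integral_sq {g : (Fin 3 → ℝ) → ℝ} (hg : Continuous g) (h0 : ∀ x, 0 ≤ g x)
    (hi : ∫ x in unitCube, g x ≤ 0) : ∀ x ∈ unitCube, g x = 0 := by
  have hi0 : ∫ x in unitCube, g x = 0 :=
    le_antisymm hi (integral_nonneg fun x => h0 x)
  have hae := (setIntegral_eq_zero_iff_of_nonneg_ae (Eventually.of_forall h0)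
    (hg.continuousOn.integrableOn_compact unitCube_compact)).mp hi0
  have hcl : unitCube ⊆ closure (interior unitCube) := by
    have h1 : (interior unitCube).Nonempty := by
      refine ⟨fun _ => 1/2, interior_maximal (t := pi univ fun _ : Fin 3 => Ioo (0:ℝ) 1) ?_
        (isOpen_set_pi finite_univ fun _ _ => isOpen_Ioo) ?_⟩
      · intro x hx
        exact ⟨fun i => (hx i trivial).1.le, fun i => (hx i trivial).2.le⟩
      · intro i _
        norm_num
    have hconv : Convex ℝ unitCube := convex_Icc _ _
    rw [hconv.closure_interior_eq_closure_of_nonempty_interior h1]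
    exact subset_closure
  exact fun x hx =>
    Measure.eqOn_of_ae_eq hae hg.continuousOn continuousOn_const hcl hx

theorem classical_unique {nu T : ℝ} (hnu : 0 ≤ nu) (hT : 0 < T)
    {f : ℝ → (Fin 3 → ℝ) → Fin 3 → ℝ}
    {u v : ℝ → (Fin 3 → ℝ) → Fin 3 → ℝ} {p q : ℝ → (Fin 3 → ℝ) → ℝ}
    (hu : IsClassicalSolution nu f T u p) (hv : IsClassicalSolution nu f T v q) :
    ∀ t ∈ Icc 0 T, ∀ x, v t x = u t x ∧ q t x = p t x := by
  set K : Set (ℝ × (Fin 3 → ℝ)) := Icc 0 T ×ˢ unitCube with hK
  have hKc : IsCompact K := isCompact_Icc.prod unitCube_compact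
  have hKsub : K ⊆ Icc 0 T ×ˢ univ := Set.prod_mono le_rfl (subset_univ _)
  set W : Fin 3 → ℝ → (Fin 3 → ℝ) → ℝ := fun i t x => v t x i - u t x i with hW
  set dW : Fin 3 → ℝ → (Fin 3 → ℝ) → ℝ := fun i t x =>
    derivWithin (fun s => v s x i) (Icc 0 T) t - derivWithin (fun s => u s x i) (Icc 0 T) t
    with hdW
  set e : ℝ → (Fin 3 → ℝ) → ℝ := fun t x => ∑ i, W i t x * W i t x with he
  set de : ℝ → (Fin 3 → ℝ) → ℝ := fun t x => ∑ i, 2 * (W i t x * dW i t x) with hde
  have cW : ∀ i, ContinuousOn (fun z : ℝ × (Fin 3 → ℝ) => W i z.1 z.2) K := fun i =>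
    ((hv.cont_u i).sub (hu.cont_u i)).mono hKsub
  have cdW : ∀ i, ContinuousOn (fun z : ℝ × (Fin 3 → ℝ) => dW i z.1 z.2) K := fun i =>
    ((hv.cont_dt i).sub (hu.cont_dt i)).mono hKsub
  have ce : ContinuousOn (fun z : ℝ × (Fin 3 → ℝ) => e z.1 z.2) K :=
    continuousOn_finsetSum _ fun i _ => (cW i).mul (cW i)
  have cde : ContinuousOn (fun z : ℝ × (Fin 3 → ℝ) => de z.1 z.2) K :=
    continuousOn_finsetSum _ fun i _ => continuousOn_const.mul ((cW i).mul (cdW i))
  have slice : ∀ {g : ℝ × (Fin 3 → ℝ) → ℝ}, ContinuousOn g K → ∀ t ∈ Icc 0 T,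
      ContinuousOn (fun x => g (t, x)) unitCube := by
    intro g hg t ht
    exact hg.comp (continuousOn_const.prodMk continuousOn_id) fun x hx => ⟨ht, hx⟩
  obtain ⟨Ce, hCe⟩ := hKc.exists_bound_of_continuousOn ce
  obtain ⟨Cd, hCd⟩ := hKc.exists_bound_of_continuousOn cde
  have hM : ∃ M : ℝ, ∀ i j, ∀ z ∈ K, |pd j (fun y => u z.1 y i) z.2| ≤ M := by
    have h : ∀ ij : Fin 3 × Fin 3, ∃ M : ℝ, ∀ z ∈ K,
        ‖pd ij.2 (fun y => u z.1 y ij.1) z.2‖ ≤ M :=
      fun ij => hKc.exists_bound_of_continuousOn ((hu.cont_dx ij.1 ij.2).mono hKsub)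
    choose M hM using h
    exact ⟨∑ ij, |M ij|, fun i j z hz => (Real.norm_eq_abs _ ▸ hM (i, j) z hz).trans
      ((le_abs_self _).trans
        (Finset.single_le_sum (fun k _ => abs_nonneg (M k)) (Finset.mem_univ (i, j))))⟩
  obtain ⟨M, hM⟩ := hM
  haveI := unitCube_finite
  set E : ℝ → ℝ := fun t => ∫ x in unitCube, e t x with hE
  have hEc : ContinuousOn E (Icc 0 T) := by
    refine continuousOn_of_dominated (bound := fun _ => Ce) ?_ ?_ (integrable_const _) ?_
    · exact fun t ht =>
        (slice ce t ht).aestronglyMeasurable unitCube_compact.measurableSet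
    · intro t ht
      exact (ae_restrict_iff' unitCube_compact.measurableSet).mpr
        (Eventually.of_forall fun x hx => hCe (t, x) ⟨ht, hx⟩)
    · exact (ae_restrict_iff' unitCube_compact.measurableSet).mpr
        (Eventually.of_forall fun x hx =>
          ce.comp (continuousOn_id.prodMk continuousOn_const) fun t ht => ⟨ht, hx⟩)
  have hEd : ∀ t ∈ Ioo 0 T, HasDerivAt E (∫ x in unitCube, de t x) t := by
    intro t ht
    refine (hasDerivAt_integral_of_dominated_loc_of_deriv_le (F := e) (F' := de)
      (bound := fun _ => Cd) (isOpen_Ioo.mem_nhds ht) ?_ ?_ ?_ ?_ (integrable_const _) ?_).2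
    · filter_upwards [isOpen_Ioo.mem_nhds ht] with s hs
      exact (slice ce s (Ioo_subset_Icc_self hs)).aestronglyMeasurable
        unitCube_compact.measurableSet
    · exact (slice ce t (Ioo_subset_Icc_self ht)).integrableOn_compact unitCube_compact
    · exact (slice cde t (Ioo_subset_Icc_self ht)).aestronglyMeasurable
        unitCube_compact.measurableSet
    · exact (ae_restrict_iff' unitCube_compact.measurableSet).mpr
        (Eventually.of_forall fun x hx s hs => hCd (s, x) ⟨Ioo_subset_Icc_self hs, hx⟩)
    · refine Eventually.of_forall fun x s hs => ?_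
      have h1 : ∀ i, HasDerivAt (fun s => W i s x) (dW i s x) s := fun i =>
        ((hv.diff_time s (Ioo_subset_Icc_self hs) x i).hasDerivWithinAt.hasDerivAt
          (Icc_mem_nhds hs.1 hs.2)).sub
        ((hu.diff_time s (Ioo_subset_Icc_self hs) x i).hasDerivWithinAt.hasDerivAt
          (Icc_mem_nhds hs.1 hs.2))
      have h2 := HasDerivAt.fun_sum fun i (_ : i ∈ Finset.univ) => (h1 i).mul (h1 i)
      refine h2.congr_deriv (Finset.sum_congr rfl fun i _ => ?_)
      ring
  have key : ∀ t ∈ Icc 0 T, ∫ x in unitCube, de t x ≤ 6 * M * E t := by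
    intro t ht
    set A : Fin 3 → (Fin 3 → ℝ) → ℝ := fun i => W i t with hA
    set r : (Fin 3 → ℝ) → ℝ := fun x => q t x - p t x with hr
    have sv : ∀ i, ContDiff ℝ 2 fun x => v t x i := hv.smooth_space t ht
    have su : ∀ i, ContDiff ℝ 2 fun x => u t x i := hu.smooth_space t ht
    have sA : ∀ i, ContDiff ℝ 2 (A i) := fun i => (sv i).sub (su i)
    have dA : ∀ i, Differentiable ℝ (A i) := fun i => (sA i).differentiable (by norm_num)
    have dv : ∀ i, Differentiable ℝ (fun x => v t x i) := fun i =>
      (sv i).differentiable (by norm_num)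
    have du : ∀ i, Differentiable ℝ (fun x => u t x i) := fun i =>
      (su i).differentiable (by norm_num)
    have dA' : ∀ j i, Differentiable ℝ (pd j (A i)) := fun j i =>
      (pd_contDiff (sA i) j).differentiable (by norm_num)
    have dr : Differentiable ℝ r := (hv.diff_pressure t ht).sub (hu.diff_pressure t ht)
    have hAj : ∀ j i x, pd j (A i) x = pd j (fun y => v t y i) x - pd j (fun y => u t y i) x :=
      fun j i x => pd_sub (dv i x) (du i x) j
    have hAjj : ∀ j i x, pd j (pd j (A i)) x
        = pd j (pd j fun y => v t y i) x - pd j (pd j fun y => u t y i) x := by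
      intro j i x
      rw [show pd j (A i) = fun y => pd j (fun z => v t z i) y - pd j (fun z => u t z i) y from
        funext (hAj j i)]
      exact pd_sub ((pd_contDiff (sv i) j).differentiable (by norm_num) x)
        ((pd_contDiff (su i) j).differentiable (by norm_num) x) j
    set G : Fin 3 → (Fin 3 → ℝ) → ℝ := fun j x =>
      (-1/2) * (v t x j * (A 0 x * A 0 x + A 1 x * A 1 x + A 2 x * A 2 x))
        + (-1) * (A j x * r x)
        + nu * (A 0 x * pd j (A 0) x + A 1 x * pd j (A 1) x + A 2 x * pd j (A 2) x) with hG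
    have dG : ∀ j, Differentiable ℝ (G j) := fun j =>
      ((((dv j).mul ((((dA 0).mul (dA 0)).add ((dA 1).mul (dA 1))).add ((dA 2).mul (dA 2)))).const_mul
        (-1/2:ℝ)).add (((dA j).mul dr).const_mul (-1:ℝ))).add
      (((((dA 0).mul (dA' j 0)).add ((dA 1).mul (dA' j 1))).add ((dA 2).mul (dA' j 2))).const_mul
        nu)
    have pdG : ∀ j x, pd j (G j) x =
        (-1/2) * (v t x j * (2 * A 0 x * pd j (A 0) x + 2 * A 1 x * pd j (A 1) x
            + 2 * A 2 x * pd j (A 2) x)
          + pd j (fun y => v t y j) x * (A 0 x * A 0 x + A 1 x * A 1 x + A 2 x * A 2 x))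
        + (-1) * (A j x * pd j r x + pd j (A j) x * r x)
        + nu * (A 0 x * pd j (pd j (A 0)) x + pd j (A 0) x * pd j (A 0) x
          + (A 1 x * pd j (pd j (A 1)) x + pd j (A 1) x * pd j (A 1) x)
          + (A 2 x * pd j (pd j (A 2)) x + pd j (A 2) x * pd j (A 2) x)) := by
      intro j x
      have h2 := fun i => (dA i x).hasFDerivAt.mul (dA i x).hasFDerivAt
      have h3 := fun i => (dA i x).hasFDerivAt.mul (dA' j i x).hasFDerivAt
      have h : HasFDerivAt (G j) _ x :=
        ((((dv j x).hasFDerivAt.mul (((h2 0).add (h2 1)).add (h2 2))).const_mul (-1/2:ℝ)).add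
          (((dA j x).hasFDerivAt.mul (dr x).hasFDerivAt).const_mul (-1:ℝ))).add
            ((((h3 0).add (h3 1)).add (h3 2)).const_mul nu)
      rw [show pd j (G j) x = _ from congrArg (fun L : (Fin 3 → ℝ) →L[ℝ] ℝ => L (Pi.single j 1))
        h.fderiv]
      simp only [ContinuousLinearMap.add_apply, ContinuousLinearMap.smul_apply, smul_eq_mul,
        Pi.add_apply, Pi.mul_apply, pd]
      ring
    have rj : ∀ j x, pd j r x = pd j (q t) x - pd j (p t) x := fun j x =>
      pd_sub (hv.diff_pressure t ht x) (hu.diff_pressure t ht x) j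
    have cr : ∀ j, Continuous (pd j r) := by
      intro j
      rw [show pd j r = fun x => pd j (q t) x - pd j (p t) x from funext (rj j)]
      have h := ((hv.cont_dp j).comp_continuous (continuous_const.prodMk continuous_id)
        fun x => ⟨ht, mem_univ x⟩).sub ((hu.cont_dp j).comp_continuous
          (continuous_const.prodMk continuous_id) fun x => ⟨ht, mem_univ x⟩)
      exact h
    have cv : ∀ j, Continuous fun x => pd j (fun y => v t y j) x := fun j =>
      pd_continuous ((sv j).of_le (by norm_num)) j
    have cA : ∀ i, Continuous (A i) := fun i => (dA i).continuous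
    have cA' : ∀ j i, Continuous (pd j (A i)) := fun j i => (dA' j i).continuous
    have cA'' : ∀ j i, Continuous (pd j (pd j (A i))) := fun j i =>
      pd_continuous (pd_contDiff (sA i) j) j
    have cr0 : Continuous r := dr.continuous
    have cv0 : ∀ j, Continuous fun x => v t x j := fun j => (dv j).continuous
    have cdiv : Continuous fun x => ∑ j, pd j (G j) x := by
      refine continuous_finsetSum _ fun j _ => ?_
      rw [show pd j (G j) = _ from funext (pdG j)]
      fun_prop
    have zero_div : ∫ x in unitCube, ∑ j, pd j (G j) x = 0 := by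
      refine integral_div_periodic dG cdiv fun i x => ?_
      have perA : ∀ k, A k (x + Pi.single i 1) = A k x := fun k => by
        simp only [hA, hW, hv.periodic_u t ht, hu.periodic_u t ht]
      have perA' : ∀ k, pd i (A k) (x + Pi.single i 1) = pd i (A k) x := by
        intro k
        have hs : (fun y => A k (y + Pi.single i 1)) = A k := by
          funext y
          simp only [hA, hW, hv.periodic_u t ht, hu.periodic_u t ht]
        have := fderiv_comp_add_right (𝕜 := ℝ) (f := A k) (x := x) (Pi.single i 1)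
        rw [hs] at this
        simp only [pd, ← this]
      simp only [hG, hr, perA, perA', hv.periodic_u t ht, hv.periodic_p t ht,
        hu.periodic_p t ht]
    have bound : ∀ x ∈ unitCube, de t x ≤ 2 * (∑ j, pd j (G j) x) + 6 * M * e t x := by
      intro x hx
      have eqn : ∀ i, dW i t x =
          -(v t x 0 * pd 0 (A i) x + v t x 1 * pd 1 (A i) x + v t x 2 * pd 2 (A i) x)
          - (A 0 x * pd 0 (fun y => u t y i) x + A 1 x * pd 1 (fun y => u t y i) x
              + A 2 x * pd 2 (fun y => u t y i) x)
          - pd i r x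
          + nu * (pd 0 (pd 0 (A i)) x + pd 1 (pd 1 (A i)) x + pd 2 (pd 2 (A i)) x) := by
        intro i
        have a := hv.momentum t ht x i
        have b := hu.momentum t ht x i
        simp only [Fin.sum_univ_three] at a b
        rw [hAj 0 i x, hAj 1 i x, hAj 2 i x, hAjj 0 i x, hAjj 1 i x, hAjj 2 i x, rj i x]
        simp only [hdW, hA, hW]
        linear_combination a - b
      have dvz := hv.div_free t ht x
      have duz := hu.div_free t ht x
      simp only [Fin.sum_univ_three] at dvz duz
      have dAz : pd 0 (A 0) x + pd 1 (A 1) x + pd 2 (A 2) x = 0 := by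
        simp only [hAj]; linarith
      have hm : ∀ i j, |pd j (fun y => u t y i) x| ≤ M := fun i j => hM i j (t, x) ⟨ht, hx⟩
      have cross : ∀ i j, -(A i x * A j x * pd j (fun y => u t y i) x)
          ≤ M * ((A i x * A i x + A j x * A j x) / 2) := by
        intro i j
        have h1 : |A i x * A j x| ≤ (A i x * A i x + A j x * A j x) / 2 := by
          rw [abs_le]
          constructor <;> nlinarith [sq_nonneg (A i x + A j x), sq_nonneg (A i x - A j x)]
        calc -(A i x * A j x * pd j (fun y => u t y i) x)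
            ≤ |A i x * A j x| * |pd j (fun y => u t y i) x| := by
              rw [← abs_mul]; exact neg_le_abs _
          _ ≤ ((A i x * A i x + A j x * A j x) / 2) * M :=
              mul_le_mul h1 (hm i j) (abs_nonneg _) ((abs_nonneg _).trans h1)
          _ = M * ((A i x * A i x + A j x * A j x) / 2) := mul_comm _ _
      have c00 := cross 0 0
      have c01 := cross 0 1
      have c02 := cross 0 2
      have c10 := cross 1 0
      have c11 := cross 1 1
      have c12 := cross 1 2
      have c20 := cross 2 0
      have c21 := cross 2 1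
      have c22 := cross 2 2
      have diss : 0 ≤ nu * ((pd 0 (A 0) x)^2 + (pd 1 (A 0) x)^2 + (pd 2 (A 0) x)^2
          + (pd 0 (A 1) x)^2 + (pd 1 (A 1) x)^2 + (pd 2 (A 1) x)^2
          + (pd 0 (A 2) x)^2 + (pd 1 (A 2) x)^2 + (pd 2 (A 2) x)^2) :=
        mul_nonneg hnu (by positivity)
      have el : de t x = 2 * (A 0 x * dW 0 t x + A 1 x * dW 1 t x + A 2 x * dW 2 t x) := by
        simp only [hde, hA, Fin.sum_univ_three]; ring
      have ee : e t x = A 0 x * A 0 x + A 1 x * A 1 x + A 2 x * A 2 x := by
        simp only [he, hA, Fin.sum_univ_three]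
      rw [el, ee, eqn 0, eqn 1, eqn 2, Fin.sum_univ_three, pdG 0, pdG 1, pdG 2]
      linear_combination 2 * c00 + 2 * c01 + 2 * c02 + 2 * c10 + 2 * c11 + 2 * c12 + 2 * c20
        + 2 * c21 + 2 * c22 + 2 * diss
        + (A 0 x * A 0 x + A 1 x * A 1 x + A 2 x * A 2 x) * dvz + 2 * r x * dAz
    have i1 : IntegrableOn (fun x => de t x) unitCube :=
      (slice cde t ht).integrableOn_compact unitCube_compact
    have i2 : IntegrableOn (fun x => e t x) unitCube :=
      (slice ce t ht).integrableOn_compact unitCube_compact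
    have i3 : IntegrableOn (fun x => ∑ j, pd j (G j) x) unitCube :=
      cdiv.continuousOn.integrableOn_compact unitCube_compact
    calc ∫ x in unitCube, de t x
        ≤ ∫ x in unitCube, (2 * (∑ j, pd j (G j) x) + 6 * M * e t x) :=
          setIntegral_mono_on i1 ((i3.const_mul 2).add (i2.const_mul (6 * M)))
            unitCube_compact.measurableSet bound
      _ = 2 * 0 + 6 * M * E t := by
          rw [integral_add (i3.const_mul 2) (i2.const_mul (6 * M)), integral_const_mul,
            integral_const_mul, zero_div]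
      _ = 6 * M * E t := by ring
  have hEn : ∀ t ∈ Icc 0 T, E t ≤ 0 := by
    set H : ℝ → ℝ := fun t => E t * Real.exp (-(6 * M) * t) with hH
    have hd : ∀ t ∈ interior (Icc 0 T),
        HasDerivAt H ((∫ x in unitCube, de t x) * Real.exp (-(6 * M) * t)
          + E t * (Real.exp (-(6 * M) * t) * (-(6 * M)))) t := by
      intro t ht
      rw [interior_Icc] at ht
      have h : HasDerivAt (fun s : ℝ => -(6 * M) * s) (-(6 * M)) t := by
        simpa using (hasDerivAt_id t).const_mul (-(6 * M))
      exact (hEd t ht).mul h.exp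
    have anti : AntitoneOn H (Icc 0 T) := by
      apply antitoneOn_of_deriv_nonpos (convex_Icc 0 T)
      · exact hEc.mul (by fun_prop)
      · exact fun t ht => (hd t ht).differentiableAt.differentiableWithinAt
      · intro t ht
        rw [(hd t ht).deriv]
        rw [interior_Icc] at ht
        nlinarith [key t (Ioo_subset_Icc_self ht), Real.exp_pos (-(6 * M) * t)]
    intro t ht
    have h := anti (left_mem_Icc.mpr hT.le) ht ht.1
    have hE0 : E 0 = 0 := by simp [hE, he, hW, hu.initial, hv.initial]
    simp only [hH, hE0, zero_mul] at h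
    nlinarith [Real.exp_pos (-(6 * M) * t)]
  intro t ht x
  have heq : ∀ y, v t y = u t y := by
    intro y
    have cu : ∀ i, Continuous fun z => W i t z := fun i =>
      ((hv.smooth_space t ht i).continuous).sub ((hu.smooth_space t ht i).continuous)
    have ce' : Continuous (e t) := continuous_finsetSum _ fun i _ => (cu i).mul (cu i)
    have hz := zero_of_integral_sq ce'
      (fun z => Finset.sum_nonneg fun i _ => mul_self_nonneg _) (hEn t ht)
      _ (fract_mem_cube y)
    funext i
    have h0 := (Finset.sum_eq_zero_iff_of_nonneg fun i _ => mul_self_nonneg _).mp hz i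
      (Finset.mem_univ i)
    have hi := mul_self_eq_zero.mp h0
    have per : ∀ z j, W i t (z + Pi.single j 1) = W i t z := fun z j => by
      simp only [hW, hv.periodic_u t ht, hu.periodic_u t ht]
    simp only [← periodic_int per y] at hi
    exact sub_eq_zero.mp hi
  refine ⟨heq x, ?_⟩
  set r : (Fin 3 → ℝ) → ℝ := fun y => q t y - p t y with hr
  have dr : Differentiable ℝ r := (hv.diff_pressure t ht).sub (hu.diff_pressure t ht)
  have grad : ∀ y i, pd i r y = 0 := by
    intro y i
    have a := hv.momentum t ht y i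
    have b := hu.momentum t ht y i
    have hdt : derivWithin (fun s => v s y i) (Icc 0 T) t
        = derivWithin (fun s => u s y i) (Icc 0 T) t := by
      apply derivWithin_congr
      · intro s hs
        have cu : ∀ i, Continuous fun z => W i s z := fun i =>
          ((hv.smooth_space s hs i).continuous).sub ((hu.smooth_space s hs i).continuous)
        have hz := zero_of_integral_sq
          (continuous_finsetSum _ fun i _ => (cu i).mul (cu i))
          (fun z => Finset.sum_nonneg fun i _ => mul_self_nonneg _) (hEn s hs)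
          _ (fract_mem_cube y)
        have h0 := (Finset.sum_eq_zero_iff_of_nonneg fun i _ => mul_self_nonneg _).mp hz i
          (Finset.mem_univ i)
        have hi := mul_self_eq_zero.mp h0
        have per : ∀ z j, W i s (z + Pi.single j 1) = W i s z := fun z j => by
          simp only [hW, hv.periodic_u s hs, hu.periodic_u s hs]
        simp only [← periodic_int per y] at hi
        exact sub_eq_zero.mp hi
      · exact congrFun (heq y) i
    have hfun : v t = u t := funext heq
    rw [hfun, hdt] at a
    simp only [hr]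
    rw [pd_sub (hv.diff_pressure t ht y) (hu.diff_pressure t ht y)]
    linarith
  have hf : ∀ y, fderiv ℝ r y = 0 := by
    intro y
    ext w
    have : w = ∑ i, w i • (Pi.single i (1:ℝ) : Fin 3 → ℝ) := by
      funext k
      simp [Pi.single_apply]
    rw [this, map_sum]
    simp only [map_smul]
    exact Finset.sum_eq_zero fun i _ => by rw [show fderiv ℝ r y (Pi.single i 1) = 0 from grad y i, smul_zero]
  have hc : ∀ y, r y = r x := fun y => is_const_of_fderiv_eq_zero dr hf y x
  have m : ∫ y in unitCube, r y = 0 := by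
    simp only [hr]
    rw [integral_sub, hv.mean_zero t ht, hu.mean_zero t ht, sub_zero]
    · exact (hv.diff_pressure t ht).continuous.continuousOn.integrableOn_compact unitCube_compact
    · exact (hu.diff_pressure t ht).continuous.continuousOn.integrableOn_compact unitCube_compact
  simp only [hc, setIntegral_const, smul_eq_mul] at m
  have hvol : volume.real unitCube = 1 := by
    simp [unitCube, Measure.real, Real.volume_Icc_pi]
  rw [hvol, one_mul] at m
  exact sub_eq_zero.mp m

end Vale.Agent.P113
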