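import Vale.Agent.P113.Velocity
import Vale.Agent.P113.Energy

/-!
The compiled velocity solves the equations and its trajectory follows the shift.
-/

namespace Vale.Agent.P113

open Set Filter Topology
open scoped ContDiff

/-! ### Elementary lemmas -/

lemma sum_single {α : Type} {l : List α} (hl : l.Nodup) {f : α → ℝ} {a : α} (ha : a ∈ l)
    (h : ∀ b ∈ l, b ≠ a → f b = 0) : (l.map f).sum = f a := by
  induction l with
  | nil => simp at ha
  | cons c l ih =>
      obtain ⟨hc, hl'⟩ := List.nodup_cons.mp hl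
      rw [List.map_cons, List.sum_cons]
      rcases List.mem_cons.mp ha with rfl | ha'
      · have : (l.map f).sum = 0 := by
          apply List.sum_eq_zero
          intro y hy
          obtain ⟨b, hb, rfl⟩ := List.mem_map.mp hy
          exact h b (by simp [hb]) fun e => hc (e ▸ hb)
        rw [this, add_zero]
      · rw [h c (by simp) (fun e => hc (e ▸ ha')), zero_add]
        exact ih hl' ha' fun b hb hne => h b (by simp [hb]) hne

lemma sum_zero {α : Type} {l : List α} {f : α → ℝ} (h : ∀ b ∈ l, f b = 0) :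
    (l.map f).sum = 0 := by
  apply List.sum_eq_zero
  intro y hy
  obtain ⟨b, hb, rfl⟩ := List.mem_map.mp hy
  exact h b hb

/-- Between the values at `e = 1` and `e = l`. -/
lemma affine_between {A B x0 a l e : ℝ} (ha : A ≤ x0 + a ∧ x0 + a ≤ B)
    (hl : A ≤ x0 + a * l ∧ x0 + a * l ≤ B) (he : min 1 l ≤ e ∧ e ≤ max 1 l) :
    A ≤ x0 + a * e ∧ x0 + a * e ≤ B := by
  rcases le_total (1:ℝ) l with h1 | h1
  · rw [min_eq_left h1, max_eq_right h1] at he
    rcases le_total 0 a with h2 | h2 <;> constructor <;>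
      nlinarith [mul_le_mul_of_nonneg_left he.1 (abs_nonneg a),
        mul_le_mul_of_nonneg_left he.2 (abs_nonneg a)]
  · rw [min_eq_right h1, max_eq_left h1] at he
    rcases le_total 0 a with h2 | h2 <;> constructor <;>
      nlinarith [mul_le_mul_of_nonneg_left he.1 (abs_nonneg a),
        mul_le_mul_of_nonneg_left he.2 (abs_nonneg a)]

lemma exp_log_between {l p : ℝ} (hl : 0 < l) (hp0 : 0 ≤ p) (hp1 : p ≤ 1) :
    min 1 l ≤ Real.exp (Real.log l * p) ∧ Real.exp (Real.log l * p) ≤ max 1 l := by
  rcases le_total (0:ℝ) (Real.log l) with h | h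
  · constructor
    · exact (min_le_left _ _).trans (Real.one_le_exp (mul_nonneg h hp0))
    · refine le_trans ?_ (le_max_right 1 l)
      conv_rhs => rw [← Real.exp_log hl]
      exact Real.exp_le_exp.mpr (by nlinarith)
  · constructor
    · refine le_trans (min_le_right 1 l) ?_
      conv_lhs => rw [← Real.exp_log hl]
      exact Real.exp_le_exp.mpr (by nlinarith)
    · exact (Real.exp_le_one_iff.mpr (mul_nonpos_of_nonpos_of_nonneg h hp0)).trans
        (le_max_left _ _)

/-! ### Progress functions -/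

noncomputable def prog (c : ℕ) (s : ℝ) : ℝ := sigma (16 * s - (c:ℝ)) / kappa

noncomputable def progT (t : ℝ) : ℝ := sigma (8 * t - 2) / kappa

lemma prog_mem (c : ℕ) (s : ℝ) : 0 ≤ prog c s ∧ prog c s ≤ 1 :=
  ⟨div_nonneg (sigma_nonneg _) kappa_pos.le, (div_le_one kappa_pos).mpr (sigma_le _)⟩

lemma prog_early {c : ℕ} {s : ℝ} (h : 16 * s ≤ (c:ℝ) - 1) : prog c s = 0 := by
  rw [prog, sigma_zero (by linarith), zero_div]

lemma prog_late {c : ℕ} {s : ℝ} (h : (c:ℝ) + 1 ≤ 16 * s) : prog c s = 1 := by
  rw [prog, sigma_top (by linarith), div_self kappa_ne]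

lemma prog_hasDerivAt (c : ℕ) (s : ℝ) :
    HasDerivAt (prog c) (16 / kappa * rho (16 * s - (c:ℝ))) s := by
  have h : HasDerivAt (fun x : ℝ => 16 * x - (c:ℝ)) 16 s := by
    simpa using ((hasDerivAt_id s).const_mul (16:ℝ)).sub_const (c:ℝ)
  refine (((sigma_hasDerivAt _).comp s h).div_const kappa).congr_deriv ?_
  ring

lemma progT_hasDerivAt (t : ℝ) : HasDerivAt progT (transientVal t) t := by
  have h : HasDerivAt (fun x : ℝ => 8 * x - 2) 8 t := by
    simpa using ((hasDerivAt_id t).const_mul (8:ℝ)).sub_const (2:ℝ)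
  refine (((sigma_hasDerivAt _).comp t h).div_const kappa).congr_deriv ?_
  rw [transientVal, transient_bump]
  ring

/-! ### Linear profiles -/

lemma lin_hasDerivAt (x0 : RatCode) (x : ℝ) : HasDerivAt (lin x0) (dlin x0 x) x := by
  have v := linList_valid x0
  have h : HasDerivAt (fun y => lcVal (fun g => periodize (bumpVal g)) (linList x0) y)
      (lcVal (fun g => periodize (bumpVal g)) (dLinList x0) x) x := by
    have h1 := (periodize_bump_hasDerivAt (ivBump_valid wholeY_ok 1) x).const_mul
      (ratVal (1, 0, 0) : ℝ)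
    have h2 := (periodize_bump_hasDerivAt (ivBump_valid wholeY_ok 0) x).const_mul
      (ratVal (ratNeg x0) : ℝ)
    have h3 := h1.add h2
    have e : (fun y => lcVal (fun g => periodize (bumpVal g)) (linList x0) y)
        = (fun y => (ratVal (1, 0, 0) : ℝ) * periodize (bumpVal (ivBump 1 wholeY)) y)
          + fun y => (ratVal (ratNeg x0) : ℝ) * periodize (bumpVal (ivBump 0 wholeY)) y := by
      funext y
      simp [lcVal, linList]
    rw [e]
    refine h3.congr_deriv ?_
    simp only [lcVal, dLinList, linList, List.flatMap_cons, List.flatMap_nil, List.append_nil,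
      List.map_append, List.sum_append, List.map_map, ← List.sum_map_mul_left]
    congr 2 <;>
      (apply List.map_congr_left; intro p _; simp [ratVal_mul]; ring)
  exact h.div_const kappa

lemma lin_contDiff (x0 : RatCode) : ContDiff ℝ ∞ (lin x0) := by
  have h1 := periodize_bump_contDiff (ivBump_valid wholeY_ok 1)
  have h0 := periodize_bump_contDiff (ivBump_valid wholeY_ok 0)
  have e : lin x0 = fun y => ((ratVal (1, 0, 0) : ℝ) * periodize (bumpVal (ivBump 1 wholeY)) y
      + (ratVal (ratNeg x0) : ℝ) * periodize (bumpVal (ivBump 0 wholeY)) y) / kappa := by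
    funext y
    simp [lin, lcVal, linList]
  rw [e]
  exact ((contDiff_const.mul h1).add (contDiff_const.mul h0)).div_const kappa

lemma dlin_differentiable (x0 : RatCode) : Differentiable ℝ (dlin x0) := by
  have e : dlin x0 = deriv (lin x0) := funext fun x => (lin_hasDerivAt x0 x).deriv.symm
  rw [e]
  exact ((contDiff_infty_iff_deriv.mp (lin_contDiff x0)).2).differentiable (by simp)

lemma lin_flat (x0 : RatCode) {x : ℝ} (h : x ∈ Icc (1/4:ℝ) (3/4)) :
    lin x0 x = x - (ratVal x0 : ℝ) := by
  have hw : InIv wholeY x := by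
    simp only [InIv, wholeY]
    push_cast
    constructor <;> linarith [h.1, h.2]
  obtain ⟨a, b⟩ := hw.mem wholeY_ok
  have hk := kappa_ne
  simp only [lin, lcVal, linList, List.map_cons, List.map_nil, List.sum_cons, List.sum_nil,
    per_ivBump wholeY_ok _ a b, ivBump_inside hw, ratVal_neg]
  simp [ratVal]
  field_simp
  ring

lemma dlin_flat (x0 : RatCode) {x : ℝ} (h : x ∈ Icc (1/4:ℝ) (3/4)) : dlin x0 x = 1 := by
  have h1 : HasDerivWithinAt (lin x0) 1 (Icc (1/4:ℝ) (3/4)) x :=
    ((hasDerivAt_id x).sub_const (ratVal x0 : ℝ)).hasDerivWithinAt.congr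
      (fun y hy => lin_flat x0 hy) (lin_flat x0 h)
  exact (uniqueDiffOn_Icc (by norm_num) x h).eq_deriv _ (lin_hasDerivAt x0 x).hasDerivWithinAt h1

/-! ### One step of the flow -/

variable {G : Shift} {c : SConf}

/-- The branch used at a configuration, with its index. -/
def stepEntry (G : Shift) (c : SConf) : Branch × ℕ :=
  match G.cur c with
  | some r => (branchAt G r c, (branches G).idxOf (branchAt G r c))
  | none => ((⟨0, 0, 0, 0, false⟩, 0), 0)

noncomputable def rate (G : Shift) (c : SConf) : ℝ :=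
  Real.log (ratVal (ratioCode G (stepEntry G c).1) : ℝ)

noncomputable def height (G : Shift) (c : SConf) : ℝ :=
  (ratVal (slabShift (slabOf G (stepEntry G c))) : ℝ)

/-- The path during one period. -/
noncomputable def piece (G : Shift) (c : SConf) (s : ℝ) : Fin 3 → ℝ :=
  ![(ratVal (fixX G (stepEntry G c).1) : ℝ)
      + (ptX G c - (ratVal (fixX G (stepEntry G c).1) : ℝ)) * Real.exp (rate G c * prog 11 s),
    (ratVal (fixY G (stepEntry G c).1) : ℝ)
      + (ptY G c - (ratVal (fixY G (stepEntry G c).1) : ℝ)) * Real.exp (-rate G c * prog 11 s),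
    1 / 8 + height G c * (prog 9 s - prog 13 s)]

lemma pt_mem (hc : G.InRange c) :
    ptX G c ∈ Icc (1/4:ℝ) (3/4) ∧ ptY G c ∈ Icc (1/4:ℝ) (3/4) := by
  obtain ⟨a, b⟩ := enc_mem hc.2.1
  obtain ⟨a', b'⟩ := enc_mem hc.2.2
  have hS : (c.1:ℝ) + 1 ≤ (G.states:ℝ) := by exact_mod_cast hc.1
  have hp : (0:ℝ) < 4 * (G.states:ℝ) := by
    have : (0:ℝ) ≤ (c.1:ℝ) := Nat.cast_nonneg _
    linarith
  refine ⟨⟨?_, ?_⟩, ?_, ?_⟩
  · simp only [ptX]
    have : 0 ≤ (2 * (c.1:ℝ) + enc (gBase G.syms) c.2.1) / (4 * (G.states:ℝ)) := by positivity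
    linarith
  · simp only [ptX]
    have : (2 * (c.1:ℝ) + enc (gBase G.syms) c.2.1) / (4 * (G.states:ℝ)) ≤ 1/2 := by
      rw [div_le_iff₀ hp]; linarith
    linarith
  · simp only [ptY]; linarith
  · simp only [ptY]; linarith

/-- Facts about a step. -/
structure StepData (G : Shift) (c : SConf) : Prop where
  mem : stepEntry G c ∈ (branches G).zipIdx
  inX : InIv (srcX G (stepEntry G c).1) (ptX G c)
  inY : InIv (srcY G (stepEntry G c).1) (ptY G c)
  inX' : InIv (dstX G (stepEntry G c).1) (ptX G (G.next c))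
  inY' : InIv (dstY G (stepEntry G c).1) (ptY G (G.next c))
  off : ∀ e ∈ (branches G).zipIdx, e ≠ stepEntry G c →
    OffIv (srcX G e.1) (ptX G c) ∨ OffIv (srcY G e.1) (ptY G c)
  off' : ∀ e ∈ (branches G).zipIdx, e ≠ stepEntry G c →
    OffIv (dstX G e.1) (ptX G (G.next c)) ∨ OffIv (dstY G e.1) (ptY G (G.next c))
  endX : ptX G (G.next c) = (ratVal (fixX G (stepEntry G c).1) : ℝ)
    + (ptX G c - (ratVal (fixX G (stepEntry G c).1) : ℝ)) * Real.exp (rate G c)
  endY : ptY G (G.next c) = (ratVal (fixY G (stepEntry G c).1) : ℝ)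
    + (ptY G c - (ratVal (fixY G (stepEntry G c).1) : ℝ)) * Real.exp (-rate G c)
  hot : G.Hot c ↔ (stepEntry G c).1.1.hot = true

lemma zipIdx_nodup {α : Type} (l : List α) : l.zipIdx.Nodup := by
  apply List.Nodup.of_map Prod.snd
  rw [List.zipIdx_map_snd]
  exact List.nodup_range'

lemma entry_eq_of_fst (hG : G.Good) {e e' : Branch × ℕ} (he : e ∈ (branches G).zipIdx)
    (he' : e' ∈ (branches G).zipIdx) (h : e.1 = e'.1) : e = e' := by
  have hn : ((branches G).zipIdx.map Prod.fst).Nodup := by
    rw [List.zipIdx_map_fst]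
    exact branches_nodup hG
  exact List.inj_on_of_nodup_map hn he he' h

lemma entry_eq_of_snd {e e' : Branch × ℕ} (he : e ∈ (branches G).zipIdx)
    (he' : e' ∈ (branches G).zipIdx) (h : e.2 = e'.2) : e = e' := by
  have hn : ((branches G).zipIdx.map Prod.snd).Nodup := by
    rw [List.zipIdx_map_snd]
    exact List.nodup_range'
  exact List.inj_on_of_nodup_map hn he he' h

lemma stepData (hG : G.Good) (hc : G.InRange c) (hlive : G.Live c) : StepData G c := by
  obtain ⟨r, hr⟩ := hlive
  obtain ⟨hmem, hf⟩ := Shift.cur_some hr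
  have g := stepGeom hG hmem hf hc
  have hnext : G.next c = G.fire r c := by simp [Shift.next, hr]
  have he : stepEntry G c = (branchAt G r c, (branches G).idxOf (branchAt G r c)) := by
    simp [stepEntry, hr]
  have hb := branchAt_mem hG hmem hc
  have hin : stepEntry G c ∈ (branches G).zipIdx := by
    rw [he, List.mem_zipIdx_iff_getElem?]
    simp [List.getElem?_eq_getElem (List.idxOf_lt_length_iff.mpr hb)]
  have hne : ∀ e ∈ (branches G).zipIdx, e ≠ stepEntry G c → e.1 ≠ branchAt G r c := by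
    intro e hem hne heq
    exact hne (entry_eq_of_fst hG hem hin (by rw [heq, he]))
  have hlam : (0:ℝ) < (ratVal (ratioCode G (branchAt G r c)) : ℝ) := by
    exact_mod_cast ratioCode_pos G _
  refine ⟨hin, ?_, ?_, ?_, ?_, ?_, ?_, ?_, ?_, ?_⟩
  · rw [he]; exact g.src_in.1
  · rw [he]; exact g.src_in.2
  · rw [he, hnext]; exact g.dst_in.1
  · rw [he, hnext]; exact g.dst_in.2
  · exact fun e hem hn => g.src_off _ (mem_zipIdx_branches hem).1 (hne e hem hn)
  · rw [hnext]
    exact fun e hem hn => g.dst_off _ (mem_zipIdx_branches hem).1 (hne e hem hn)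
  · rw [hnext, rate, he, Real.exp_log hlam]
    linear_combination g.mapX
  · rw [hnext, rate, he, Real.exp_neg, Real.exp_log hlam, ← div_eq_mul_inv]
    linear_combination g.mapY
  · rw [he]
    constructor
    · rintro ⟨s, hs, hh⟩
      rw [hr] at hs
      cases hs
      exact hh
    · exact fun hh => ⟨r, hr, hh⟩

lemma slab_facts {n i : ℕ} (hi : i < n) (hot : Bool) :
    InIv (slabIv n i hot) (1 / 8 + (ratVal (slabShift (slabIv n i hot)) : ℝ)) ∧
    0 ≤ (ratVal (slabShift (slabIv n i hot)) : ℝ) ∧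
    1 / 8 + (ratVal (slabShift (slabIv n i hot)) : ℝ) < 7 / 8 ∧
    (hot = true → 3 / 4 < 1 / 8 + (ratVal (slabShift (slabIv n i hot)) : ℝ)) ∧
    (hot = false → 1 / 8 + (ratVal (slabShift (slabIv n i hot)) : ℝ) < 3 / 4) ∧
    OffIv (slabIv n i hot) (1 / 8) := by
  have hi' : (i:ℝ) + 1 ≤ (n:ℝ) := by exact_mod_cast hi
  have i0 : (0:ℝ) ≤ (i:ℝ) := Nat.cast_nonneg _
  have h1 : 1 ≤ 2 * (32 * (n + 1)) := by omega
  set m : ℝ := 64 * ((n:ℝ) + 1) with hm
  have hm0 : 0 < m := by rw [hm]; linarith
  have hv : ∀ P : ℕ, 1 / 8 + (ratVal (slabShift (32 * (n + 1), P)) : ℝ) = ((P:ℝ) + 1) / m := by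
    intro P
    simp only [slabShift, slabCenter, ratVal_add]
    simp only [ratVal, Nat.cast_sub h1]
    push_cast
    rw [hm]
    field_simp
    ring
  cases hot
  · have e := hv (16 * (n + 1) + 4 * i)
    simp only [slabIv, Bool.false_eq_true, if_false]
    refine ⟨?_, ?_, ?_, by simp, ?_, ?_⟩
    · rw [e]
      simp only [InIv]
      push_cast
      rw [show 2 * (32 * ((n:ℝ) + 1)) = m by rw [hm]; ring, mul_div_cancel₀ _ hm0.ne']
      constructor <;> linarith
    · have : (1:ℝ)/8 ≤ (((16 * (n + 1) + 4 * i : ℕ) : ℝ) + 1) / m := by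
        rw [le_div_iff₀ hm0, hm]; push_cast; linarith
      linarith
    · rw [e, div_lt_iff₀ hm0, hm]; push_cast; linarith
    · intro _; rw [e, div_lt_iff₀ hm0, hm]; push_cast; linarith
    · left; push_cast; linarith
  · have e := hv (48 * (n + 1) + 4 * i)
    simp only [slabIv, if_true]
    refine ⟨?_, ?_, ?_, ?_, by simp, ?_⟩
    · rw [e]
      simp only [InIv]
      push_cast
      rw [show 2 * (32 * ((n:ℝ) + 1)) = m by rw [hm]; ring, mul_div_cancel₀ _ hm0.ne']
      constructor <;> linarith
    · have : (1:ℝ)/8 ≤ (((48 * (n + 1) + 4 * i : ℕ) : ℝ) + 1) / m := by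
        rw [le_div_iff₀ hm0, hm]; push_cast; linarith
      linarith
    · rw [e, div_lt_iff₀ hm0, hm]; push_cast; linarith
    · intro _; rw [e, lt_div_iff₀ hm0, hm]; push_cast; linarith
    · left; push_cast; linarith

lemma slab_separated {n i j : ℕ} (hi : i < n) (hj : j < n) (a b : Bool) (h : i ≠ j) :
    OffIv (slabIv n j b) (1 / 8 + (ratVal (slabShift (slabIv n i a)) : ℝ)) := by
  obtain ⟨⟨l1, l2⟩, -⟩ := slab_facts hi a
  have hi' : (i:ℝ) + 1 ≤ (n:ℝ) := by exact_mod_cast hi
  have hj' : (j:ℝ) + 1 ≤ (n:ℝ) := by exact_mod_cast hj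
  have i0 : (0:ℝ) ≤ (i:ℝ) := Nat.cast_nonneg _
  have j0 : (0:ℝ) ≤ (j:ℝ) := Nat.cast_nonneg _
  rcases Nat.lt_or_gt_of_ne h with h | h
  · have h' : (i:ℝ) + 1 ≤ (j:ℝ) := by exact_mod_cast h
    cases a <;> cases b <;>
      simp only [OffIv, slabIv, Bool.false_eq_true, if_false, if_true] at l1 l2 ⊢ <;>
      push_cast at l1 l2 ⊢ <;>
      first
        | (left; linarith)
        | (right; linarith)
  · have h' : (j:ℝ) + 1 ≤ (i:ℝ) := by exact_mod_cast h
    cases a <;> cases b <;>
      simp only [OffIv, slabIv, Bool.false_eq_true, if_false, if_true] at l1 l2 ⊢ <;>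
      push_cast at l1 l2 ⊢ <;>
      first
        | (left; linarith)
        | (right; linarith)

lemma height_facts (d : StepData G c) :
    0 ≤ height G c ∧ 1 / 8 + height G c < 7 / 8 ∧
    (G.Hot c → 3 / 4 < 1 / 8 + height G c) ∧ (¬ G.Hot c → 1 / 8 + height G c < 3 / 4) := by
  obtain ⟨-, h2, h3, h4, h5, -⟩ :=
    slab_facts (mem_zipIdx_branches d.mem).2 (stepEntry G c).1.1.hot
  refine ⟨h2, h3, fun h => h4 (d.hot.mp h), fun h => h5 ?_⟩
  by_contra hh
  exact h (d.hot.mpr (by simpa using hh))

lemma piece_mem (hG : G.Good) (hc : G.InRange c) (hlive : G.Live c) (s : ℝ) :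
    piece G c s 0 ∈ Icc (1/4:ℝ) (3/4) ∧ piece G c s 1 ∈ Icc (1/4:ℝ) (3/4) := by
  have d := stepData hG hc hlive
  have hn := hc.next hG
  obtain ⟨⟨a0, a1⟩, b0, b1⟩ := pt_mem hc
  obtain ⟨⟨a0', a1'⟩, b0', b1'⟩ := pt_mem hn
  have hp := prog_mem 11 s
  constructor
  · have he := exp_log_between (Real.exp_pos (rate G c)) hp.1 hp.2
    rw [Real.log_exp] at he
    exact affine_between (A := (1/4:ℝ)) (B := 3/4) ⟨by linarith, by linarith⟩
      ⟨by rw [← d.endX]; exact a0', by rw [← d.endX]; exact a1'⟩ he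
  · have he := exp_log_between (Real.exp_pos (-rate G c)) hp.1 hp.2
    rw [Real.log_exp] at he
    exact affine_between (A := (1/4:ℝ)) (B := 3/4) ⟨by linarith, by linarith⟩
      ⟨by rw [← d.endY]; exact b0', by rw [← d.endY]; exact b1'⟩ he

lemma piece_z_mem (hG : G.Good) (hc : G.InRange c) (hlive : G.Live c) (s : ℝ) :
    1 / 8 ≤ piece G c s 2 ∧ piece G c s 2 ≤ 1 / 8 + height G c := by
  obtain ⟨h0, -⟩ := height_facts (stepData hG hc hlive)
  have key : 0 ≤ prog 9 s - prog 13 s ∧ prog 9 s - prog 13 s ≤ 1 := by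
    obtain ⟨a, b⟩ := prog_mem 9 s
    obtain ⟨a', b'⟩ := prog_mem 13 s
    by_cases h : 16 * s ≤ 12
    · rw [prog_early (c := 13) (by push_cast; linarith), sub_zero]
      exact ⟨a, b⟩
    · rw [prog_late (c := 9) (by push_cast; linarith)]
      exact ⟨by linarith, by linarith⟩
  have e : piece G c s 2 = 1 / 8 + height G c * (prog 9 s - prog 13 s) := rfl
  rw [e]
  constructor <;> nlinarith [key.1, key.2]

lemma piece_early {s : ℝ} (h : s ≤ 1 / 2) : piece G c s = ![ptX G c, ptY G c, 1 / 8] := by
  simp only [piece, prog_early (c := 11) (show 16 * s ≤ ((11:ℕ):ℝ) - 1 by push_cast; linarith),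
    prog_early (c := 9) (show 16 * s ≤ ((9:ℕ):ℝ) - 1 by push_cast; linarith),
    prog_early (c := 13) (show 16 * s ≤ ((13:ℕ):ℝ) - 1 by push_cast; linarith)]
  simp

lemma piece_late (d : StepData G c) {s : ℝ} (h : 7 / 8 ≤ s) :
    piece G c s = ![ptX G (G.next c), ptY G (G.next c), 1 / 8] := by
  simp only [piece, prog_late (c := 11) (show ((11:ℕ):ℝ) + 1 ≤ 16 * s by push_cast; linarith),
    prog_late (c := 9) (show ((9:ℕ):ℝ) + 1 ≤ 16 * s by push_cast; linarith),
    prog_late (c := 13) (show ((13:ℕ):ℝ) + 1 ≤ 16 * s by push_cast; linarith)]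
  simp [← d.endX, ← d.endY]

lemma piece_hasDerivAt (c : SConf) (s : ℝ) :
    HasDerivAt (piece G c)
      ![(ptX G c - (ratVal (fixX G (stepEntry G c).1) : ℝ)) *
          (Real.exp (rate G c * prog 11 s) * (rate G c * (16 / kappa * rho (16 * s - (11:ℕ))))),
        (ptY G c - (ratVal (fixY G (stepEntry G c).1) : ℝ)) *
          (Real.exp (-rate G c * prog 11 s) * (-rate G c * (16 / kappa * rho (16 * s - (11:ℕ))))),
        height G c * (16 / kappa * rho (16 * s - (9:ℕ)) - 16 / kappa * rho (16 * s - (13:ℕ)))]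
      s := by
  rw [hasDerivAt_pi]
  intro i
  fin_cases i
  · exact (((prog_hasDerivAt 11 s).const_mul (rate G c)).exp.const_mul _).const_add _
  · exact (((prog_hasDerivAt 11 s).const_mul (-rate G c)).exp.const_mul _).const_add _
  · exact (((prog_hasDerivAt 9 s).sub (prog_hasDerivAt 13 s)).const_mul _).const_add _

lemma piece_velocity (nu : ℝ) (hG : G.Good) (hc : G.InRange c) (hlive : G.Live c) {s : ℝ}
    (h0 : 0 ≤ s) (h1 : s ≤ 1) :
    forceVal nu (periodicVel G) s (piece G c s) =
      ![(ptX G c - (ratVal (fixX G (stepEntry G c).1) : ℝ)) *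
          (Real.exp (rate G c * prog 11 s) * (rate G c * (16 / kappa * rho (16 * s - (11:ℕ))))),
        (ptY G c - (ratVal (fixY G (stepEntry G c).1) : ℝ)) *
          (Real.exp (-rate G c * prog 11 s) * (-rate G c * (16 / kappa * rho (16 * s - (11:ℕ))))),
        height G c * (16 / kappa * rho (16 * s - (9:ℕ)) - 16 / kappa * rho (16 * s - (13:ℕ)))] := by
  have d := stepData hG hc hlive
  have hn := hc.next hG
  obtain ⟨hX, hY⟩ := piece_mem hG hc hlive s
  obtain ⟨e0, e1, e2⟩ := periodicVel_val nu G s (piece G c s)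
  have u := fun (k : ℕ) (a : 1 ≤ k) (b : k ≤ 15) => (pulseVal_unit a b h0 h1).symm
  rw [u 9 (by norm_num) (by norm_num), u 11 (by norm_num) (by norm_num),
    u 13 (by norm_num) (by norm_num)]
  have nd := zipIdx_nodup (branches G)
  have hb := fun (e : Branch × ℕ) (he : e ∈ (branches G).zipIdx) =>
    boxes_ok hG.bounded (mem_zipIdx_branches he).1
  -- the planar part
  have plane : ∀ F : Branch × ℕ → ℝ,
      ((branches G).zipIdx.map fun e => pulseVal 11 s * ivInd (slabOf G e) (piece G c s 2) * F e).sum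
        = pulseVal 11 s * F (stepEntry G c) := by
    intro F
    by_cases hp : 16 * s ≤ 10 ∨ 12 ≤ 16 * s
    · have hz : pulseVal 11 s = 0 :=
        pulseVal_zero (by norm_num) (by norm_num) h0 h1
          (hp.imp (fun h => by push_cast; linarith) fun h => by push_cast; linarith)
      simp [hz]
    · push Not at hp
      have z : piece G c s 2 = 1 / 8 + height G c := by
        have e : piece G c s 2 = 1 / 8 + height G c * (prog 9 s - prog 13 s) := rfl
        rw [e, prog_late (c := 9) (by push_cast; linarith),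
          prog_early (c := 13) (by push_cast; linarith)]
        ring
      obtain ⟨hin, -, -⟩ := slab_facts (mem_zipIdx_branches d.mem).2 (stepEntry G c).1.1.hot
      have ok : IvOK (slabOf G (stepEntry G c)) := slabIv_ok (mem_zipIdx_branches d.mem).2 _
      have one : ivInd (slabOf G (stepEntry G c)) (piece G c s 2) = 1 := by
        rw [z]; exact ivInd_inside ok hin
      rw [sum_single nd d.mem]
      · rw [one, mul_one]
      · intro e he hne
        have hidx : (stepEntry G c).2 ≠ e.2 := fun h => hne (entry_eq_of_snd he d.mem h.symm)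
        have hz := piece_z_mem hG hc hlive s
        have hh := (height_facts d).2.1
        have : ivInd (slabOf G e) (piece G c s 2) = 0 := by
          refine ivInd_off (slabIv_ok (mem_zipIdx_branches he).2 _) (by linarith [hz.1])
            (by linarith [hz.2]) ?_
          rw [z]
          exact slab_separated (mem_zipIdx_branches d.mem).2 (mem_zipIdx_branches he).2 _ _ hidx
        simp [this]
  -- the vertical part
  have vert : ∀ (k : ℕ) (I J : Branch → Iv) (x y : ℝ),
      (∀ e ∈ (branches G).zipIdx, IvOK (I e.1) ∧ IvOK (J e.1)) →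
      InIv (I (stepEntry G c).1) x → InIv (J (stepEntry G c).1) y →
      (∀ e ∈ (branches G).zipIdx, e ≠ stepEntry G c → OffIv (I e.1) x ∨ OffIv (J e.1) y) →
      ((branches G).zipIdx.map fun e => (ratVal (slabShift (slabOf G e)) : ℝ)
        * (pulseVal k s * (ivInd (I e.1) x * ivInd (J e.1) y))).sum
        = height G c * pulseVal k s := by
    intro k I J x y ok ix iy off
    obtain ⟨a, b⟩ := ix.mem (ok _ d.mem).1
    obtain ⟨a', b'⟩ := iy.mem (ok _ d.mem).2
    rw [sum_single nd d.mem]
    · rw [ivInd_inside (ok _ d.mem).1 ix, ivInd_inside (ok _ d.mem).2 iy, height]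
      ring
    · intro e he hne
      rcases off e he hne with h | h
      · simp [ivInd_off (ok e he).1 a b h]
      · simp [ivInd_off (ok e he).2 a' b' h]
  funext i
  fin_cases i
  · simp only [Fin.zero_eta, Matrix.cons_val_zero]
    rw [e0]
    have := plane fun e => Real.log (ratVal (ratioCode G e.1) : ℝ)
      * lin (fixX G e.1) (piece G c s 0) * dlin (fixY G e.1) (piece G c s 1)
    refine ((congrArg List.sum (List.map_congr_left fun e _ => by ring)).trans this).trans ?_
    simp only [lin_flat _ hX, dlin_flat _ hY]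
    simp only [piece, rate, Matrix.cons_val_zero]
    ring
  · simp only [Fin.mk_one, Matrix.cons_val_one, Matrix.cons_val_zero]
    rw [e1]
    have := plane fun e => -(Real.log (ratVal (ratioCode G e.1) : ℝ)
      * dlin (fixX G e.1) (piece G c s 0) * lin (fixY G e.1) (piece G c s 1))
    refine ((congrArg List.sum (List.map_congr_left fun e _ => by ring)).trans this).trans ?_
    simp only [lin_flat _ hY, dlin_flat _ hX]
    simp only [piece, rate, Matrix.cons_val_one, Matrix.cons_val_zero]
    ring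
  · simp only [Fin.reduceFinMk, Matrix.cons_val]
    rw [e2]
    by_cases hs : 16 * s ≤ 10
    · have p13 : pulseVal 13 s = 0 :=
        pulseVal_zero (by norm_num) (by norm_num) h0 h1 (Or.inl (by push_cast; linarith))
      have ex : piece G c s 0 = ptX G c := by
        simp [piece, prog_early (c := 11) (show 16 * s ≤ ((11:ℕ):ℝ) - 1 by push_cast; linarith)]
      have ey : piece G c s 1 = ptY G c := by
        simp [piece, prog_early (c := 11) (show 16 * s ≤ ((11:ℕ):ℝ) - 1 by push_cast; linarith)]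
      rw [p13, sub_zero, ← vert 9 (srcX G) (srcY G) (ptX G c) (ptY G c)
        (fun e he => ⟨(hb e he).1, (hb e he).2.1⟩) d.inX d.inY d.off]
      simp [ex, ey]
    · by_cases hs' : 16 * s ≤ 12
      · have p9 : pulseVal 9 s = 0 :=
          pulseVal_zero (by norm_num) (by norm_num) h0 h1 (Or.inr (by push_cast; linarith))
        have p13 : pulseVal 13 s = 0 :=
          pulseVal_zero (by norm_num) (by norm_num) h0 h1 (Or.inl (by push_cast; linarith))
        rw [p9, p13]
        simp
      · have p9 : pulseVal 9 s = 0 :=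
          pulseVal_zero (by norm_num) (by norm_num) h0 h1 (Or.inr (by push_cast; linarith))
        have ex : piece G c s 0 = ptX G (G.next c) := by
          simp [piece, prog_late (c := 11) (show ((11:ℕ):ℝ) + 1 ≤ 16 * s by push_cast; linarith),
            ← d.endX]
        have ey : piece G c s 1 = ptY G (G.next c) := by
          simp [piece, prog_late (c := 11) (show ((11:ℕ):ℝ) + 1 ≤ 16 * s by push_cast; linarith),
            ← d.endY]
        rw [p9, zero_sub, mul_neg, ← vert 13 (dstX G) (dstY G) (ptX G (G.next c))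
          (ptY G (G.next c)) (fun e he => ⟨(hb e he).2.2.1, (hb e he).2.2.2⟩) d.inX' d.inY' d.off']
        simp [ex, ey, List.sum_neg, Function.comp_def]

end Vale.Agent.P113
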