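import Mathlib

/-!
Generalized shifts given by rules, and runs of such shifts.
-/

namespace Vale.Agent.P113

/-- A rule: in state `src` reading `sym`, write `wr` and go to `dst`; `hot` is a flag. -/
structure Rule where
  src : ℕ
  sym : ℕ
  dst : ℕ
  wr : ℕ
  hot : Bool
deriving DecidableEq

def Rule.equivTuple : Rule ≃ ℕ × ℕ × ℕ × ℕ × Bool where
  toFun r := (r.src, r.sym, r.dst, r.wr, r.hot)
  invFun x := ⟨x.1, x.2.1, x.2.2.1, x.2.2.2.1, x.2.2.2.2⟩
  left_inv _ := rfl
  right_inv _ := rfl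

instance : Primcodable Rule := Primcodable.ofEquiv _ Rule.equivTuple

/-- States `0..states-1`, symbols `0..syms-1`; states `≥ left` are entered by a left move. -/
structure Shift where
  states : ℕ
  syms : ℕ
  left : ℕ
  rules : List Rule

/-- State, left part of the tape (nearest first), head and right part. -/
abbrev SConf := ℕ × List ℕ × List ℕ

def Rule.Fits (r : Rule) (c : SConf) : Prop := r.src = c.1 ∧ r.sym = c.2.2.headD 0

instance (r : Rule) (c : SConf) : Decidable (r.Fits c) :=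
  inferInstanceAs (Decidable (_ ∧ _))

def Shift.cur (G : Shift) (c : SConf) : Option Rule :=
  G.rules.find? fun r => decide (r.Fits c)

def Shift.fire (G : Shift) (r : Rule) (c : SConf) : SConf :=
  if r.dst < G.left then (r.dst, r.wr :: c.2.1, c.2.2.tail)
  else (r.dst, c.2.1.tail, c.2.1.headD 0 :: r.wr :: c.2.2.tail)

def Shift.next (G : Shift) (c : SConf) : SConf :=
  match G.cur c with
  | some r => G.fire r c
  | none => c

def Shift.Live (G : Shift) (c : SConf) : Prop := ∃ r, G.cur c = some r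

def Shift.Hot (G : Shift) (c : SConf) : Prop := ∃ r, G.cur c = some r ∧ r.hot = true

structure Shift.Good (G : Shift) : Prop where
  src_lt : ∀ r ∈ G.rules, r.src < G.states
  dst_lt : ∀ r ∈ G.rules, r.dst < G.states
  sym_lt : ∀ r ∈ G.rules, r.sym < G.syms
  wr_lt : ∀ r ∈ G.rules, r.wr < G.syms
  syms_pos : 0 < G.syms
  nodup : G.rules.Nodup
  src_inj : ∀ r ∈ G.rules, ∀ r' ∈ G.rules, r.src = r'.src → r.sym = r'.sym → r = r'
  dst_inj : ∀ r ∈ G.rules, ∀ r' ∈ G.rules, r.dst = r'.dst → r.wr = r'.wr → r = r'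

lemma Shift.cur_eq {G : Shift} (hG : G.Good) {r : Rule} {c : SConf} (hr : r ∈ G.rules)
    (hf : r.Fits c) : G.cur c = some r := by
  obtain ⟨s, hs⟩ := Option.isSome_iff_exists.mp
    (List.find?_isSome (p := fun r : Rule => decide (r.Fits c)) |>.mpr ⟨r, hr, by simpa using hf⟩)
  have h1 : s.Fits c := by simpa using List.find?_some hs
  have h2 := List.mem_of_find?_eq_some hs
  rw [hG.src_inj r hr s h2 (hf.1.trans h1.1.symm) (hf.2.trans h1.2.symm)]
  exact hs

lemma Shift.cur_some {G : Shift} {r : Rule} {c : SConf} (h : G.cur c = some r) :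
    r ∈ G.rules ∧ r.Fits c :=
  ⟨List.mem_of_find?_eq_some h, by simpa using List.find?_some h⟩

def Shift.InRange (G : Shift) (c : SConf) : Prop :=
  c.1 < G.states ∧ (∀ a ∈ c.2.1, a < G.syms) ∧ ∀ a ∈ c.2.2, a < G.syms

lemma headD_lt {l : List ℕ} {B : ℕ} (hB : 0 < B) (h : ∀ a ∈ l, a < B) : l.headD 0 < B := by
  cases l with
  | nil => simpa using hB
  | cons a l => exact h a (by simp)

lemma Shift.InRange.fire {G : Shift} (hG : G.Good) {r : Rule} (hr : r ∈ G.rules) {c : SConf}
    (h : G.InRange c) : G.InRange (G.fire r c) := by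
  obtain ⟨-, hL, hR⟩ := h
  unfold Shift.fire
  split_ifs
  · exact ⟨hG.dst_lt r hr,
      List.forall_mem_cons.mpr ⟨hG.wr_lt r hr, hL⟩,
      fun a ha => hR a (List.mem_of_mem_tail ha)⟩
  · exact ⟨hG.dst_lt r hr, fun a ha => hL a (List.mem_of_mem_tail ha),
      List.forall_mem_cons.mpr ⟨headD_lt hG.syms_pos hL,
        List.forall_mem_cons.mpr ⟨hG.wr_lt r hr, fun a ha => hR a (List.mem_of_mem_tail ha)⟩⟩⟩

lemma Shift.InRange.next {G : Shift} (hG : G.Good) {c : SConf} (h : G.InRange c) :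
    G.InRange (G.next c) := by
  unfold Shift.next
  cases hc : G.cur c with
  | none => exact h
  | some r => exact h.fire hG (Shift.cur_some hc).1

lemma Shift.InRange.iterate {G : Shift} (hG : G.Good) {c : SConf} (h : G.InRange c) (n : ℕ) :
    G.InRange (G.next^[n] c) := by
  induction n with
  | zero => exact h
  | succ n ih => rw [Function.iterate_succ_apply']; exact ih.next hG

/-- `n` steps from `c` to `c'`, all live; some is hot iff `P`. -/
def Shift.Run (G : Shift) (c : SConf) (n : ℕ) (P : Prop) (c' : SConf) : Prop :=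
  G.next^[n] c = c' ∧ (∀ i < n, G.Live (G.next^[i] c)) ∧
    ((∃ i < n, G.Hot (G.next^[i] c)) ↔ P)

lemma Shift.Run.refl (G : Shift) (c : SConf) : G.Run c 0 False c :=
  ⟨rfl, fun i hi => absurd hi (Nat.not_lt_zero i), by simp⟩

lemma Shift.Run.trans {G : Shift} {a b c : SConf} {n m : ℕ} {P Q : Prop}
    (h : G.Run a n P b) (h' : G.Run b m Q c) : G.Run a (n + m) (P ∨ Q) c := by
  obtain ⟨e, l, p⟩ := h
  obtain ⟨e', l', p'⟩ := h'
  have key : ∀ j, G.next^[n + j] a = G.next^[j] b := fun j => by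
    rw [add_comm, Function.iterate_add_apply, e]
  refine ⟨by rw [key, e'], ?_, ?_⟩
  · intro i hi
    by_cases hin : i < n
    · exact l i hin
    · obtain ⟨j, rfl⟩ := Nat.exists_eq_add_of_le (not_lt.mp hin)
      rw [key]
      exact l' j (by omega)
  · constructor
    · rintro ⟨i, hi, hh⟩
      by_cases hin : i < n
      · exact Or.inl (p.mp ⟨i, hin, hh⟩)
      · obtain ⟨j, rfl⟩ := Nat.exists_eq_add_of_le (not_lt.mp hin)
        rw [key] at hh
        exact Or.inr (p'.mp ⟨j, by omega, hh⟩)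
    · rintro (hP | hQ)
      · obtain ⟨i, hi, hh⟩ := p.mpr hP
        exact ⟨i, by omega, hh⟩
      · obtain ⟨i, hi, hh⟩ := p'.mpr hQ
        exact ⟨n + i, by omega, by rwa [key]⟩

lemma Shift.Run.congr {G : Shift} {a b b' : SConf} {n : ℕ} {P Q : Prop}
    (h : G.Run a n P b) (hPQ : P ↔ Q) (hb : b = b') : G.Run a n Q b' :=
  hb ▸ ⟨h.1, h.2.1, h.2.2.trans hPQ⟩

lemma Shift.Run.single {G : Shift} (hG : G.Good) {r : Rule} {c : SConf} (hr : r ∈ G.rules)
    (hs : r.src = c.1) (ha : r.sym = c.2.2.headD 0) :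
    G.Run c 1 (r.hot = true) (G.fire r c) := by
  have h := Shift.cur_eq hG hr ⟨hs, ha⟩
  refine ⟨by simp [Shift.next, h], ?_, ?_⟩
  · intro i hi
    obtain rfl : i = 0 := by omega
    exact ⟨r, h⟩
  · constructor
    · rintro ⟨i, hi, s, hs', hh⟩
      obtain rfl : i = 0 := by omega
      rw [Function.iterate_zero_apply, h] at hs'
      cases hs'
      exact hh
    · intro hh
      exact ⟨0, Nat.one_pos, r, h, hh⟩

end Vale.Agent.P113
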