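import Vale.Agent.P113.Symb
import Vale.Agent.P113.Shift

/-!
A generalized shift as finitely many area preserving affine maps between boxes in a square.
-/

namespace Vale.Agent.P113

/-- `(m, P)` codes the interval `[P/(2m), (P+2)/(2m)]`. -/
abbrev Iv := ℕ × ℕ

/-- `s^k` times the plateau over an interval. -/
def ivBump (k : ℕ) (I : Iv) : Bump := (k, Sum.inr (6, 0, 0), (4 * I.1, 0, 0), (2 * I.2, 1, 0))

def IvOK (I : Iv) : Prop := 0 < I.1 ∧ 1 ≤ I.2 ∧ I.2 + 3 ≤ 2 * I.1

def InIv (I : Iv) (s : ℝ) : Prop :=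
  (I.2 : ℝ) ≤ 2 * (I.1 : ℝ) * s ∧ 2 * (I.1 : ℝ) * s ≤ (I.2 : ℝ) + 2

def OffIv (I : Iv) (s : ℝ) : Prop :=
  2 * (I.1 : ℝ) * s ≤ (I.2 : ℝ) - 1 ∨ (I.2 : ℝ) + 3 ≤ 2 * (I.1 : ℝ) * s

lemma ivBump_valid {I : Iv} (h : IvOK I) (k : ℕ) : BumpValid (ivBump k I) := by
  refine ⟨?_, ?_⟩
  · have : (0:ℚ) < (I.1 : ℚ) := by exact_mod_cast h.1
    simp only [ivBump, ratVal]
    push_cast
    simp only [zero_add, sub_zero, div_one]
    positivity
  · intro l hl
    simp only [ivBump, Sum.inr.injEq] at hl
    subst hl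
    simp [ratVal]

lemma ivBump_eq (k : ℕ) (I : Iv) (s : ℝ) :
    bumpVal (ivBump k I) s = s ^ k * piFun 6 (4 * (I.1:ℝ) * s - (2 * (I.2:ℝ) - 1)) := by
  simp [bumpVal, ivBump, profileVal, ratVal]

lemma ivBump_inside {I : Iv} {s : ℝ} (h : InIv I s) (k : ℕ) :
    bumpVal (ivBump k I) s = s ^ k * kappa := by
  rw [ivBump_eq, piFun_mid (by linarith [h.1]) (by linarith [h.2])]

lemma ivBump_off {I : Iv} {s : ℝ} (h : OffIv I s) (k : ℕ) :
    bumpVal (ivBump k I) s = 0 := by
  rw [ivBump_eq]
  rcases h with h | h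
  · rw [piFun_left (by norm_num) (by linarith), mul_zero]
  · rw [piFun_right (by norm_num) (by linarith), mul_zero]

lemma ivBump_outside {I : Iv} (h : IvOK I) {s : ℝ} (hs : s ≤ 0 ∨ 1 ≤ s) :
    OffIv I s := by
  have h1 : (1:ℝ) ≤ (I.2:ℝ) := by exact_mod_cast h.2.1
  have h2 : (I.2:ℝ) + 3 ≤ 2 * (I.1:ℝ) := by exact_mod_cast h.2.2
  have h3 : (0:ℝ) ≤ (I.1:ℝ) := Nat.cast_nonneg _
  rcases hs with hs | hs
  · left; nlinarith
  · right; nlinarith

lemma InIv.mem {I : Iv} (h : IvOK I) {s : ℝ} (hs : InIv I s) : 0 ≤ s ∧ s ≤ 1 := by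
  have h1 : (1:ℝ) ≤ (I.2:ℝ) := by exact_mod_cast h.2.1
  have h2 : (I.2:ℝ) + 3 ≤ 2 * (I.1:ℝ) := by exact_mod_cast h.2.2
  constructor
  · by_contra hn
    nlinarith [hs.1]
  · by_contra hn
    nlinarith [hs.2]

lemma per_ivBump {I : Iv} (h : IvOK I) (k : ℕ) {s : ℝ} (h0 : 0 ≤ s) (h1 : s ≤ 1) :
    periodize (bumpVal (ivBump k I)) s = bumpVal (ivBump k I) s :=
  periodize_zero_one (fun _ hy => ivBump_off (ivBump_outside h hy) k) h0 h1

/-- The smooth periodic indicator of an interval. -/
noncomputable def ivInd (I : Iv) (s : ℝ) : ℝ := periodize (bumpVal (ivBump 0 I)) s / kappa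

lemma ivInd_inside {I : Iv} (h : IvOK I) {s : ℝ} (hs : InIv I s) : ivInd I s = 1 := by
  obtain ⟨h0, h1⟩ := hs.mem h
  rw [ivInd, per_ivBump h 0 h0 h1, ivBump_inside hs 0, pow_zero, one_mul, div_self kappa_ne]

lemma ivInd_off {I : Iv} (h : IvOK I) {s : ℝ} (h0 : 0 ≤ s) (h1 : s ≤ 1) (hs : OffIv I s) :
    ivInd I s = 0 := by
  rw [ivInd, per_ivBump h 0 h0 h1, ivBump_off hs 0, zero_div]

/-! ### Boxes and affine maps -/

def gBase (A : ℕ) : ℕ := 2 * A + 2

/-- A branch: a rule and, for a left move, the symbol to the left. -/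
abbrev Branch := Rule × ℕ

def branches (G : Shift) : List Branch :=
  G.rules.flatMap fun r =>
    if r.dst < G.left then [(r, 0)] else (List.range G.syms).map fun l => (r, l)

def digitX (S A s l : ℕ) : Iv := (4 * S * gBase A, 2 * S * gBase A + 4 * (s * gBase A + l))
def stateX (S s : ℕ) : Iv := (4 * S, 2 * S + 4 * s)
def digitY (A a : ℕ) : Iv := (2 * gBase A, gBase A + 4 * a)
def wholeY : Iv := (2, 1)
def pairY (A l b : ℕ) : Iv :=
  (2 * gBase A * gBase A, gBase A * gBase A + 4 * (l * gBase A + b))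

def srcX (G : Shift) (b : Branch) : Iv :=
  if b.1.dst < G.left then stateX G.states b.1.src else digitX G.states G.syms b.1.src b.2
def srcY (G : Shift) (b : Branch) : Iv := digitY G.syms b.1.sym
def dstX (G : Shift) (b : Branch) : Iv :=
  if b.1.dst < G.left then digitX G.states G.syms b.1.dst b.1.wr else stateX G.states b.1.dst
def dstY (G : Shift) (b : Branch) : Iv :=
  if b.1.dst < G.left then wholeY else pairY G.syms b.2 b.1.wr

/-- The factor by which the branch multiplies the first coordinate. -/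
def ratioCode (G : Shift) (b : Branch) : RatCode :=
  if b.1.dst < G.left then (1, 0, gBase G.syms - 1) else (gBase G.syms, 0, 0)

def fixX (G : Shift) (b : Branch) : RatCode :=
  if b.1.dst < G.left then
    (G.states * (gBase G.syms - 1) + 2 * (b.1.dst * gBase G.syms + b.1.wr), 2 * b.1.src,
      4 * G.states * (gBase G.syms - 1) - 1)
  else
    (G.states * (gBase G.syms - 1) + 2 * (b.1.src * gBase G.syms + b.2), 2 * b.1.dst,
      4 * G.states * (gBase G.syms - 1) - 1)

def fixY (G : Shift) (b : Branch) : RatCode :=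
  if b.1.dst < G.left then
    (gBase G.syms - 1 + 4 * b.1.sym, 0, 4 * (gBase G.syms - 1) - 1)
  else
    (gBase G.syms * (gBase G.syms - 1) + 4 * (b.2 * gBase G.syms + b.1.wr), 4 * b.1.sym,
      4 * (gBase G.syms * (gBase G.syms - 1)) - 1)

/-- The number in `[0,1]` coded by a word in the digits `0, 2, 4, …`. -/
noncomputable def enc (B : ℕ) : List ℕ → ℝ
  | [] => 0
  | a :: l => (2 * (a:ℝ) + enc B l) / (B:ℝ)

noncomputable def ptX (G : Shift) (c : SConf) : ℝ :=
  1 / 4 + (2 * (c.1:ℝ) + enc (gBase G.syms) c.2.1) / (4 * (G.states:ℝ))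

noncomputable def ptY (G : Shift) (c : SConf) : ℝ := 1 / 4 + enc (gBase G.syms) c.2.2 / 2

lemma enc_head {B : ℕ} (hB : 0 < B) (l : List ℕ) :
    enc B l * (B:ℝ) = 2 * ((l.headD 0 : ℕ) : ℝ) + enc B l.tail := by
  have : (B:ℝ) ≠ 0 := by exact_mod_cast hB.ne'
  cases l with
  | nil => simp [enc]
  | cons a l => simp [enc]; field_simp

lemma enc_mem {A : ℕ} {l : List ℕ} (h : ∀ a ∈ l, a < A) :
    0 ≤ enc (gBase A) l ∧ enc (gBase A) l ≤ 1 := by
  induction l with
  | nil => simp [enc]
  | cons a l ih =>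
      obtain ⟨h0, h1⟩ := ih fun b hb => h b (by simp [hb])
      have ha : (a:ℝ) + 1 ≤ (A:ℝ) := by exact_mod_cast h a (by simp)
      have hB : (gBase A : ℝ) = 2 * (A:ℝ) + 2 := by simp [gBase]
      have hp : (0:ℝ) < (gBase A : ℝ) := by rw [hB]; positivity
      simp only [enc]
      constructor
      · positivity
      · rw [div_le_one hp, hB]; linarith

lemma sep_digit {K K' : ℕ} (h : K ≠ K') {e : ℝ} (h0 : 0 ≤ e) (h1 : e ≤ 1) :
    4 * (K:ℝ) + 2 * e ≤ 4 * (K':ℝ) - 1 ∨ 4 * (K':ℝ) + 3 ≤ 4 * (K:ℝ) + 2 * e := by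
  rcases Nat.lt_or_gt_of_ne h with h | h
  · left
    have : (K:ℝ) + 1 ≤ (K':ℝ) := by exact_mod_cast h
    linarith
  · right
    have : (K':ℝ) + 1 ≤ (K:ℝ) := by exact_mod_cast h
    linarith

variable {G : Shift}

lemma ptX_state (hS : 0 < G.states) (c : SConf) :
    2 * ((stateX G.states c.1).1 : ℝ) * ptX G c
      = 2 * (G.states:ℝ) + (4 * (c.1:ℝ) + 2 * enc (gBase G.syms) c.2.1) := by
  have : (G.states:ℝ) ≠ 0 := by exact_mod_cast hS.ne'
  simp only [stateX, ptX]
  push_cast
  field_simp
  ring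

lemma ptX_digit (hS : 0 < G.states) (c : SConf) :
    2 * ((digitX G.states G.syms c.1 0).1 : ℝ) * ptX G c
      = 2 * (G.states:ℝ) * (gBase G.syms : ℝ)
        + (4 * ((c.1 * gBase G.syms + c.2.1.headD 0 : ℕ) : ℝ)
          + 2 * enc (gBase G.syms) c.2.1.tail) := by
  have : (G.states:ℝ) ≠ 0 := by exact_mod_cast hS.ne'
  have h := enc_head (B := gBase G.syms) (by unfold gBase; omega) c.2.1
  simp only [digitX, ptX]
  push_cast
  field_simp
  linear_combination 2 * h

lemma ptY_digit (c : SConf) :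
    2 * ((digitY G.syms 0).1 : ℝ) * ptY G c
      = (gBase G.syms : ℝ) + (4 * ((c.2.2.headD 0 : ℕ) : ℝ)
        + 2 * enc (gBase G.syms) c.2.2.tail) := by
  have h := enc_head (B := gBase G.syms) (by unfold gBase; omega) c.2.2
  simp only [digitY, ptY]
  push_cast
  linear_combination 2 * h

lemma ptY_pair (c : SConf) :
    2 * ((pairY G.syms 0 0).1 : ℝ) * ptY G c
      = (gBase G.syms : ℝ) * (gBase G.syms : ℝ)
        + (4 * ((c.2.2.headD 0 * gBase G.syms + c.2.2.tail.headD 0 : ℕ) : ℝ)
          + 2 * enc (gBase G.syms) c.2.2.tail.tail) := by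
  have h := enc_head (B := gBase G.syms) (by unfold gBase; omega) c.2.2
  have h' := enc_head (B := gBase G.syms) (by unfold gBase; omega) c.2.2.tail
  simp only [pairY, ptY]
  push_cast
  linear_combination 2 * (gBase G.syms : ℝ) * h + 2 * h'

lemma syms_lt_base (A : ℕ) {l : ℕ} (h : l < A) : l < gBase A := by unfold gBase; omega

lemma base_pair_inj {A q l q' l' : ℕ} (h : q * gBase A + l = q' * gBase A + l') (hl : l < A)
    (hl' : l' < A) : q = q' ∧ l = l' := by
  have hv := syms_lt_base A hl
  have hv' := syms_lt_base A hl'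
  have hU : 0 < gBase A := by omega
  have h1 := congrArg (· / gBase A) h
  simp only [Nat.mul_comm _ (gBase A), Nat.mul_add_div hU, Nat.div_eq_of_lt hv,
    Nat.div_eq_of_lt hv', add_zero] at h1
  subst h1
  exact ⟨rfl, by omega⟩

/-- The point lies in this x-interval only for the right state and digit. -/
lemma X_state_off {c : SConf} (hc : G.InRange c) {s : ℕ} (h : s ≠ c.1) :
    OffIv (stateX G.states s) (ptX G c) := by
  obtain ⟨e0, e1⟩ := enc_mem hc.2.1
  have hp := ptX_state (G := G) (Nat.zero_lt_of_lt hc.1) c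
  simp only [OffIv, stateX] at hp ⊢
  push_cast at hp ⊢
  rcases sep_digit h.symm e0 e1 with h' | h'
  · left; linarith
  · right; linarith

lemma X_digit_off {c : SConf} (hc : G.InRange c) (hA : 0 < G.syms) {s l : ℕ} (hl : l < G.syms)
    (h : s ≠ c.1 ∨ l ≠ c.2.1.headD 0) :
    OffIv (digitX G.states G.syms s l) (ptX G c) := by
  have ht : ∀ a ∈ c.2.1.tail, a < G.syms := fun a ha => hc.2.1 a (List.mem_of_mem_tail ha)
  obtain ⟨e0, e1⟩ := enc_mem ht
  have hne : c.1 * gBase G.syms + c.2.1.headD 0 ≠ s * gBase G.syms + l := by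
    intro e
    obtain ⟨a, b⟩ := base_pair_inj e (headD_lt hA hc.2.1) hl
    rcases h with h | h
    · exact h a.symm
    · exact h b.symm
  have hp := ptX_digit (G := G) (Nat.zero_lt_of_lt hc.1) c
  have hs := sep_digit hne e0 e1
  simp only [OffIv, digitX] at hp hs ⊢
  push_cast at hp hs ⊢
  rcases hs with h' | h'
  · left; linarith
  · right; linarith

lemma Y_digit_off {c : SConf} (hc : G.InRange c) {a : ℕ} (h : a ≠ c.2.2.headD 0) :
    OffIv (digitY G.syms a) (ptY G c) := by
  have ht : ∀ a ∈ c.2.2.tail, a < G.syms := fun a ha => hc.2.2 a (List.mem_of_mem_tail ha)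
  obtain ⟨e0, e1⟩ := enc_mem ht
  have hp := ptY_digit (G := G) c
  simp only [OffIv, digitY] at hp ⊢
  push_cast at hp ⊢
  rcases sep_digit h.symm e0 e1 with h' | h'
  · left; linarith
  · right; linarith

lemma Y_pair_off {c : SConf} (hc : G.InRange c) (hA : 0 < G.syms) {l b : ℕ} (hb : b < G.syms)
    (h : l ≠ c.2.2.headD 0 ∨ b ≠ c.2.2.tail.headD 0) :
    OffIv (pairY G.syms l b) (ptY G c) := by
  have ht : ∀ a ∈ c.2.2.tail, a < G.syms := fun a ha => hc.2.2 a (List.mem_of_mem_tail ha)
  obtain ⟨e0, e1⟩ := enc_mem fun a (ha : a ∈ c.2.2.tail.tail) => ht a (List.mem_of_mem_tail ha)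
  have hne : c.2.2.headD 0 * gBase G.syms + c.2.2.tail.headD 0 ≠ l * gBase G.syms + b := by
    intro e
    obtain ⟨a, b'⟩ := base_pair_inj e (headD_lt hA ht) hb
    rcases h with h | h
    · exact h a.symm
    · exact h b'.symm
  have hp := ptY_pair (G := G) c
  have hs := sep_digit hne e0 e1
  simp only [OffIv, pairY] at hp hs ⊢
  push_cast at hp hs ⊢
  rcases hs with h' | h'
  · left; linarith
  · right; linarith

/-- The branch that applies to a configuration. -/
def branchAt (G : Shift) (r : Rule) (c : SConf) : Branch :=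
  (r, if r.dst < G.left then 0 else c.2.1.headD 0)

lemma mem_branches {b : Branch} :
    b ∈ branches G ↔ b.1 ∈ G.rules ∧
      if b.1.dst < G.left then b.2 = 0 else b.2 < G.syms := by
  obtain ⟨r, l⟩ := b
  simp only [branches, List.mem_flatMap]
  constructor
  · rintro ⟨s, hs, h⟩
    split_ifs at h with hd
    · simp only [List.mem_singleton, Prod.mk.injEq] at h
      obtain ⟨rfl, rfl⟩ := h
      exact ⟨hs, by simp [hd]⟩
    · simp only [List.mem_map, List.mem_range, Prod.mk.injEq] at h
      obtain ⟨l', hl', rfl, rfl⟩ := h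
      exact ⟨hs, by simp [hd, hl']⟩
  · rintro ⟨hr, h⟩
    refine ⟨r, hr, ?_⟩
    split_ifs at h ⊢ with hd
    · simp [h]
    · exact List.mem_map.mpr ⟨l, List.mem_range.mpr h, rfl⟩

lemma branches_nodup (hG : G.Good) : (branches G).Nodup := by
  rw [branches, List.nodup_flatMap]
  refine ⟨fun r _ => ?_, ?_⟩
  · split_ifs
    · simp
    · exact List.nodup_range.map fun a b h => (Prod.mk.injEq _ _ _ _ ▸ h).2
  · refine hG.nodup.imp ?_
    intro r r' hne
    intro x hx hx'
    have e : ∀ {s : Rule}, x ∈ (if s.dst < G.left then [(s, 0)]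
        else (List.range G.syms).map fun l => (s, l)) → x.1 = s := by
      intro s hs
      split_ifs at hs
      · simp only [List.mem_singleton] at hs; rw [hs]
      · obtain ⟨l, -, rfl⟩ := List.mem_map.mp hs; rfl
    exact hne ((e hx).symm.trans (e hx'))

lemma branchAt_mem (hG : G.Good) {r : Rule} {c : SConf} (hr : r ∈ G.rules)
    (hc : G.InRange c) : branchAt G r c ∈ branches G := by
  rw [mem_branches]
  refine ⟨hr, ?_⟩
  simp only [branchAt]
  split_ifs with h
  · rfl
  · exact headD_lt hG.syms_pos hc.2.1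

/-- Everything needed about one step. -/
structure StepGeom (G : Shift) (r : Rule) (c : SConf) : Prop where
  src_in : InIv (srcX G (branchAt G r c)) (ptX G c) ∧ InIv (srcY G (branchAt G r c)) (ptY G c)
  dst_in : InIv (dstX G (branchAt G r c)) (ptX G (G.fire r c)) ∧
    InIv (dstY G (branchAt G r c)) (ptY G (G.fire r c))
  src_off : ∀ b ∈ branches G, b ≠ branchAt G r c →
    OffIv (srcX G b) (ptX G c) ∨ OffIv (srcY G b) (ptY G c)
  dst_off : ∀ b ∈ branches G, b ≠ branchAt G r c →
    OffIv (dstX G b) (ptX G (G.fire r c)) ∨ OffIv (dstY G b) (ptY G (G.fire r c))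
  mapX : ptX G (G.fire r c) - (ratVal (fixX G (branchAt G r c)) : ℝ)
    = (ratVal (ratioCode G (branchAt G r c)) : ℝ)
      * (ptX G c - (ratVal (fixX G (branchAt G r c)) : ℝ))
  mapY : ptY G (G.fire r c) - (ratVal (fixY G (branchAt G r c)) : ℝ)
    = (ptY G c - (ratVal (fixY G (branchAt G r c)) : ℝ))
      / (ratVal (ratioCode G (branchAt G r c)) : ℝ)

lemma stepGeom (hG : G.Good) {r : Rule} {c : SConf} (hr : r ∈ G.rules) (hf : r.Fits c)
    (hc : G.InRange c) : StepGeom G r c := by
  obtain ⟨hs, ha⟩ := hf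
  have hS : 0 < G.states := Nat.zero_lt_of_lt hc.1
  have hA := hG.syms_pos
  have hc' : G.InRange (G.fire r c) := hc.fire hG hr
  obtain ⟨eL0, eL1⟩ := enc_mem hc.2.1
  obtain ⟨eR0, eR1⟩ := enc_mem fun a (ha : a ∈ c.2.2.tail) => hc.2.2 a (List.mem_of_mem_tail ha)
  obtain ⟨eT0, eT1⟩ := enc_mem fun a (ha : a ∈ c.2.1.tail) => hc.2.1 a (List.mem_of_mem_tail ha)
  have hB : (1:ℕ) < gBase G.syms := by unfold gBase; omega
  have hB1 : (1:ℝ) < (gBase G.syms : ℝ) := by exact_mod_cast hB
  have hY : InIv (srcY G (branchAt G r c)) (ptY G c) := by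
    have hp := ptY_digit (G := G) c
    simp only [InIv, srcY, branchAt, digitY, ← ha] at hp ⊢
    push_cast at hp ⊢
    constructor <;> linarith
  have n1 : 1 ≤ 4 * G.states * (gBase G.syms - 1) := by
    have : 0 < 4 * G.states * (gBase G.syms - 1) := Nat.mul_pos (by omega) (by omega)
    omega
  have n2 : 1 ≤ 4 * (gBase G.syms - 1) := by omega
  have n3 : 1 ≤ 4 * (gBase G.syms * (gBase G.syms - 1)) := by
    have : 0 < gBase G.syms * (gBase G.syms - 1) := Nat.mul_pos (by omega) (by omega)
    omega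
  have hSr : (G.states:ℝ) ≠ 0 := by exact_mod_cast hS.ne'
  have hB0 : (gBase G.syms : ℝ) ≠ 0 := by positivity
  have hB2 : (gBase G.syms : ℝ) - 1 ≠ 0 := by linarith
  by_cases hd : r.dst < G.left
  · have hfire : G.fire r c = (r.dst, r.wr :: c.2.1, c.2.2.tail) := by
      rw [Shift.fire, if_pos hd]
    refine ⟨⟨?_, hY⟩, ⟨?_, ?_⟩, ?_, ?_, ?_, ?_⟩
    · have hp := ptX_state (G := G) hS c
      simp only [InIv, srcX, branchAt, hd, if_true, hs, stateX] at hp ⊢
      push_cast at hp ⊢
      constructor <;> linarith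
    · have hp := ptX_digit (G := G) hS (G.fire r c)
      simp only [InIv, dstX, branchAt, hd, if_true, hfire, digitX, List.headD_cons,
        List.tail_cons] at hp ⊢
      push_cast at hp ⊢
      constructor <;> linarith
    · simp only [InIv, dstY, branchAt, hd, if_true, hfire, wholeY, ptY]
      push_cast
      constructor <;> linarith
    · intro b hb hne
      obtain ⟨hb1, hb2⟩ := mem_branches.mp hb
      by_cases h1 : b.1.src = c.1
      · by_cases h2 : b.1.sym = c.2.2.headD 0
        · exfalso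
          obtain rfl : b.1 = r := hG.src_inj _ hb1 _ hr (h1.trans hs.symm) (h2.trans ha.symm)
          rw [if_pos hd] at hb2
          exact hne (Prod.ext rfl (by simp [branchAt, hd, hb2]))
        · exact Or.inr (Y_digit_off hc h2)
      · left
        unfold srcX
        split_ifs with hbd
        · exact X_state_off hc h1
        · exact X_digit_off hc hA (by simpa [hbd] using hb2) (Or.inl h1)
    · intro b hb hne
      obtain ⟨hb1, hb2⟩ := mem_branches.mp hb
      left
      unfold dstX
      split_ifs with hbd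
      · refine X_digit_off hc' hA (hG.wr_lt _ hb1) ?_
        rw [hfire]
        by_contra h
        push Not at h
        obtain rfl : b.1 = r := hG.dst_inj _ hb1 _ hr h.1 h.2
        rw [if_pos hd] at hb2
        exact hne (Prod.ext rfl (by simp [branchAt, hd, hb2]))
      · refine X_state_off hc' ?_
        rw [hfire]
        intro h
        simp only at h
        exact hbd (h ▸ hd)
    · simp only [branchAt, hd, if_true, fixX, ratioCode, hfire, ptX, enc, ratVal,
        Nat.cast_add, Nat.cast_mul, Nat.cast_ofNat, Nat.cast_sub n1, Nat.cast_sub hB.le,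
        Nat.cast_one, hs]
      push_cast
      simp only [sub_add_cancel]
      field_simp
      ring
    · have h := enc_head (B := gBase G.syms) (by omega) c.2.2
      rw [← ha] at h
      simp only [branchAt, hd, if_true, fixY, ratioCode, hfire, ptY, ratVal,
        Nat.cast_add, Nat.cast_mul, Nat.cast_ofNat, Nat.cast_sub n2, Nat.cast_sub hB.le,
        Nat.cast_one]
      push_cast
      simp only [sub_add_cancel]
      field_simp
      linear_combination (-(4 * ((gBase G.syms : ℝ) - 1))) * h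
  · have hfire : G.fire r c
        = (r.dst, c.2.1.tail, c.2.1.headD 0 :: r.wr :: c.2.2.tail) := by
      rw [Shift.fire, if_neg hd]
    refine ⟨⟨?_, hY⟩, ⟨?_, ?_⟩, ?_, ?_, ?_, ?_⟩
    · have hp := ptX_digit (G := G) hS c
      simp only [InIv, srcX, branchAt, hd, if_false, hs, digitX] at hp ⊢
      push_cast at hp ⊢
      constructor <;> linarith
    · have hp := ptX_state (G := G) hS (G.fire r c)
      simp only [InIv, dstX, branchAt, hd, if_false, hfire, stateX] at hp ⊢
      push_cast at hp ⊢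
      constructor <;> linarith
    · have hp := ptY_pair (G := G) (G.fire r c)
      simp only [InIv, dstY, branchAt, hd, if_false, hfire, pairY, List.headD_cons,
        List.tail_cons] at hp ⊢
      push_cast at hp ⊢
      constructor <;> linarith
    · intro b hb hne
      obtain ⟨hb1, hb2⟩ := mem_branches.mp hb
      by_cases h1 : b.1.src = c.1
      · by_cases h2 : b.1.sym = c.2.2.headD 0
        · left
          obtain rfl : b.1 = r := hG.src_inj _ hb1 _ hr (h1.trans hs.symm) (h2.trans ha.symm)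
          rw [if_neg hd] at hb2
          rw [srcX, if_neg hd]
          refine X_digit_off hc hA hb2 (Or.inr fun h => hne (Prod.ext rfl ?_))
          simp [branchAt, hd, h]
        · exact Or.inr (Y_digit_off hc h2)
      · left
        unfold srcX
        split_ifs with hbd
        · exact X_state_off hc h1
        · exact X_digit_off hc hA (by simpa [hbd] using hb2) (Or.inl h1)
    · intro b hb hne
      obtain ⟨hb1, hb2⟩ := mem_branches.mp hb
      by_cases h1 : b.1.dst = r.dst
      · right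
        rw [dstY, if_neg (h1.symm ▸ hd)]
        refine Y_pair_off hc' hA (hG.wr_lt _ hb1) ?_
        rw [hfire]
        by_contra h
        push Not at h
        simp only [List.headD_cons, List.tail_cons] at h
        obtain rfl : b.1 = r := hG.dst_inj _ hb1 _ hr h1 h.2
        exact hne (Prod.ext rfl (by simp [branchAt, hd, h.1]))
      · left
        unfold dstX
        split_ifs with hbd
        · exact X_digit_off hc' hA (hG.wr_lt _ hb1) (Or.inl (by rw [hfire]; exact h1))
        · exact X_state_off hc' (by rw [hfire]; exact h1)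
    · have h := enc_head (B := gBase G.syms) (by omega) c.2.1
      simp only [branchAt, hd, if_false, fixX, ratioCode, hfire, ptX, ratVal,
        Nat.cast_add, Nat.cast_mul, Nat.cast_ofNat, Nat.cast_sub n1, Nat.cast_sub hB.le,
        Nat.cast_one, hs]
      push_cast
      simp only [sub_add_cancel]
      field_simp
      linear_combination (-((gBase G.syms : ℝ) - 1)) * h
    · have h := enc_head (B := gBase G.syms) (by omega) c.2.2
      rw [← ha] at h
      simp only [branchAt, hd, if_false, fixY, ratioCode, hfire, ptY, enc, ratVal,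
        Nat.cast_add, Nat.cast_mul, Nat.cast_ofNat, Nat.cast_sub n3, Nat.cast_sub hB.le,
        Nat.cast_one]
      push_cast
      simp only [sub_add_cancel]
      field_simp
      linear_combination (-(4 * (gBase G.syms : ℝ) * ((gBase G.syms : ℝ) - 1))) * h

end Vale.Agent.P113
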