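import Vale.Agent.P113.Defs
import Vale.Agent.P113.Shift

/-!
The shift compiled from a machine: a queue that copies the configuration in rounds,
realized by a sweep machine that never erases what it has read.
-/

namespace Vale.Agent.P113

variable (M : Machine)

/-- The transition, idle at halting states. -/
def act (q a : ℕ) : Action :=
  if q ∈ M.halting then (q, a, none) else M.action q a

def headOf (c : ℕ) : ℕ := c / M.numSymbols
def symOf (c : ℕ) : ℕ := c % M.numSymbols

def cellSize : ℕ := M.numSymbols * (M.numStates + 1)

def cellMove (c : ℕ) : Option Bool := (act M (headOf M c - 1) (symOf M c)).2.2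
def cellState (c : ℕ) : ℕ := (act M (headOf M c - 1) (symOf M c)).1
def cellWrite (c : ℕ) : ℕ := (act M (headOf M c - 1) (symOf M c)).2.1

def newSym (c : ℕ) : ℕ := if headOf M c = 0 then symOf M c else cellWrite M c

def newHead (l c r : ℕ) : ℕ :=
  if headOf M c ≠ 0 ∧ cellMove M c = none then cellState M c + 1
  else if headOf M l ≠ 0 ∧ cellMove M l = some true then cellState M l + 1
  else if headOf M r ≠ 0 ∧ cellMove M r = some false then cellState M r + 1
  else 0

/-- The local rule for one step of the machine. -/
def caRule (l c r : ℕ) : ℕ := newSym M c + M.numSymbols * newHead M l c r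

def cellHot (c : ℕ) : Bool :=
  decide (headOf M c ≠ 0 ∧ headOf M c - 1 ∈ M.halting)

/-! queue symbols are `0 .. qSyms-1`, the two markers are `K` and `K+1` -/

def qSyms : ℕ := cellSize M + 2
def qStates : ℕ := cellSize M * cellSize M + 1 + cellSize M
def winState (p c : ℕ) : ℕ := p * cellSize M + c
def startQ : ℕ := cellSize M * cellSize M
def endQ (e : ℕ) : ℕ := cellSize M * cellSize M + 1 + e
def markA : ℕ := cellSize M
def markB : ℕ := cellSize M + 1

def extraSym (q : ℕ) : ℕ :=
  if q = startQ M then markB M else q - (cellSize M * cellSize M + 1)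

/-- Queue rules `(state, read, new state, written)`. -/
def queueRules : List (ℕ × ℕ × ℕ × ℕ) :=
  ((List.range (cellSize M)).flatMap fun p => (List.range (cellSize M)).flatMap fun c =>
    (List.range (cellSize M)).map fun a => (winState M p c, a, winState M c a, caRule M p c a))
  ++ ((List.range (cellSize M)).map fun a => (startQ M, a, winState M 0 a, caRule M 0 0 a))
  ++ ((List.range (cellSize M)).flatMap fun p => (List.range (cellSize M)).map fun c =>
    (winState M p c, markA M, endQ M (caRule M c 0 0), caRule M p c 0))
  ++ ((List.range (cellSize M)).map fun e => (endQ M e, markB M, startQ M, markA M))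

def zRead (q : ℕ) : ℕ := q
def zCarry (q v : ℕ) : ℕ := qStates M + (q * qSyms M + v)
def zMid (q : ℕ) : ℕ := qStates M + qStates M * qSyms M + q
def zPut (q : ℕ) : ℕ := qStates M + qStates M * qSyms M + qStates M + q
def zRet (q : ℕ) : ℕ := qStates M + qStates M * qSyms M + qStates M + qStates M + q
def zStates : ℕ := qStates M + qStates M * qSyms M + qStates M + qStates M + qStates M
def zLeft : ℕ := qStates M + qStates M * qSyms M + qStates M + qStates M

def sBlank : ℕ := 0
def sDollar : ℕ := 1
def sUn (u : ℕ) : ℕ := 2 + u
def sAnn (q a : ℕ) : ℕ := 2 + qSyms M + (q * qSyms M + a)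
def zSyms : ℕ := 2 + qSyms M + qStates M * qSyms M

def endDst (q : ℕ) : ℕ :=
  if q < cellSize M * cellSize M then zPut M q else zMid M q

def readHot (a : ℕ) : Bool := decide (a < cellSize M) && cellHot M a

def readRules : List Rule :=
  (queueRules M).map fun x =>
    ⟨zRead x.1, sUn x.2.1, zCarry M x.2.2.1 x.2.2.2, sAnn M x.1 x.2.1, readHot M x.2.1⟩

def passRules : List Rule :=
  (List.range (qStates M)).flatMap fun q => (List.range (qSyms M)).flatMap fun v =>
    (List.range (qSyms M)).map fun u => ⟨zCarry M q v, sUn u, zCarry M q v, sUn u, false⟩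

def endRules : List Rule :=
  (List.range (qStates M)).flatMap fun q => (List.range (qSyms M)).map fun v =>
    ⟨zCarry M q v, sDollar, endDst M q, sUn v, false⟩

def midRules : List Rule :=
  ((List.range (qStates M)).filter fun q => decide (cellSize M * cellSize M ≤ q)).map fun q =>
    ⟨zMid M q, sBlank, zPut M q, sUn (extraSym M q), false⟩

def putRules : List Rule :=
  (List.range (qStates M)).map fun q => ⟨zPut M q, sBlank, zRet M q, sDollar, false⟩

def retPassRules : List Rule :=
  (List.range (qStates M)).flatMap fun q => (List.range (qSyms M)).map fun u =>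
    ⟨zRet M q, sUn u, zRet M q, sUn u, false⟩

def retStopRules : List Rule :=
  (List.range (qStates M)).flatMap fun q => (List.range (qStates M)).flatMap fun p =>
    (List.range (qSyms M)).map fun a => ⟨zRet M q, sAnn M p a, zRead q, sAnn M p a, false⟩

/-- Insert unless present. -/
def dedupRules (l : List Rule) : List Rule :=
  l.foldr (fun r acc => if r ∈ acc then acc else r :: acc) []

def allRules : List Rule :=
  dedupRules (readRules M ++ passRules M ++ endRules M ++ midRules M ++ putRules M
    ++ retPassRules M ++ retStopRules M)

def shiftOf : Shift :=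
  { states := zStates M, syms := zSyms M, left := zLeft M, rules := allRules M }

/-! the initial configuration -/

def initWord (w : List ℕ) : List ℕ :=
  (w.headD 0 + M.numSymbols * (M.startState + 1)) :: w.tail

def initConf (w : List ℕ) : SConf :=
  (zRead (startQ M), [], (initWord M w ++ [markA M, markB M]).map sUn ++ [sDollar])

end Vale.Agent.P113
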