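import Vale.Agent.P113.Flow

/-!
The global solution and its trajectory from the base point.
-/

namespace Vale.Agent.P113

open Set Filter Topology MeasureTheory
open scoped ContDiff

/-- The base point. -/
def basePoint : Fin 3 → ℚ := ![1/4, 1/4, 1/8]
def targetLo : Fin 3 → ℚ := ![0, 0, 3/4]
def targetHi : Fin 3 → ℚ := ![1, 1, 7/8]

variable {G : Shift} {c0 : SConf}

/-- The concatenated steps. -/
noncomputable def chain (G : Shift) (c0 : SConf) (t : ℝ) : Fin 3 → ℝ :=
  piece G (G.next^[⌊t⌋₊] c0) (t - (⌊t⌋₊ : ℝ))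

noncomputable def startShift (G : Shift) (c0 : SConf) : Fin 3 → ℝ :=
  ![(ratVal (shiftX G c0) : ℝ), (ratVal (shiftY G c0) : ℝ), 0]

/-- The trajectory from the base point. -/
noncomputable def path (G : Shift) (c0 : SConf) (t : ℝ) : Fin 3 → ℝ :=
  chain G c0 t + (progT t - 1) • startShift G c0

lemma encCode_val {B : ℕ} (hB : 0 < B) (l : List ℕ) :
    (ratVal (encCode B l) : ℝ) = enc B l := by
  induction l with
  | nil => simp [encCode, enc, ratVal]
  | cons a l ih =>
      have hn : (encCode B l).2.1 = 0 := by cases l <;> rfl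
      rw [enc, ← ih]
      rw [show encCode B (a :: l)
        = (2 * a * ((encCode B l).2.2 + 1) + (encCode B l).1, 0,
            ((encCode B l).2.2 + 1) * B - 1) from rfl]
      have h1 : 1 ≤ ((encCode B l).2.2 + 1) * B := Nat.mul_pos (Nat.succ_pos _) hB
      simp only [ratVal, hn, Nat.cast_sub h1]
      push_cast
      have : (B:ℝ) ≠ 0 := by exact_mod_cast hB.ne'
      simp only [sub_zero, sub_add_cancel]
      field_simp

lemma start_eq (hc : G.InRange c0) (hL : c0.2.1 = []) :
    ![ptX G c0, ptY G c0, (1/8:ℝ)] - startShift G c0 = fun i => (basePoint i : ℝ) := by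
  have hS : 0 < G.states := Nat.zero_lt_of_lt hc.1
  have h4 : 1 ≤ 4 * G.states := by omega
  have hx : (ratVal (shiftX G c0) : ℝ) = ptX G c0 - 1/4 := by
    simp only [shiftX, ratVal, ptX, hL, enc, Nat.cast_sub h4]
    push_cast
    ring
  have hy : (ratVal (shiftY G c0) : ℝ) = ptY G c0 - 1/4 := by
    have h2 : (ratVal (1, 0, 1) : ℝ) = 1/2 := by norm_num [ratVal]
    rw [shiftY, ratVal_mul]
    push_cast
    rw [h2, encCode_val (by unfold gBase; omega), ptY]
    ring
  funext i
  fin_cases i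
  · simp [startShift, basePoint, hx]
  · simp [startShift, basePoint, hy]
  · simp [startShift, basePoint]

lemma chain_zero : chain G c0 0 = ![ptX G c0, ptY G c0, 1/8] := by
  simp only [chain, Nat.floor_zero, Function.iterate_zero_apply, Nat.cast_zero, sub_zero]
  exact piece_early (by norm_num)

lemma progT_zero : progT 0 = 0 := by
  rw [progT, sigma_zero (by norm_num), zero_div]

lemma progT_late {t : ℝ} (h : 3/8 ≤ t) : progT t = 1 := by
  rw [progT, sigma_top (by linarith), div_self kappa_ne]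

lemma path_late {t : ℝ} (h : 3/8 ≤ t) : path G c0 t = chain G c0 t := by
  simp [path, progT_late h]

variable (hG : G.Good) (hc : G.InRange c0) (hlive : ∀ n, G.Live (G.next^[n] c0))

include hG hc hlive

lemma chain_local (n : ℕ) {t : ℝ} (h0 : 0 ≤ t) (h1 : (n:ℝ) - 1/8 ≤ t) (h2 : t < (n:ℝ) + 1) :
    chain G c0 t = piece G (G.next^[n] c0) (t - n) := by
  by_cases h : (n:ℝ) ≤ t
  · have : ⌊t⌋₊ = n := (Nat.floor_eq_iff h0).mpr ⟨h, h2⟩
    simp [chain, this]
  · push Not at h
    cases n with
    | zero => exfalso; simp at h; linarith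
    | succ m =>
        push_cast at h h1 ⊢
        have : ⌊t⌋₊ = m := (Nat.floor_eq_iff h0).mpr ⟨by linarith, h⟩
        simp only [chain, this]
        rw [piece_late (stepData hG (hc.iterate hG m) (hlive m)) (by linarith),
          piece_early (show t - ((m:ℝ) + 1) ≤ 1/2 by linarith), Function.iterate_succ_apply']

lemma chain_hasDerivAt (nu : ℝ) {t : ℝ} (ht : 0 ≤ t) :
    HasDerivWithinAt (chain G c0) (forceVal nu (periodicVel G) t (chain G c0 t)) (Ici 0) t := by
  have f1 : (⌊t⌋₊:ℝ) ≤ t := Nat.floor_le ht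
  have f2 : t < (⌊t⌋₊:ℝ) + 1 := Nat.lt_floor_add_one t
  have hcn := hc.iterate hG ⌊t⌋₊
  have hv : forceVal nu (periodicVel G) t (chain G c0 t)
      = forceVal nu (periodicVel G) (t - ⌊t⌋₊)
          (piece G (G.next^[⌊t⌋₊] c0) (t - ⌊t⌋₊)) := by
    conv_lhs => rw [show t = (t - ⌊t⌋₊) + (⌊t⌋₊:ℝ) by ring]
    rw [periodicVel_add_nat]
    simp [chain]
  rw [hv, piece_velocity nu hG hcn (hlive _) (by linarith) (by linarith)]
  have hd := (piece_hasDerivAt (G := G) (G.next^[⌊t⌋₊] c0) (t - ⌊t⌋₊)).scomp t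
    ((hasDerivAt_id t).sub_const (⌊t⌋₊:ℝ))
  rw [one_smul] at hd
  refine hd.hasDerivWithinAt.congr_of_eventuallyEq ?_ ?_
  · filter_upwards [self_mem_nhdsWithin,
      mem_nhdsWithin_of_mem_nhds (Ioo_mem_nhds (show (⌊t⌋₊:ℝ) - 1/8 < t by linarith) f2)]
      with y hy hy'
    exact chain_local hG hc hlive _ hy hy'.1.le hy'.2
  · exact chain_local hG hc hlive _ ht (by linarith) f2

lemma path_trajectory (nu : ℝ) (hL : c0.2.1 = []) :
    IsTrajectory (forceVal nu (velocity G c0)) (fun i => (basePoint i : ℝ)) (path G c0) := by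
  refine ⟨?_, fun t ht => ?_⟩
  · rw [path, chain_zero, progT_zero, ← start_eq hc hL]
    simp [sub_eq_add_neg]
  · have hd := (chain_hasDerivAt hG hc hlive nu ht).add
      (((progT_hasDerivAt t).sub_const 1).smul_const (startShift G c0)).hasDerivWithinAt
    refine hd.congr_deriv ?_
    rw [velocity, forceVal_add]
    congr 1
    · by_cases h : t ≤ 1/2
      · rw [periodicVel_idle nu G ht h, periodicVel_idle nu G ht h]
      · rw [path_late (by linarith)]
    · rw [transientVel_val]
      funext i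
      fin_cases i <;> simp [startShift, mul_comm]

omit hlive in
lemma velocity_contDiff (nu : ℝ) :
    ContDiff ℝ ∞ fun z : ℝ × (Fin 3 → ℝ) => forceVal nu (velocity G c0) z.1 z.2 :=
  contDiff_pi.mpr fun i => listVal_contDiff nu (velocity_valid hG.bounded c0 i)

lemma trajectory_unique (nu : ℝ) (hL : c0.2.1 = []) {X : ℝ → Fin 3 → ℝ}
    (hX : IsTrajectory (forceVal nu (velocity G c0)) (fun i => (basePoint i : ℝ)) X) {t : ℝ}
    (ht : 0 ≤ t) : X t = path G c0 t := by
  have hY := path_trajectory hG hc hlive nu hL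
  have cX : ContinuousOn X (Icc 0 (t + 1)) := fun s hs =>
    (hX.2 s hs.1).continuousWithinAt.mono Icc_subset_Ici_self
  have cY : ContinuousOn (path G c0) (Icc 0 (t + 1)) := fun s hs =>
    (hY.2 s hs.1).continuousWithinAt.mono Icc_subset_Ici_self
  obtain ⟨R1, h1⟩ := isCompact_Icc.exists_bound_of_continuousOn cX
  obtain ⟨R2, h2⟩ := isCompact_Icc.exists_bound_of_continuousOn cY
  set S : Set (Fin 3 → ℝ) := Metric.closedBall 0 (max R1 R2) with hS
  obtain ⟨K, hK⟩ := ((velocity_contDiff hG hc (G := G) (c0 := c0) nu).contDiffOn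
    (s := Icc 0 (t + 1) ×ˢ S)).exists_lipschitzOnWith (by simp)
    ((convex_Icc _ _).prod (convex_closedBall _ _))
    (isCompact_Icc.prod (isCompact_closedBall _ _))
  have hv : ∀ s ∈ Ico 0 (t + 1), LipschitzOnWith K (forceVal nu (velocity G c0) s) S := by
    intro s hs
    refine LipschitzOnWith.of_dist_le_mul fun x hx y hy => ?_
    have h := hK.dist_le_mul (s, x) ⟨Ico_subset_Icc_self hs, hx⟩ (s, y)
      ⟨Ico_subset_Icc_self hs, hy⟩
    simpa [Prod.dist_eq] using h
  exact ODE_solution_unique_of_mem_Icc_right hv cX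
    (fun s hs => (hX.2 s hs.1).mono (Ici_subset_Ici.mpr hs.1))
    (fun s hs => mem_closedBall_zero_iff.mpr ((h1 s (Ico_subset_Icc_self hs)).trans (le_max_left _ _)))
    cY (fun s hs => (hY.2 s hs.1).mono (Ici_subset_Ici.mpr hs.1))
    (fun s hs => mem_closedBall_zero_iff.mpr ((h2 s (Ico_subset_Icc_self hs)).trans (le_max_right _ _)))
    (hX.1.trans hY.1.symm) ⟨ht, by linarith⟩

lemma visits_iff (nu : ℝ) (hL : c0.2.1 = []) {X : ℝ → Fin 3 → ℝ}
    (hX : IsTrajectory (forceVal nu (velocity G c0)) (fun i => (basePoint i : ℝ)) X) :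
    (∃ t, 0 ≤ t ∧ InBox targetLo targetHi (X t)) ↔ ∃ n, G.Hot (G.next^[n] c0) := by
  constructor
  · rintro ⟨t, ht, k, hk⟩
    rw [trajectory_unique hG hc hlive nu hL hX ht] at hk
    refine ⟨⌊t⌋₊, ?_⟩
    have hcn := hc.iterate hG ⌊t⌋₊
    obtain ⟨hz0, hz1⟩ := piece_z_mem hG hcn (hlive _) (t - ⌊t⌋₊)
    obtain ⟨-, hh, -, hcold⟩ := height_facts (stepData hG hcn (hlive ⌊t⌋₊))
    by_contra hn
    have hlow := hcold hn
    have h := hk 2
    have e : path G c0 t 2 = piece G (G.next^[⌊t⌋₊] c0) (t - ⌊t⌋₊) 2 := by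
      simp [path, chain, startShift]
    rw [e] at h
    simp only [targetLo, targetHi, Matrix.cons_val] at h
    push_cast at h
    have hk2 : k 2 = 0 := by
      have a : -1 < k 2 := by
        have : ((-1:ℤ):ℝ) < (k 2 : ℝ) := by push_cast; linarith [h.1]
        exact_mod_cast this
      have b : k 2 < 1 := by
        have : (k 2 : ℝ) < ((1:ℤ):ℝ) := by push_cast; linarith [h.2]
        exact_mod_cast this
      omega
    rw [hk2] at h
    push_cast at h
    linarith [h.1]
  · rintro ⟨n, hn⟩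
    have hcn := hc.iterate hG n
    obtain ⟨h0, hh, hhot, -⟩ := height_facts (stepData hG hcn (hlive n))
    have n0 : (0:ℝ) ≤ n := Nat.cast_nonneg _
    refine ⟨(n:ℝ) + 11/16, by linarith, 0, ?_⟩
    rw [trajectory_unique hG hc hlive nu hL hX (by linarith),
      path_late (by linarith),
      chain_local hG hc hlive n (by linarith) (by linarith) (by linarith)]
    rw [show (n:ℝ) + 11/16 - n = 11/16 by ring]
    obtain ⟨hx, hy⟩ := piece_mem hG hcn (hlive n) (11/16)
    have ez : piece G (G.next^[n] c0) (11/16) 2 = 1/8 + height G (G.next^[n] c0) := by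
      have e : piece G (G.next^[n] c0) (11/16) 2 = 1 / 8 + height G (G.next^[n] c0) *
          (prog 9 (11/16) - prog 13 (11/16)) := rfl
      rw [e, prog_late (c := 9) (by norm_num), prog_early (c := 13) (by norm_num)]
      ring
    intro i
    fin_cases i <;> simp [targetLo, targetHi]
    · constructor <;> linarith [hx.1, hx.2]
    · constructor <;> linarith [hy.1, hy.2]
    · rw [ez]; constructor <;> linarith [hhot hn]

end Vale.Agent.P113
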