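import Vale.Agent.P113.Bumps

/-!
Symbolic operations on admissible term lists and their meaning.
-/

namespace Vale.Agent.P113

open Set Filter Topology
open scoped ContDiff

/-! ### Operations on codes -/

def ratMul (a b : RatCode) : RatCode :=
  (a.1 * b.1 + a.2.1 * b.2.1, a.1 * b.2.1 + a.2.1 * b.1, (a.2.2 + 1) * (b.2.2 + 1) - 1)

def ratAdd (a b : RatCode) : RatCode :=
  (a.1 * (b.2.2 + 1) + b.1 * (a.2.2 + 1), a.2.1 * (b.2.2 + 1) + b.2.1 * (a.2.2 + 1),
    (a.2.2 + 1) * (b.2.2 + 1) - 1)

def ratNeg (a : RatCode) : RatCode := (a.2.1, a.1, a.2.2)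

lemma ratVal_mul (a b : RatCode) : ratVal (ratMul a b) = ratVal a * ratVal b := by
  obtain ⟨p, n, d⟩ := a
  obtain ⟨p', n', d'⟩ := b
  have h : 1 ≤ (d + 1) * (d' + 1) := Nat.one_le_iff_ne_zero.mpr (by positivity)
  simp only [ratVal, ratMul, Nat.cast_sub h]
  push_cast
  field_simp
  ring

lemma ratVal_add (a b : RatCode) : ratVal (ratAdd a b) = ratVal a + ratVal b := by
  obtain ⟨p, n, d⟩ := a
  obtain ⟨p', n', d'⟩ := b
  have h : 1 ≤ (d + 1) * (d' + 1) := Nat.one_le_iff_ne_zero.mpr (by positivity)
  simp only [ratVal, ratAdd, Nat.cast_sub h]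
  push_cast
  field_simp
  ring

lemma ratVal_neg (a : RatCode) : ratVal (ratNeg a) = -ratVal a := by
  obtain ⟨p, n, d⟩ := a
  simp only [ratVal, ratNeg]
  ring

/-- Derivative of a profile after the affine substitution. -/
def dProfileCase (k : ℕ) (P : Profile) (a b : RatCode) : List (RatCode × Bump) :=
  Sum.elim (fun j => [(a, (k, Sum.inl (j + 1), a, b))])
    (fun l => [(a, (k, Sum.inl 0, a, b)), (ratNeg a, (k, Sum.inl 0, a, ratAdd b l))]) P

/-- Derivative of a bump as a combination of bumps. -/
def dBump (g : Bump) : List (RatCode × Bump) :=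
  (if g.1 = 0 then [] else [(((g.1, 0, 0) : RatCode), ((g.1 - 1, g.2) : Bump))])
    ++ dProfileCase g.1 g.2.1 g.2.2.1 g.2.2.2

/-- Product rule for a list of factors. -/
def dList {F : Type} (d : F → List (RatCode × F)) (l : List F) : List (RatCode × List F) :=
  (l.foldr (fun g acc => (g :: acc.1,
    (d g).map (fun p => (p.1, p.2 :: acc.1)) ++ acc.2.map (fun p => (p.1, g :: p.2))))
    (([] : List F), ([] : List (RatCode × List F)))).2

def dTimeFactor (g : TimeFactor) : List (RatCode × TimeFactor) :=
  (dBump g.2).map fun p => (p.1, (g.1, p.2))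

def coeffScale (q : RatCode) (c : Coeff) : Coeff := (ratMul q c.1, c.2)

def dTime (T : Term) : List Term :=
  (dList dTimeFactor T.2.1).map fun p => (coeffScale p.1 T.1, p.2, T.2.2)

def dX0 (T : Term) : List Term :=
  (dList dBump T.2.2.1).map fun p => (coeffScale p.1 T.1, T.2.1, p.2, T.2.2.2)

def dX1 (T : Term) : List Term :=
  (dList dBump T.2.2.2.1).map fun p => (coeffScale p.1 T.1, T.2.1, T.2.2.1, p.2, T.2.2.2.2)

def dX2 (T : Term) : List Term :=
  (dList dBump T.2.2.2.2).map fun p =>
    (coeffScale p.1 T.1, T.2.1, T.2.2.1, T.2.2.2.1, p.2)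

def dX : Fin 3 → Term → List Term := ![dX0, dX1, dX2]

def coeffMul (c d : Coeff) : Coeff :=
  (ratMul c.1 d.1, c.2.1 + d.2.1, (c.2.2.1.1 + d.2.2.1.1, c.2.2.1.2 + d.2.2.1.2),
    c.2.2.2 ++ d.2.2.2)

def termMul (S T : Term) : Term :=
  (coeffMul S.1 T.1, S.2.1 ++ T.2.1, S.2.2.1 ++ T.2.2.1, S.2.2.2.1 ++ T.2.2.2.1,
    S.2.2.2.2 ++ T.2.2.2.2)

/-- Multiplication of a term by `-ν`. -/
def nuTerm (T : Term) : Term :=
  ((ratNeg T.1.1, T.1.2.1 + 1, T.1.2.2), T.2)

def mulList (A B : List Term) : List Term := A.flatMap fun S => B.map (termMul S)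

/-- The `i`th component of `∂ₜu + (u·∇)u - νΔu`. -/
def nsComponent (u : Force) (L : List Term) : List Term :=
  L.flatMap dTime ++ mulList u.1 (L.flatMap dX0) ++ mulList u.2.1 (L.flatMap dX1)
    ++ mulList u.2.2 (L.flatMap dX2)
    ++ ((L.flatMap dX0).flatMap dX0 ++ (L.flatMap dX1).flatMap dX1
      ++ (L.flatMap dX2).flatMap dX2).map nuTerm

/-- `∂ₜu + (u·∇)u - νΔu` as lists. -/
def nsOp (u : Force) : Force :=
  (nsComponent u u.1, nsComponent u u.2.1, nsComponent u u.2.2)

/-! ### Meaning -/

/-- The value of a combination. -/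
noncomputable def lcVal {F : Type} (val : F → ℝ → ℝ) (l : List (RatCode × F)) (s : ℝ) : ℝ :=
  (l.map fun p => (ratVal p.1 : ℝ) * val p.2 s).sum

lemma bump_hasDerivAt (g : Bump) (s : ℝ) :
    HasDerivAt (bumpVal g) (lcVal bumpVal (dBump g) s) s := by
  obtain ⟨k, P, a, b⟩ := g
  have hlin : HasDerivAt (fun x : ℝ => (ratVal a : ℝ) * x - (ratVal b : ℝ)) (ratVal a : ℝ) s := by
    simpa using ((hasDerivAt_id s).const_mul (ratVal a : ℝ)).sub_const (ratVal b : ℝ)
  have hk : (((if k = 0 then ([] : List (RatCode × Bump))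
      else [(((k, 0, 0) : RatCode), ((k - 1, P, a, b) : Bump))]).map
        fun p => (ratVal p.1 : ℝ) * bumpVal p.2 s)).sum
      = (k:ℝ) * s ^ (k - 1) * profileVal P ((ratVal a : ℝ) * s - (ratVal b : ℝ)) := by
    rcases Nat.eq_zero_or_pos k with h | h
    · subst h; simp
    · simp [h.ne', bumpVal, ratVal, mul_assoc]
  cases P with
  | inl j =>
      have h := (hasDerivAt_pow k s).mul
        ((iterRho_hasDerivAt j ((ratVal a : ℝ) * s - (ratVal b : ℝ))).comp s hlin)
      refine h.congr_deriv ?_
      simp only [lcVal, dBump, List.map_append, List.sum_append, hk]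
      simp [dProfileCase, bumpVal, profileVal]
      ring
  | inr l =>
      have h := (hasDerivAt_pow k s).mul
        ((piFun_hasDerivAt (ratVal l : ℝ) ((ratVal a : ℝ) * s - (ratVal b : ℝ))).comp s hlin)
      refine h.congr_deriv ?_
      simp only [lcVal, dBump, List.map_append, List.sum_append, hk]
      simp [dProfileCase, bumpVal, profileVal, ratVal_neg, ratVal_add, iteratedDeriv_zero,
        sub_sub]
      ring

lemma dBump_valid {g : Bump} (h : BumpValid g) : ∀ p ∈ dBump g, BumpValid p.2 := by
  obtain ⟨k, P, a, b⟩ := g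
  intro p hp
  simp only [dBump, List.mem_append] at hp
  rcases hp with hp | hp
  · split_ifs at hp
    · simp at hp
    · rw [List.mem_singleton] at hp
      subst hp
      exact h
  · cases P with
    | inl j =>
        simp [dProfileCase] at hp
        subst hp
        exact ⟨h.1, by simp⟩
    | inr l =>
        simp [dProfileCase] at hp
        rcases hp with hp | hp <;> subst hp <;> exact ⟨h.1, by simp⟩

lemma periodize_lc {l : List (RatCode × Bump)} (h : ∀ p ∈ l, BumpValid p.2) (y : ℝ) :
    periodize (lcVal bumpVal l) y = lcVal (fun g => periodize (bumpVal g)) l y ∧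
      ∃ R, ∀ s, R ≤ |s| → lcVal bumpVal l s = 0 := by
  induction l with
  | nil => exact ⟨by simp [lcVal, periodize], ⟨0, fun s _ => by simp [lcVal]⟩⟩
  | cons p l ih =>
      obtain ⟨R1, h1⟩ := bump_bound (h p (by simp))
      obtain ⟨h2, R2, h3⟩ := ih (fun q hq => h q (by simp [hq]))
      have h4 : ∀ s, max R1 R2 ≤ |s| → lcVal bumpVal (p :: l) s = 0 := by
        intro s hs
        simp only [lcVal, List.map_cons, List.sum_cons]
        rw [h1 s (le_trans (le_max_left _ _) hs), mul_zero, zero_add]
        exact h3 s (le_trans (le_max_right _ _) hs)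
      refine ⟨?_, _, h4⟩
      obtain ⟨N, hN⟩ := exists_nat_ge (|y| + max R1 R2)
      have hN1 : |y| + R1 ≤ N := by linarith [le_max_left R1 R2]
      have hN2 : |y| + R2 ≤ N := by linarith [le_max_right R1 R2]
      rw [periodize_eq_sum h4 y hN]
      rw [periodize_eq_sum h3 y hN2] at h2
      simp only [lcVal, List.map_cons, List.sum_cons] at h2 ⊢
      rw [Finset.sum_add_distrib, h2, ← Finset.mul_sum, periodize_eq_sum h1 y hN1]

lemma periodize_bump_hasDerivAt {g : Bump} (h : BumpValid g) (y : ℝ) :
    HasDerivAt (periodize (bumpVal g)) (lcVal (fun g => periodize (bumpVal g)) (dBump g) y) y := by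
  obtain ⟨R, hR⟩ := bump_bound h
  obtain ⟨h1, R', hR'⟩ := periodize_lc (dBump_valid h) y
  rw [← h1]
  exact periodize_hasDerivAt hR hR' (bump_hasDerivAt g) y

lemma periodize_bump_contDiff {g : Bump} (h : BumpValid g) :
    ContDiff ℝ ∞ (periodize (bumpVal g)) := by
  obtain ⟨R, hR⟩ := bump_bound h
  exact periodize_contDiff hR (bump_contDiff g)

lemma dList_foldr_fst {F : Type} (d : F → List (RatCode × F)) (l : List F) :
    (l.foldr (fun g acc => (g :: acc.1,
      (d g).map (fun p => (p.1, p.2 :: acc.1)) ++ acc.2.map (fun p => (p.1, g :: p.2))))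
      (([] : List F), ([] : List (RatCode × List F)))).1 = l := by
  induction l with
  | nil => rfl
  | cons g l ih => simp [ih]

lemma dList_nil {F : Type} (d : F → List (RatCode × F)) : dList d [] = [] := rfl

lemma dList_cons {F : Type} (d : F → List (RatCode × F)) (g : F) (l : List F) :
    dList d (g :: l) = (d g).map (fun p => (p.1, p.2 :: l))
      ++ (dList d l).map (fun p => (p.1, g :: p.2)) := by
  simp [dList, dList_foldr_fst]

lemma dList_hasDerivAt {F : Type} (d : F → List (RatCode × F)) (val : F → ℝ → ℝ) {s : ℝ}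
    (l : List F) (h : ∀ g ∈ l, HasDerivAt (val g) (lcVal val (d g) s) s) :
    HasDerivAt (fun x => (l.map fun g => val g x).prod)
      (lcVal (fun fs x => (fs.map fun g => val g x).prod) (dList d l) s) s := by
  induction l with
  | nil => simpa [lcVal, dList_nil] using hasDerivAt_const s (1:ℝ)
  | cons g l ih =>
      have h1 := (h g (by simp)).mul (ih fun f hf => h f (by simp [hf]))
      simp only [List.map_cons, List.prod_cons]
      refine h1.congr_deriv ?_
      simp only [lcVal, dList_cons, List.map_append, List.sum_append, List.map_map]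
      rw [← List.sum_map_mul_right, ← List.sum_map_mul_left]
      congr 2
      · apply List.map_congr_left
        intro p _
        simp only [Function.comp_apply, List.map_cons, List.prod_cons]
        ring
      · apply List.map_congr_left
        intro p _
        simp only [Function.comp_apply, List.map_cons, List.prod_cons]
        ring

lemma dList_forall {F : Type} (d : F → List (RatCode × F)) (P : F → Prop)
    (hd : ∀ g, P g → ∀ p ∈ d g, P p.2) :
    ∀ l : List F, (∀ g ∈ l, P g) → ∀ p ∈ dList d l, ∀ f ∈ p.2, P f := by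
  intro l
  induction l with
  | nil => simp [dList_nil]
  | cons g l ih =>
      intro h p hp
      rw [dList_cons, List.mem_append, List.mem_map, List.mem_map] at hp
      rcases hp with ⟨q, hq, rfl⟩ | ⟨q, hq, rfl⟩
      · intro f hf
        rcases List.mem_cons.mp hf with rfl | hf
        · exact hd g (h g (by simp)) q hq
        · exact h f (by simp [hf])
      · intro f hf
        rcases List.mem_cons.mp hf with rfl | hf
        · exact h f (by simp)
        · exact ih (fun f hf => h f (by simp [hf])) q hq f hf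

/-! ### Terms -/

lemma coeff_scale (nu : ℝ) (q : RatCode) (c : Coeff) :
    coeffVal nu (coeffScale q c) = (ratVal q : ℝ) * coeffVal nu c := by
  simp only [coeffVal, coeffScale, ratVal_mul]
  push_cast
  ring

lemma termVal_mul (nu : ℝ) (S T : Term) (t : ℝ) (x : Fin 3 → ℝ) :
    termVal nu (termMul S T) t x = termVal nu S t x * termVal nu T t x := by
  have hk : kappa ^ (((S.1.2.2.1.1 + T.1.2.2.1.1 : ℕ) : ℤ) - ((S.1.2.2.1.2 + T.1.2.2.1.2 : ℕ) : ℤ))
      = kappa ^ ((S.1.2.2.1.1 : ℤ) - (S.1.2.2.1.2 : ℤ))
        * kappa ^ ((T.1.2.2.1.1 : ℤ) - (T.1.2.2.1.2 : ℤ)) := by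
    rw [← zpow_add₀ kappa_ne]
    congr 1
    push_cast
    ring
  simp only [termVal, termMul, coeffVal, coeffMul, spaceVal, List.map_append, List.prod_append,
    ratVal_mul, pow_add, hk]
  push_cast
  ring

lemma termVal_nu (nu : ℝ) (T : Term) (t : ℝ) (x : Fin 3 → ℝ) :
    termVal nu (nuTerm T) t x = -nu * termVal nu T t x := by
  simp only [termVal, nuTerm, coeffVal, ratVal_neg, pow_succ]
  push_cast
  ring

/-- The value of a list of terms. -/
noncomputable def listVal (nu : ℝ) (L : List Term) (t : ℝ) (x : Fin 3 → ℝ) : ℝ :=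
  (L.map fun T => termVal nu T t x).sum

lemma forceVal_apply (nu : ℝ) (F : Force) (t : ℝ) (x : Fin 3 → ℝ) (i : Fin 3) :
    forceVal nu F t x i = listVal nu (F.component i) t x := rfl

lemma listVal_nil (nu : ℝ) (t : ℝ) (x : Fin 3 → ℝ) : listVal nu [] t x = 0 := rfl

lemma listVal_cons (nu : ℝ) (T : Term) (L : List Term) (t : ℝ) (x : Fin 3 → ℝ) :
    listVal nu (T :: L) t x = termVal nu T t x + listVal nu L t x := rfl

lemma listVal_append (nu : ℝ) (A B : List Term) (t : ℝ) (x : Fin 3 → ℝ) :
    listVal nu (A ++ B) t x = listVal nu A t x + listVal nu B t x := by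
  simp [listVal]

lemma listVal_mul (nu : ℝ) (A B : List Term) (t : ℝ) (x : Fin 3 → ℝ) :
    listVal nu (mulList A B) t x = listVal nu A t x * listVal nu B t x := by
  induction A with
  | nil => simp [mulList, listVal]
  | cons S A ih =>
      have h : mulList (S :: A) B = B.map (termMul S) ++ mulList A B := rfl
      rw [h, listVal_append, ih, listVal_cons, add_mul]
      congr 1
      simp only [listVal, List.map_map]
      rw [← List.sum_map_mul_left]
      congr 1
      exact List.map_congr_left fun T _ => termVal_mul nu S T t x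

lemma listVal_nu (nu : ℝ) (A : List Term) (t : ℝ) (x : Fin 3 → ℝ) :
    listVal nu (A.map nuTerm) t x = -nu * listVal nu A t x := by
  simp only [listVal, List.map_map]
  rw [← List.sum_map_mul_left]
  congr 1
  exact List.map_congr_left fun T _ => termVal_nu nu T t x

lemma timeFactor_hasDerivAt {g : TimeFactor} (h : BumpValid g.2) (t : ℝ) :
    HasDerivAt (timeFactorVal g) (lcVal timeFactorVal (dTimeFactor g) t) t := by
  obtain ⟨b, g⟩ := g
  cases b
  · have h' := bump_hasDerivAt g t
    unfold timeFactorVal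
    simpa [lcVal, dTimeFactor, Function.comp_def] using h'
  · have h' := periodize_bump_hasDerivAt h t
    unfold timeFactorVal
    simpa [lcVal, dTimeFactor, Function.comp_def] using h'

lemma timeFactor_contDiff {g : TimeFactor} (h : BumpValid g.2) :
    ContDiff ℝ ∞ (timeFactorVal g) := by
  obtain ⟨b, g⟩ := g
  unfold timeFactorVal
  cases b
  · simpa using bump_contDiff g
  · simpa using periodize_bump_contDiff h

lemma spaceVal_hasDerivAt {l : List Bump} (h : ∀ g ∈ l, BumpValid g) (y : ℝ) :
    HasDerivAt (spaceVal l) (lcVal spaceVal (dList dBump l) y) y :=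
  dList_hasDerivAt dBump (fun g => periodize (bumpVal g)) l
    fun g hg => periodize_bump_hasDerivAt (h g hg) y

lemma spaceVal_contDiff {l : List Bump} (h : ∀ g ∈ l, BumpValid g) :
    ContDiff ℝ ∞ (spaceVal l) := by
  induction l with
  | nil =>
      have e : spaceVal [] = fun _ => (1:ℝ) := funext fun y => by simp [spaceVal]
      rw [e]
      exact contDiff_const
  | cons g l ih =>
      have e : spaceVal (g :: l) = fun y => periodize (bumpVal g) y * spaceVal l y :=
        funext fun y => by simp [spaceVal]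
      rw [e]
      exact (periodize_bump_contDiff (h g (by simp))).mul (ih fun f hf => h f (by simp [hf]))

lemma spaceVal_add_one (l : List Bump) (y : ℝ) : spaceVal l (y + 1) = spaceVal l y := by
  simp only [spaceVal, periodize_add_one]

lemma termVal_periodic (nu : ℝ) (T : Term) (t : ℝ) (x : Fin 3 → ℝ) (j : Fin 3) :
    termVal nu T t (x + Pi.single j 1) = termVal nu T t x := by
  fin_cases j <;> simp [termVal, spaceVal_add_one]

lemma listVal_periodic (nu : ℝ) (L : List Term) (t : ℝ) (x : Fin 3 → ℝ) (j : Fin 3) :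
    listVal nu L t (x + Pi.single j 1) = listVal nu L t x := by
  simp only [listVal, termVal_periodic]

lemma termVal_contDiff (nu : ℝ) {T : Term} (h : TermValid T) :
    ContDiff ℝ ∞ fun z : ℝ × (Fin 3 → ℝ) => termVal nu T z.1 z.2 := by
  obtain ⟨-, ht, h0, h1, h2⟩ := h
  have hθ : ContDiff ℝ ∞ fun t => (T.2.1.map fun g => timeFactorVal g t).prod := by
    generalize T.2.1 = l at ht
    induction l with
    | nil => simpa using contDiff_const
    | cons g l ih =>
        simp only [List.map_cons, List.prod_cons]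
        exact (timeFactor_contDiff (ht g (by simp))).mul (ih fun f hf => ht f (by simp [hf]))
  have p : ∀ i : Fin 3, ContDiff ℝ ∞ fun z : ℝ × (Fin 3 → ℝ) => z.2 i := fun i =>
    (contDiff_apply ℝ ℝ i).comp contDiff_snd
  have a : ContDiff ℝ ∞ fun z : ℝ × (Fin 3 → ℝ) =>
      coeffVal nu T.1 * (T.2.1.map fun g => timeFactorVal g z.1).prod :=
    (contDiff_const (c := coeffVal nu T.1)).mul (hθ.comp contDiff_fst)
  have b0 : ContDiff ℝ ∞ fun z : ℝ × (Fin 3 → ℝ) => spaceVal T.2.2.1 (z.2 0) :=
    (spaceVal_contDiff h0).comp (p 0)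
  have b1 : ContDiff ℝ ∞ fun z : ℝ × (Fin 3 → ℝ) => spaceVal T.2.2.2.1 (z.2 1) :=
    (spaceVal_contDiff h1).comp (p 1)
  have b2 : ContDiff ℝ ∞ fun z : ℝ × (Fin 3 → ℝ) => spaceVal T.2.2.2.2 (z.2 2) :=
    (spaceVal_contDiff h2).comp (p 2)
  exact ((a.mul b0).mul b1).mul b2

/-- All terms of a list are valid. -/
def ListValid (L : List Term) : Prop := ∀ T ∈ L, TermValid T

lemma listVal_contDiff (nu : ℝ) {L : List Term} (h : ListValid L) :
    ContDiff ℝ ∞ fun z : ℝ × (Fin 3 → ℝ) => listVal nu L z.1 z.2 := by
  induction L with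
  | nil => exact contDiff_const
  | cons T L ih =>
      exact (termVal_contDiff nu (h T (by simp))).add (ih fun S hS => h S (by simp [hS]))

lemma listVal_contDiff_space (nu : ℝ) {L : List Term} (h : ListValid L) (t : ℝ) :
    ContDiff ℝ ∞ (listVal nu L t) := by
  have a : ContDiff ℝ ∞ fun x : Fin 3 → ℝ => (t, x) :=
    (contDiff_const (c := t)).prodMk contDiff_id
  exact ContDiff.comp (g := fun z : ℝ × (Fin 3 → ℝ) => listVal nu L z.1 z.2)
    (f := fun x : Fin 3 → ℝ => (t, x)) (listVal_contDiff nu h) a

lemma dTime_valid {T : Term} (h : TermValid T) : ListValid (dTime T) := by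
  intro S hS
  simp only [dTime, List.mem_map] at hS
  obtain ⟨p, hp, rfl⟩ := hS
  refine ⟨h.1, ?_, h.2.2⟩
  refine dList_forall dTimeFactor (fun g : TimeFactor => BumpValid g.2) ?_ _ h.2.1 p hp
  intro g hg q hq
  simp only [dTimeFactor, List.mem_map] at hq
  obtain ⟨r, hr, rfl⟩ := hq
  exact dBump_valid hg r hr

lemma dX_valid (j : Fin 3) {T : Term} (h : TermValid T) : ListValid (dX j T) := by
  obtain ⟨hl, ht, h0, h1, h2⟩ := h
  intro S hS
  fin_cases j <;> simp [dX, dX0, dX1, dX2] at hS <;> obtain ⟨a, b, c, hs, hp, rfl⟩ := hS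
  · exact ⟨hl, ht, dList_forall dBump BumpValid (fun _ => dBump_valid) _ h0 _ hp, h1, h2⟩
  · exact ⟨hl, ht, h0, dList_forall dBump BumpValid (fun _ => dBump_valid) _ h1 _ hp, h2⟩
  · exact ⟨hl, ht, h0, h1, dList_forall dBump BumpValid (fun _ => dBump_valid) _ h2 _ hp⟩

lemma listValid_append {A B : List Term} (hA : ListValid A) (hB : ListValid B) :
    ListValid (A ++ B) := by
  intro T hT
  rcases List.mem_append.mp hT with h | h
  · exact hA T h
  · exact hB T h

lemma listValid_dTime {L : List Term} (h : ListValid L) : ListValid (L.flatMap dTime) := by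
  intro T hT
  obtain ⟨S, hS, hT⟩ := List.mem_flatMap.mp hT
  exact dTime_valid (h S hS) T hT

lemma listValid_dX (j : Fin 3) {L : List Term} (h : ListValid L) :
    ListValid (L.flatMap (dX j)) := by
  intro T hT
  obtain ⟨S, hS, hT⟩ := List.mem_flatMap.mp hT
  exact dX_valid j (h S hS) T hT

lemma termMul_valid {S T : Term} (hS : TermValid S) (hT : TermValid T) :
    TermValid (termMul S T) := by
  obtain ⟨a0, a1, a2, a3, a4⟩ := hS
  obtain ⟨b0, b1, b2, b3, b4⟩ := hT
  refine ⟨?_, ?_, ?_, ?_, ?_⟩ <;> simp only [termMul, coeffMul, List.mem_append] <;>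
    intro g hg <;> rcases hg with hg | hg
  exacts [a0 g hg, b0 g hg, a1 g hg, b1 g hg, a2 g hg, b2 g hg, a3 g hg, b3 g hg, a4 g hg, b4 g hg]

lemma mulList_valid {A B : List Term} (hA : ListValid A) (hB : ListValid B) :
    ListValid (mulList A B) := by
  intro T hT
  simp only [mulList, List.mem_flatMap, List.mem_map] at hT
  obtain ⟨S, hS, R, hR, rfl⟩ := hT
  exact termMul_valid (hA S hS) (hB R hR)

lemma termVal_hasDerivAt (nu : ℝ) {T : Term} (h : TermValid T) (t : ℝ) (x : Fin 3 → ℝ) :
    HasDerivAt (fun s => termVal nu T s x) (listVal nu (dTime T) t x) t := by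
  have h1 := dList_hasDerivAt dTimeFactor timeFactorVal T.2.1
    (fun g hg => timeFactor_hasDerivAt (h.2.1 g hg) t)
  have h2 := (((h1.const_mul (coeffVal nu T.1)).mul_const (spaceVal T.2.2.1 (x 0))).mul_const
    (spaceVal T.2.2.2.1 (x 1))).mul_const (spaceVal T.2.2.2.2 (x 2))
  refine h2.congr_deriv ?_
  simp only [listVal, dTime, List.map_map, lcVal, ← List.sum_map_mul_left,
    ← List.sum_map_mul_right]
  congr 1
  apply List.map_congr_left
  intro p _
  simp only [Function.comp_apply, termVal, coeff_scale]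
  ring

lemma listVal_hasDerivAt (nu : ℝ) {L : List Term} (h : ListValid L) (t : ℝ) (x : Fin 3 → ℝ) :
    HasDerivAt (fun s => listVal nu L s x) (listVal nu (L.flatMap dTime) t x) t := by
  induction L with
  | nil => simpa [listVal] using hasDerivAt_const t (0:ℝ)
  | cons T L ih =>
      rw [List.flatMap_cons, listVal_append]
      exact (termVal_hasDerivAt nu (h T (by simp)) t x).add (ih fun S hS => h S (by simp [hS]))

lemma termVal_pd (nu : ℝ) {T : Term} (h : TermValid T) (j : Fin 3) (t : ℝ) (x : Fin 3 → ℝ) :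
    pd j (termVal nu T t) x = listVal nu (dX j T) t x := by
  obtain ⟨-, -, h0, h1, h2⟩ := h
  have e : ∀ (i : Fin 3) {l : List Bump}, (∀ g ∈ l, BumpValid g) →
      HasFDerivAt (fun y : Fin 3 → ℝ => spaceVal l (y i))
        (lcVal spaceVal (dList dBump l) (x i) •
          ContinuousLinearMap.proj (R := ℝ) (φ := fun _ : Fin 3 => ℝ) i) x :=
    fun i l hl => HasDerivAt.comp_hasFDerivAt (f := fun y : Fin 3 → ℝ => y i) x
      (spaceVal_hasDerivAt hl (x i)) (hasFDerivAt_apply i x)
  have hk := ((hasFDerivAt_const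
    (coeffVal nu T.1 * (T.2.1.map fun g => timeFactorVal g t).prod) x).mul (e 0 h0)).mul (e 1 h1)
      |>.mul (e 2 h2)
  have hk' : HasFDerivAt (termVal nu T t) _ x := hk
  rw [pd, hk'.fderiv]
  fin_cases j <;>
    simp [dX, dX0, dX1, dX2, listVal, lcVal, termVal, coeff_scale, Function.comp_def,
      ← List.sum_map_mul_left, ← List.sum_map_mul_right] <;>
    (congr 1; apply List.map_congr_left; intro p _; ring)

lemma listVal_pd (nu : ℝ) {L : List Term} (h : ListValid L) (j : Fin 3) (t : ℝ)
    (x : Fin 3 → ℝ) :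
    pd j (listVal nu L t) x = listVal nu (L.flatMap (dX j)) t x := by
  induction L with
  | nil => simp [pd, show listVal nu ([] : List Term) t = fun _ => (0:ℝ) from rfl, listVal]
  | cons T L ih =>
      have hT : ListValid [T] := fun S hS => h S (by simp_all)
      have hL : ListValid L := fun S hS => h S (by simp [hS])
      have d1 : Differentiable ℝ (termVal nu T t) := by
        have := (listVal_contDiff_space nu hT t).differentiable (by simp)
        simpa [show listVal nu [T] t = termVal nu T t from funext fun y => by simp [listVal]]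
          using this
      have d2 : Differentiable ℝ (listVal nu L t) :=
        (listVal_contDiff_space nu hL t).differentiable (by simp)
      rw [List.flatMap_cons, listVal_append, ← ih hL, ← termVal_pd nu (h T (by simp)) j]
      have e : listVal nu (T :: L) t = termVal nu T t + listVal nu L t := rfl
      simp only [pd, e, fderiv_add (d1 x) (d2 x), ContinuousLinearMap.add_apply]

lemma component_valid_iff (F : Force) :
    (∀ i, ListValid (F.component i)) ↔ ListValid F.1 ∧ ListValid F.2.1 ∧ ListValid F.2.2 := by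
  simp [Fin.forall_fin_succ, Force.component]

lemma nsComponent_valid {u : Force} {L : List Term} (hu : ∀ i, ListValid (u.component i))
    (hL : ListValid L) : ListValid (nsComponent u L) := by
  have hd : ∀ j, ListValid (L.flatMap (dX j)) := fun j => listValid_dX j hL
  obtain ⟨u0, u1, u2⟩ := (component_valid_iff u).mp hu
  refine listValid_append (listValid_append (listValid_append (listValid_append
    (listValid_dTime hL) (mulList_valid u0 (hd 0))) (mulList_valid u1 (hd 1)))
    (mulList_valid u2 (hd 2))) ?_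
  have hdd : ListValid ((L.flatMap dX0).flatMap dX0 ++ (L.flatMap dX1).flatMap dX1
      ++ (L.flatMap dX2).flatMap dX2) :=
    listValid_append (listValid_append (listValid_dX 0 (hd 0)) (listValid_dX 1 (hd 1)))
      (listValid_dX 2 (hd 2))
  intro T hT
  obtain ⟨S, hS, rfl⟩ := List.mem_map.mp hT
  exact hdd S hS

lemma nsOp_component (u : Force) (i : Fin 3) :
    (nsOp u).component i = nsComponent u (u.component i) := by
  fin_cases i <;> rfl

lemma nsOp_val (nu : ℝ) {u : Force} (hu : ∀ i, ListValid (u.component i)) (t : ℝ)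
    (x : Fin 3 → ℝ) (i : Fin 3) :
    forceVal nu (nsOp u) t x i = deriv (fun s => forceVal nu u s x i) t
      + ∑ j, forceVal nu u t x j * pd j (fun y => forceVal nu u t y i) x
      - nu * ∑ j, pd j (pd j fun y => forceVal nu u t y i) x := by
  set L := u.component i with hL
  have hv : ListValid L := hu i
  have h1 : ∀ j, pd j (fun y => forceVal nu u t y i) = listVal nu (L.flatMap (dX j)) t :=
    fun j => funext fun y => listVal_pd nu hv j t y
  have h2 : ∀ j, pd j (listVal nu (L.flatMap (dX j)) t) x
      = listVal nu ((L.flatMap (dX j)).flatMap (dX j)) t x :=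
    fun j => listVal_pd nu (listValid_dX j hv) j t x
  rw [Fin.sum_univ_three, Fin.sum_univ_three]
  simp only [h1, h2]
  simp only [forceVal_apply, ← hL, (listVal_hasDerivAt nu hv t x).deriv,
    nsOp_component]
  simp only [nsComponent, listVal_append, listVal_mul, listVal_nu, Force.component, dX,
    Matrix.cons_val]
  ring

/-! ### Syntactic periodicity -/

/-- All terms of a list are periodic. -/
def ListPeriodic (L : List Term) : Prop := ∀ T ∈ L, termPeriodic T = true

lemma dTime_periodic {T : Term} (h : termPeriodic T = true) : ListPeriodic (dTime T) := by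
  intro S hS
  simp only [dTime, List.mem_map] at hS
  obtain ⟨p, hp, rfl⟩ := hS
  simp only [termPeriodic, List.all_eq_true] at h ⊢
  refine dList_forall dTimeFactor (fun g : TimeFactor => g.1 = true) ?_ _ h p hp
  intro g hg q hq
  simp only [dTimeFactor, List.mem_map] at hq
  obtain ⟨r, hr, rfl⟩ := hq
  exact hg

lemma dX_periodic (j : Fin 3) {T : Term} (h : termPeriodic T = true) :
    ListPeriodic (dX j T) := by
  intro S hS
  fin_cases j <;> simp [dX, dX0, dX1, dX2] at hS <;> obtain ⟨a, b, c, hs, hp, rfl⟩ := hS <;> exact h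

lemma listPeriodic_append {A B : List Term} (hA : ListPeriodic A) (hB : ListPeriodic B) :
    ListPeriodic (A ++ B) := by
  intro T hT
  rcases List.mem_append.mp hT with h | h
  · exact hA T h
  · exact hB T h

lemma listPeriodic_dTime {L : List Term} (h : ListPeriodic L) :
    ListPeriodic (L.flatMap dTime) := by
  intro T hT
  obtain ⟨S, hS, hT⟩ := List.mem_flatMap.mp hT
  exact dTime_periodic (h S hS) T hT

lemma listPeriodic_dX (j : Fin 3) {L : List Term} (h : ListPeriodic L) :
    ListPeriodic (L.flatMap (dX j)) := by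
  intro T hT
  obtain ⟨S, hS, hT⟩ := List.mem_flatMap.mp hT
  exact dX_periodic j (h S hS) T hT

lemma nsComponent_periodic {u : Force} {L : List Term}
    (hu : ∀ i, ListPeriodic (u.component i)) (hL : ListPeriodic L) :
    ListPeriodic (nsComponent u L) := by
  have hd : ∀ j, ListPeriodic (L.flatMap (dX j)) := fun j => listPeriodic_dX j hL
  have hm : ∀ {A B : List Term}, ListPeriodic A → ListPeriodic B →
      ListPeriodic (mulList A B) := by
    intro A B hA hB T hT
    simp only [mulList, List.mem_flatMap, List.mem_map] at hT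
    obtain ⟨S, hS, R, hR, rfl⟩ := hT
    have a := hA S hS
    have b := hB R hR
    simp only [termPeriodic, termMul, List.all_append, Bool.and_eq_true] at a b ⊢
    exact ⟨a, b⟩
  refine listPeriodic_append (listPeriodic_append (listPeriodic_append (listPeriodic_append
    (listPeriodic_dTime hL) (hm (hu 0) (hd 0))) (hm (hu 1) (hd 1))) (hm (hu 2) (hd 2))) ?_
  have hdd : ListPeriodic ((L.flatMap dX0).flatMap dX0 ++ (L.flatMap dX1).flatMap dX1
      ++ (L.flatMap dX2).flatMap dX2) :=
    listPeriodic_append (listPeriodic_append (listPeriodic_dX 0 (hd 0)) (listPeriodic_dX 1 (hd 1)))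
      (listPeriodic_dX 2 (hd 2))
  intro T hT
  obtain ⟨S, hS, rfl⟩ := List.mem_map.mp hT
  exact hdd S hS

end Vale.Agent.P113
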