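import Vale.Agent.P113.Geometry

/-!
The velocity as term lists, and its values.
-/

namespace Vale.Agent.P113

open Set Filter Topology
open scoped ContDiff

/-- Periodic time pulse supported in `((c-1)/16, (c+1)/16)` modulo one. -/
def pulse (c : ℕ) : TimeFactor := (true, (0, Sum.inl 0, (16, 0, 0), (c, 0, 0)))

/-- The transient pulse, supported in `(1/8, 3/8)`. -/
def transientPulse : TimeFactor := (false, (0, Sum.inl 0, (8, 0, 0), (2, 0, 0)))

def slabIv (n i : ℕ) (hot : Bool) : Iv :=
  (32 * (n + 1), if hot then 48 * (n + 1) + 4 * i else 16 * (n + 1) + 4 * i)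

def slabCenter (I : Iv) : RatCode := (I.2 + 1, 0, 2 * I.1 - 1)

def slabShift (I : Iv) : RatCode := ratAdd (slabCenter I) (0, 1, 7)

def liftTerm (q : RatCode) (c : ℕ) (I J : Iv) : Term :=
  ((ratMul q (16, 0, 0), 0, (0, 3), []), [pulse c], [ivBump 0 I], [ivBump 0 J], [])

def linList (x0 : RatCode) : List (RatCode × Bump) :=
  [(((1, 0, 0) : RatCode), ivBump 1 wholeY), (ratNeg x0, ivBump 0 wholeY)]

def dLinList (x0 : RatCode) : List (RatCode × Bump) :=
  (linList x0).flatMap fun p => (dBump p.2).map fun q => (ratMul p.1 q.1, q.2)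

def planeTerms (q r : RatCode) (chi : Iv) (X Y : List (RatCode × Bump)) : List Term :=
  X.flatMap fun a => Y.map fun b =>
    (((ratMul q (ratMul a.1 b.1), 0, (0, 4), [r]) : Coeff), [pulse 11], [a.2], [b.2],
      [ivBump 0 chi])

def slabOf (G : Shift) (e : Branch × ℕ) : Iv :=
  slabIv (branches G).length e.2 e.1.1.hot

def flowX (G : Shift) (e : Branch × ℕ) : List Term :=
  planeTerms (16, 0, 0) (ratioCode G e.1) (slabOf G e) (linList (fixX G e.1))
    (dLinList (fixY G e.1))

def flowY (G : Shift) (e : Branch × ℕ) : List Term :=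
  planeTerms (0, 16, 0) (ratioCode G e.1) (slabOf G e) (dLinList (fixX G e.1))
    (linList (fixY G e.1))

def flowZ (G : Shift) (e : Branch × ℕ) : List Term :=
  [liftTerm (slabShift (slabOf G e)) 9 (srcX G e.1) (srcY G e.1),
    liftTerm (ratNeg (slabShift (slabOf G e))) 13 (dstX G e.1) (dstY G e.1)]

def periodicVel (G : Shift) : Force :=
  ((branches G).zipIdx.flatMap (flowX G), (branches G).zipIdx.flatMap (flowY G),
    (branches G).zipIdx.flatMap (flowZ G))

def encCode (B : ℕ) (l : List ℕ) : RatCode :=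
  l.foldr (fun a e => (2 * a * (e.2.2 + 1) + e.1, 0, (e.2.2 + 1) * B - 1)) (0, 0, 0)

def moveTerm (d : RatCode) : Term :=
  ((ratMul d (8, 0, 0), 0, (0, 1), []), [transientPulse], [], [], [])

def shiftX (G : Shift) (c : SConf) : RatCode := (2 * c.1, 0, 4 * G.states - 1)
def shiftY (G : Shift) (c : SConf) : RatCode :=
  ratMul (1, 0, 1) (encCode (gBase G.syms) c.2.2)

def transientVel (G : Shift) (c : SConf) : Force :=
  ([moveTerm (shiftX G c)], [moveTerm (shiftY G c)], [])

def Force.add (E F : Force) : Force := (E.1 ++ F.1, E.2.1 ++ F.2.1, E.2.2 ++ F.2.2)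

def Force.dt (F : Force) : Force :=
  (F.1.flatMap dTime, F.2.1.flatMap dTime, F.2.2.flatMap dTime)

def velocity (G : Shift) (c : SConf) : Force := (periodicVel G).add (transientVel G c)

def compiledForce (G : Shift) (c : SConf) : Force :=
  (nsOp (periodicVel G)).add (transientVel G c).dt

/-! ### Validity -/

lemma pulse_valid (c : ℕ) : BumpValid (pulse c).2 := by
  refine ⟨?_, fun l h => by simp [pulse] at h⟩
  simp [pulse, ratVal]

lemma transientPulse_valid : BumpValid transientPulse.2 := by
  refine ⟨?_, fun l h => by simp [transientPulse] at h⟩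
  simp [transientPulse, ratVal]

lemma slabIv_ok {n i : ℕ} (hi : i < n) (hot : Bool) : IvOK (slabIv n i hot) := by
  cases hot <;> simp [IvOK, slabIv] <;> omega

lemma gBase_gt (A : ℕ) : 1 < gBase A := by unfold gBase; omega

lemma digitX_ok {S A s l : ℕ} (hs : s < S) (hl : l ≤ A) : IvOK (digitX S A s l) := by
  have hB : gBase A = 2 * A + 2 := rfl
  have h : s * gBase A + gBase A ≤ S * gBase A := by
    have := Nat.mul_le_mul_right (gBase A) (Nat.succ_le_of_lt hs)
    rwa [Nat.succ_mul] at this
  refine ⟨?_, ?_, ?_⟩ <;> simp only [digitX]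
  · exact Nat.mul_pos (by omega) (by omega)
  · rw [Nat.mul_assoc 2 S]; omega
  · rw [Nat.mul_assoc 2 S, Nat.mul_assoc 4 S]; omega

lemma stateX_ok {S s : ℕ} (hs : s < S) : IvOK (stateX S s) := by
  simp [IvOK, stateX]; omega

lemma digitY_ok {A a : ℕ} (ha : a ≤ A) : IvOK (digitY A a) := by
  simp [IvOK, digitY, gBase]; omega

lemma wholeY_ok : IvOK wholeY := by simp [IvOK, wholeY]

lemma pairY_ok {A l b : ℕ} (hl : l ≤ A) (hb : b ≤ A) : IvOK (pairY A l b) := by
  have hB : gBase A = 2 * A + 2 := rfl
  have h1 := Nat.mul_le_mul_right (gBase A) hl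
  have h2 : (2 * A + 2) * gBase A = gBase A * gBase A := by rw [hB]
  rw [Nat.add_mul, Nat.mul_assoc] at h2
  have h3 : 0 < gBase A * gBase A := Nat.mul_pos (by omega) (by omega)
  refine ⟨?_, ?_, ?_⟩ <;> simp only [pairY]
  · rw [Nat.mul_assoc]; omega
  · omega
  · rw [Nat.mul_assoc 2 (gBase A)]; omega

/-- States and symbols of rules are in range (without the injectivity conditions). -/
def Shift.Bounded (G : Shift) : Prop :=
  ∀ r ∈ G.rules, r.src < G.states ∧ r.dst < G.states ∧ r.sym < G.syms ∧ r.wr < G.syms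

lemma Shift.Good.bounded {G : Shift} (h : G.Good) : G.Bounded := fun r hr =>
  ⟨h.src_lt r hr, h.dst_lt r hr, h.sym_lt r hr, h.wr_lt r hr⟩

lemma boxes_ok {G : Shift} (hG : G.Bounded) {b : Branch} (hb : b ∈ branches G) :
    IvOK (srcX G b) ∧ IvOK (srcY G b) ∧ IvOK (dstX G b) ∧ IvOK (dstY G b) := by
  obtain ⟨hr, hl⟩ := mem_branches.mp hb
  obtain ⟨h1, h2, h3, h4⟩ := hG _ hr
  simp only [srcX, srcY, dstX, dstY]
  split_ifs at hl ⊢
  · exact ⟨stateX_ok h1, digitY_ok h3.le, digitX_ok h2 h4.le, wholeY_ok⟩
  · exact ⟨digitX_ok h1 hl.le, digitY_ok h3.le, stateX_ok h2, pairY_ok hl.le h4.le⟩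

lemma ratioCode_pos (G : Shift) (b : Branch) : 0 < ratVal (ratioCode G b) := by
  have h := gBase_gt G.syms
  unfold ratioCode ratVal
  split_ifs
  · simp only [Nat.cast_one, Nat.cast_zero, sub_zero]
    positivity
  · simp only [Nat.cast_zero, sub_zero, zero_add, div_one]
    exact_mod_cast (by omega : 0 < gBase G.syms)

lemma linList_valid (x0 : RatCode) : ∀ p ∈ linList x0, BumpValid p.2 := by
  intro p hp
  simp only [linList, List.mem_cons, List.not_mem_nil, or_false] at hp
  rcases hp with rfl | rfl <;> exact ivBump_valid wholeY_ok _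

lemma dLinList_valid (x0 : RatCode) : ∀ p ∈ dLinList x0, BumpValid p.2 := by
  intro p hp
  simp only [dLinList, List.mem_flatMap, List.mem_map] at hp
  obtain ⟨a, ha, b, hb, rfl⟩ := hp
  exact dBump_valid (linList_valid x0 a ha) b hb

lemma planeTerms_valid {q r : RatCode} {chi : Iv} {X Y : List (RatCode × Bump)}
    (hr : 0 < ratVal r) (hc : IvOK chi) (hX : ∀ p ∈ X, BumpValid p.2)
    (hY : ∀ p ∈ Y, BumpValid p.2) : ListValid (planeTerms q r chi X Y) := by
  intro T hT
  simp only [planeTerms, List.mem_flatMap, List.mem_map] at hT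
  obtain ⟨a, ha, b, hb, rfl⟩ := hT
  exact ⟨by simpa using hr, by simpa using pulse_valid 11, by simpa using hX a ha,
    by simpa using hY b hb, by simpa using ivBump_valid hc 0⟩

lemma mem_zipIdx_branches {G : Shift} {e : Branch × ℕ} (he : e ∈ (branches G).zipIdx) :
    e.1 ∈ branches G ∧ e.2 < (branches G).length := by
  obtain ⟨b, i⟩ := e
  obtain ⟨-, h1, h2⟩ := List.mem_zipIdx he
  exact ⟨h2 ▸ List.getElem_mem _, by simpa using h1⟩

lemma periodicVel_valid {G : Shift} (hG : G.Bounded) (i : Fin 3) :
    ListValid ((periodicVel G).component i) := by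
  intro T hT
  have hs : ∀ e ∈ (branches G).zipIdx, IvOK (slabOf G e) := fun e he =>
    slabIv_ok (mem_zipIdx_branches he).2 _
  fin_cases i <;> simp only [periodicVel, Force.component] at hT <;>
    obtain ⟨e, he, hT⟩ := List.mem_flatMap.mp hT
  · exact planeTerms_valid (ratioCode_pos G _) (hs e he) (linList_valid _) (dLinList_valid _) T hT
  · exact planeTerms_valid (ratioCode_pos G _) (hs e he) (dLinList_valid _) (linList_valid _) T hT
  · obtain ⟨h1, h2, h3, h4⟩ := boxes_ok hG (mem_zipIdx_branches he).1
    simp only [flowZ, List.mem_cons, List.not_mem_nil, or_false] at hT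
    rcases hT with rfl | rfl
    · exact ⟨by simp [liftTerm], by simpa [liftTerm] using pulse_valid 9,
        by simpa [liftTerm] using ivBump_valid h1 0, by simpa [liftTerm] using ivBump_valid h2 0,
        by simp [liftTerm]⟩
    · exact ⟨by simp [liftTerm], by simpa [liftTerm] using pulse_valid 13,
        by simpa [liftTerm] using ivBump_valid h3 0, by simpa [liftTerm] using ivBump_valid h4 0,
        by simp [liftTerm]⟩

lemma moveTerm_valid (d : RatCode) : TermValid (moveTerm d) :=
  ⟨by simp [moveTerm], by simpa [moveTerm] using transientPulse_valid,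
    by simp [moveTerm], by simp [moveTerm], by simp [moveTerm]⟩

lemma transientVel_valid (G : Shift) (c : SConf) (i : Fin 3) :
    ListValid ((transientVel G c).component i) := by
  intro T hT
  fin_cases i <;> simp [transientVel, Force.component] at hT <;> subst hT <;>
    exact moveTerm_valid _

lemma Force.add_component (E F : Force) (i : Fin 3) :
    (E.add F).component i = E.component i ++ F.component i := by
  fin_cases i <;> rfl

lemma Force.dt_component (F : Force) (i : Fin 3) :
    F.dt.component i = (F.component i).flatMap dTime := by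
  fin_cases i <;> rfl

lemma velocity_valid {G : Shift} (hG : G.Bounded) (c : SConf) (i : Fin 3) :
    ListValid ((velocity G c).component i) := by
  rw [velocity, Force.add_component]
  exact listValid_append (periodicVel_valid hG i) (transientVel_valid G c i)

lemma compiledForce_valid {G : Shift} (hG : G.Bounded) (c : SConf) (i : Fin 3) :
    ListValid ((compiledForce G c).component i) := by
  rw [compiledForce, Force.add_component, nsOp_component, Force.dt_component]
  exact listValid_append (nsComponent_valid (periodicVel_valid hG) (periodicVel_valid hG i))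
    (listValid_dTime (transientVel_valid G c i))

/-! ### Values -/

/-- Normalized pulse. -/
noncomputable def pulseVal (c : ℕ) (t : ℝ) : ℝ :=
  16 / kappa * periodize (bumpVal (pulse c).2) t

noncomputable def transientVal (t : ℝ) : ℝ := 8 / kappa * bumpVal transientPulse.2 t

noncomputable def lin (x0 : RatCode) (x : ℝ) : ℝ :=
  lcVal (fun g => periodize (bumpVal g)) (linList x0) x / kappa

noncomputable def dlin (x0 : RatCode) (x : ℝ) : ℝ :=
  lcVal (fun g => periodize (bumpVal g)) (dLinList x0) x / kappa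

lemma listVal_flatMap {α : Type} (nu : ℝ) (l : List α) (f : α → List Term) (t : ℝ)
    (x : Fin 3 → ℝ) :
    listVal nu (l.flatMap f) t x = (l.map fun a => listVal nu (f a) t x).sum := by
  induction l with
  | nil => rfl
  | cons a l ih => rw [List.flatMap_cons, listVal_append, ih, List.map_cons, List.sum_cons]

lemma planeTerms_val (nu : ℝ) (q r : RatCode) (chi : Iv) (X Y : List (RatCode × Bump)) (t : ℝ)
    (x : Fin 3 → ℝ) :
    listVal nu (planeTerms q r chi X Y) t x
      = (ratVal q : ℝ) * Real.log (ratVal r : ℝ) * periodize (bumpVal (pulse 11).2) t / kappa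
        * ivInd chi (x 2)
        * (lcVal (fun g => periodize (bumpVal g)) X (x 0) / kappa)
        * (lcVal (fun g => periodize (bumpVal g)) Y (x 1) / kappa) := by
  have hk := kappa_ne
  have h : ∀ a : RatCode × Bump, ∀ b : RatCode × Bump,
      termVal nu (((ratMul q (ratMul a.1 b.1), 0, (0, 4), [r]) : Coeff), [pulse 11], [a.2], [b.2],
        [ivBump 0 chi]) t x
      = ((ratVal q : ℝ) * Real.log (ratVal r : ℝ) * periodize (bumpVal (pulse 11).2) t / kappa
          * ivInd chi (x 2) / kappa / kappa)
        * ((ratVal a.1 : ℝ) * periodize (bumpVal a.2) (x 0))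
        * ((ratVal b.1 : ℝ) * periodize (bumpVal b.2) (x 1)) := by
    intro a b
    have e : kappa ^ (-4 : ℤ) = 1 / (kappa * kappa * kappa * kappa) := by
      rw [show (-4 : ℤ) = -((4:ℕ):ℤ) by norm_num, zpow_neg, zpow_natCast]
      ring
    simp only [termVal, coeffVal, spaceVal, timeFactorVal, pulse, ratVal_mul, List.map_cons,
      List.map_nil, List.prod_cons, List.prod_nil, pow_zero, mul_one, if_true, ivInd]
    push_cast
    norm_num only at *
    rw [e]
    field_simp
  rw [planeTerms, listVal_flatMap]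
  simp only [listVal, List.map_map, Function.comp_def, h]
  simp only [List.sum_map_mul_left, List.sum_map_mul_right, lcVal]
  field_simp

lemma flowX_val (nu : ℝ) (G : Shift) (e : Branch × ℕ) (t : ℝ) (x : Fin 3 → ℝ) :
    listVal nu (flowX G e) t x = pulseVal 11 t * Real.log (ratVal (ratioCode G e.1) : ℝ)
      * ivInd (slabOf G e) (x 2) * lin (fixX G e.1) (x 0) * dlin (fixY G e.1) (x 1) := by
  rw [flowX, planeTerms_val, pulseVal, lin, dlin]
  have : (ratVal (16, 0, 0) : ℝ) = 16 := by norm_num [ratVal]
  rw [this]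
  ring

lemma flowY_val (nu : ℝ) (G : Shift) (e : Branch × ℕ) (t : ℝ) (x : Fin 3 → ℝ) :
    listVal nu (flowY G e) t x = -(pulseVal 11 t * Real.log (ratVal (ratioCode G e.1) : ℝ)
      * ivInd (slabOf G e) (x 2) * dlin (fixX G e.1) (x 0) * lin (fixY G e.1) (x 1)) := by
  rw [flowY, planeTerms_val, pulseVal, lin, dlin]
  have : (ratVal (0, 16, 0) : ℝ) = -16 := by norm_num [ratVal]
  rw [this]
  ring

lemma flowZ_val (nu : ℝ) (G : Shift) (e : Branch × ℕ) (t : ℝ) (x : Fin 3 → ℝ) :
    listVal nu (flowZ G e) t x = (ratVal (slabShift (slabOf G e)) : ℝ)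
      * (pulseVal 9 t * (ivInd (srcX G e.1) (x 0) * ivInd (srcY G e.1) (x 1))
        - pulseVal 13 t * (ivInd (dstX G e.1) (x 0) * ivInd (dstY G e.1) (x 1))) := by
  have hk := kappa_ne
  have e3 : kappa ^ (-3 : ℤ) = 1 / (kappa * kappa * kappa) := by
    rw [show (-3 : ℤ) = -((3:ℕ):ℤ) by norm_num, zpow_neg, zpow_natCast]
    ring
  simp only [flowZ, listVal, liftTerm, termVal, coeffVal, spaceVal, timeFactorVal, pulse,
    pulseVal, ivInd, ratVal_mul, ratVal_neg, List.map_cons, List.map_nil, List.prod_cons,
    List.prod_nil, List.sum_cons, List.sum_nil, pow_zero, mul_one, add_zero, if_true]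
  push_cast
  rw [e3, show (ratVal (16, 0, 0) : ℝ) = 16 by norm_num [ratVal]]
  field_simp
  ring

lemma periodicVel_val (nu : ℝ) (G : Shift) (t : ℝ) (x : Fin 3 → ℝ) :
    forceVal nu (periodicVel G) t x 0
      = ((branches G).zipIdx.map fun e => pulseVal 11 t
          * Real.log (ratVal (ratioCode G e.1) : ℝ) * ivInd (slabOf G e) (x 2)
          * lin (fixX G e.1) (x 0) * dlin (fixY G e.1) (x 1)).sum ∧
    forceVal nu (periodicVel G) t x 1
      = ((branches G).zipIdx.map fun e => -(pulseVal 11 t
          * Real.log (ratVal (ratioCode G e.1) : ℝ) * ivInd (slabOf G e) (x 2)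
          * dlin (fixX G e.1) (x 0) * lin (fixY G e.1) (x 1))).sum ∧
    forceVal nu (periodicVel G) t x 2
      = ((branches G).zipIdx.map fun e => (ratVal (slabShift (slabOf G e)) : ℝ)
          * (pulseVal 9 t * (ivInd (srcX G e.1) (x 0) * ivInd (srcY G e.1) (x 1))
            - pulseVal 13 t * (ivInd (dstX G e.1) (x 0) * ivInd (dstY G e.1) (x 1)))).sum := by
  simp [forceVal_apply, periodicVel, Force.component, listVal_flatMap, flowX_val, flowY_val,
    flowZ_val]

lemma transientVel_val (nu : ℝ) (G : Shift) (c : SConf) (t : ℝ) (x : Fin 3 → ℝ) :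
    forceVal nu (transientVel G c) t x
      = ![(ratVal (shiftX G c) : ℝ) * transientVal t, (ratVal (shiftY G c) : ℝ) * transientVal t,
          0] := by
  have e : kappa ^ (-1 : ℤ) = 1 / kappa := by simp
  have h : ∀ d, listVal nu [moveTerm d] t x = (ratVal d : ℝ) * transientVal t := by
    intro d
    simp only [listVal, moveTerm, termVal, coeffVal, spaceVal, timeFactorVal, transientPulse,
      transientVal, ratVal_mul, List.map_cons, List.map_nil, List.prod_cons, List.prod_nil,
      List.sum_cons, List.sum_nil, pow_zero, mul_one, add_zero, Bool.false_eq_true, if_false]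
    push_cast
    rw [e, show (ratVal (8, 0, 0) : ℝ) = 8 by norm_num [ratVal]]
    ring
  funext i
  fin_cases i <;> simp [forceVal_apply, transientVel, Force.component, h, listVal_nil]

lemma forceVal_add (nu : ℝ) (E F : Force) (t : ℝ) (x : Fin 3 → ℝ) :
    forceVal nu (E.add F) t x = forceVal nu E t x + forceVal nu F t x := by
  funext i
  simp [forceVal_apply, Force.add_component, listVal_append]

/-! ### The pulses in time -/

lemma pulse_bump (c : ℕ) (s : ℝ) :
    bumpVal (pulse c).2 s = rho (16 * s - (c:ℝ)) := by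
  simp [bumpVal, pulse, profileVal, ratVal, iteratedDeriv_zero]

lemma transient_bump (s : ℝ) : bumpVal transientPulse.2 s = rho (8 * s - 2) := by
  simp [bumpVal, transientPulse, profileVal, ratVal, iteratedDeriv_zero]

lemma pulseVal_unit {c : ℕ} (h1 : 1 ≤ c) (h15 : c ≤ 15) {s : ℝ} (h0 : 0 ≤ s) (hs : s ≤ 1) :
    pulseVal c s = 16 / kappa * rho (16 * s - (c:ℝ)) := by
  rw [pulseVal, periodize_zero_one (fun y hy => ?_) h0 hs, pulse_bump]
  rw [pulse_bump]
  apply rho_zero
  have a1 : (1:ℝ) ≤ c := by exact_mod_cast h1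
  have a2 : (c:ℝ) ≤ 15 := by exact_mod_cast h15
  rcases hy with hy | hy
  · exact le_abs.mpr (Or.inr (by linarith))
  · exact le_abs.mpr (Or.inl (by linarith))

lemma pulseVal_zero {c : ℕ} (h1 : 1 ≤ c) (h15 : c ≤ 15) {s : ℝ} (h0 : 0 ≤ s) (hs : s ≤ 1)
    (h : 16 * s ≤ (c:ℝ) - 1 ∨ (c:ℝ) + 1 ≤ 16 * s) : pulseVal c s = 0 := by
  rw [pulseVal_unit h1 h15 h0 hs, rho_zero, mul_zero]
  rcases h with h | h
  · exact le_abs.mpr (Or.inr (by linarith))
  · exact le_abs.mpr (Or.inl (by linarith))

lemma periodize_add_nat (g : ℝ → ℝ) (y : ℝ) (n : ℕ) : periodize g (y + n) = periodize g y := by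
  induction n with
  | zero => simp
  | succ n ih =>
      push_cast
      rw [← add_assoc, periodize_add_one, ih]

lemma pulseVal_add_nat (c : ℕ) (y : ℝ) (n : ℕ) : pulseVal c (y + n) = pulseVal c y := by
  rw [pulseVal, pulseVal, periodize_add_nat]

lemma periodicVel_add_nat (nu : ℝ) (G : Shift) (t : ℝ) (n : ℕ) (x : Fin 3 → ℝ) :
    forceVal nu (periodicVel G) (t + n) x = forceVal nu (periodicVel G) t x := by
  obtain ⟨a0, a1, a2⟩ := periodicVel_val nu G (t + n) x
  obtain ⟨b0, b1, b2⟩ := periodicVel_val nu G t x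
  simp only [pulseVal_add_nat] at a0 a1 a2
  funext i
  fin_cases i
  · exact a0.trans b0.symm
  · exact a1.trans b1.symm
  · exact a2.trans b2.symm

lemma pulses_idle {t : ℝ} (h0 : 0 ≤ t) (h1 : t ≤ 1 / 2) :
    pulseVal 9 t = 0 ∧ pulseVal 11 t = 0 ∧ pulseVal 13 t = 0 := by
  refine ⟨?_, ?_, ?_⟩ <;>
    exact pulseVal_zero (by norm_num) (by norm_num) h0 (by linarith)
      (Or.inl (by push_cast; linarith))

lemma periodicVel_idle (nu : ℝ) (G : Shift) {t : ℝ} (h0 : 0 ≤ t) (h1 : t ≤ 1 / 2)
    (x : Fin 3 → ℝ) : forceVal nu (periodicVel G) t x = 0 := by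
  obtain ⟨a, b, c⟩ := pulses_idle h0 h1
  obtain ⟨e0, e1, e2⟩ := periodicVel_val nu G t x
  simp only [a, b, c] at e0 e1 e2
  funext i
  fin_cases i
  · simpa using e0
  · simpa using e1
  · simpa using e2

lemma transientVal_zero {t : ℝ} (h : t ≤ 1 / 8 ∨ 3 / 8 ≤ t) : transientVal t = 0 := by
  rw [transientVal, transient_bump, rho_zero, mul_zero]
  rcases h with h | h
  · exact le_abs.mpr (Or.inr (by linarith))
  · exact le_abs.mpr (Or.inl (by linarith))

lemma transientVel_idle (nu : ℝ) (G : Shift) (c : SConf) {t : ℝ} (h : t ≤ 1 / 8 ∨ 3 / 8 ≤ t)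
    (x : Fin 3 → ℝ) : forceVal nu (transientVel G c) t x = 0 := by
  rw [transientVel_val, transientVal_zero h]
  funext i
  fin_cases i <;> simp

/-! ### The force is the forcing of the velocity -/

lemma pd_transient (nu : ℝ) (G : Shift) (c : SConf) (j i : Fin 3) (t : ℝ) (x : Fin 3 → ℝ) :
    pd j (fun y => forceVal nu (transientVel G c) t y i) x = 0 := by
  simp [pd, transientVel_val]

lemma compiledForce_val (nu : ℝ) {G : Shift} (hG : G.Bounded) (c : SConf) (t : ℝ)
    (x : Fin 3 → ℝ) (i : Fin 3) :
    forceVal nu (compiledForce G c) t x i = forceVal nu (nsOp (velocity G c)) t x i := by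
  set P := periodicVel G with hP
  set Q := transientVel G c with hQ
  have hp : ∀ k, ListValid (P.component k) := periodicVel_valid hG
  have hq : ∀ k, ListValid (Q.component k) := transientVel_valid G c
  have hv : ∀ k, ListValid ((velocity G c).component k) := velocity_valid hG c
  rw [compiledForce, forceVal_add, Pi.add_apply, nsOp_val nu hv, nsOp_val nu hp]
  have hdt : forceVal nu Q.dt t x i = deriv (fun s => forceVal nu Q s x i) t := by
    simp only [forceVal_apply, Force.dt_component]
    exact (listVal_hasDerivAt nu (hq i) t x).deriv.symm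
  have dP : ∀ k, Differentiable ℝ fun y => forceVal nu P t y k := fun k =>
    (listVal_contDiff_space nu (hp k) t).differentiable (by simp)
  have dQ : ∀ k, Differentiable ℝ fun y => forceVal nu Q t y k := fun k =>
    (listVal_contDiff_space nu (hq k) t).differentiable (by simp)
  have hpd : ∀ j k, pd j (fun y => forceVal nu (velocity G c) t y k)
      = pd j (fun y => forceVal nu P t y k) := by
    intro j k
    funext y
    have e : (fun y => forceVal nu (velocity G c) t y k)
        = (fun y => forceVal nu P t y k) + fun y => forceVal nu Q t y k := by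
      funext z
      simp [velocity, forceVal_add, hP, hQ]
    simp only [pd, e, fderiv_add (dP k y) (dQ k y), ContinuousLinearMap.add_apply]
    simpa [pd, hQ] using pd_transient nu G c j k t y
  have hder : deriv (fun s => forceVal nu (velocity G c) s x i) t
      = deriv (fun s => forceVal nu P s x i) t + deriv (fun s => forceVal nu Q s x i) t := by
    have e : (fun s => forceVal nu (velocity G c) s x i)
        = (fun s => forceVal nu P s x i) + fun s => forceVal nu Q s x i := by
      funext z
      simp [velocity, forceVal_add, hP, hQ]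
    rw [e]
    exact deriv_add (listVal_hasDerivAt nu (hp i) t x).differentiableAt
      (listVal_hasDerivAt nu (hq i) t x).differentiableAt
  simp only [hpd, hder, hdt]
  have cross : ∀ j, forceVal nu Q t x j * pd j (fun y => forceVal nu P t y i) x = 0 := by
    intro j
    by_cases ht : t ≤ 1 / 8 ∨ 3 / 8 ≤ t
    · rw [hQ, transientVel_idle nu G c ht]; simp
    · push Not at ht
      have e : (fun y => forceVal nu P t y i) = fun _ => (0:ℝ) := by
        funext y
        rw [hP, periodicVel_idle nu G (by linarith) (by linarith)]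
        rfl
      simp [pd, e]
  simp only [velocity, forceVal_add, ← hP, ← hQ, Pi.add_apply, add_mul, cross, add_zero]
  rw [← hdt]
  ring

end Vale.Agent.P113
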