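import Vale.Agent.P113.Rules

/-!
Correctness of the compiled shift: it never stops, and it fires a hot rule iff the machine halts.
-/

namespace Vale.Agent.P113

open Function

variable {M : Machine}

lemma act_bound (hM : M.Valid) {q a : ℕ} (hq : q < M.numStates) (ha : a < M.numSymbols) :
    (act M q a).1 < M.numStates ∧ (act M q a).2.1 < M.numSymbols := by
  unfold act
  split_ifs with h
  · exact ⟨hq, ha⟩
  · unfold Machine.action
    rw [List.getD_eq_getElem?_getD, List.getD_eq_getElem?_getD]
    cases hrow : M.table[q]? with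
    | none => exact ⟨by simpa using hq, by simpa using ha⟩
    | some row =>
        simp only [Option.getD_some]
        cases he : row[a]? with
        | none => exact ⟨by simpa using hq, by simpa using ha⟩
        | some e =>
            exact hM.2.2 row (List.mem_of_getElem? hrow) e (List.mem_of_getElem? he)

lemma headOf_cell (hM : M.Valid) {a : ℕ} (ha : a < M.numSymbols) (o : ℕ) :
    headOf M (a + M.numSymbols * o) = o := by
  rw [headOf, Nat.add_mul_div_left _ _ hM.1, Nat.div_eq_of_lt ha, zero_add]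

lemma symOf_cell {a : ℕ} (ha : a < M.numSymbols) (o : ℕ) :
    symOf M (a + M.numSymbols * o) = a := by
  rw [symOf, Nat.add_mul_mod_self_left, Nat.mod_eq_of_lt ha]

lemma caRule_zero : caRule M 0 0 0 = 0 := by
  simp [caRule, newSym, newHead, headOf, symOf]

lemma caRule_lt (hM : M.Valid) {l c r : ℕ} (hl : l < cellSize M) (hc : c < cellSize M)
    (hr : r < cellSize M) : caRule M l c r < cellSize M := by
  have hs : ∀ x, symOf M x < M.numSymbols := fun x => Nat.mod_lt _ hM.1
  have hh : ∀ x, x < cellSize M → headOf M x < M.numStates + 1 := fun x hx =>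
    Nat.div_lt_of_lt_mul hx
  have hq : ∀ x, x < cellSize M → headOf M x ≠ 0 →
      cellState M x < M.numStates ∧ cellWrite M x < M.numSymbols := by
    intro x hx h0
    exact act_bound hM (by have := hh x hx; omega) (hs x)
  have h1 : newSym M c < M.numSymbols := by
    unfold newSym
    split_ifs with h
    · exact hs c
    · exact (hq c hc h).2
  have h2 : newHead M l c r ≤ M.numStates := by
    unfold newHead
    split_ifs with a b d
    · have := (hq c hc a.1).1; omega
    · have := (hq l hl b.1).1; omega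
    · have := (hq r hr d.1).1; omega
    · omega
  calc caRule M l c r < M.numSymbols + M.numSymbols * M.numStates := by
        unfold caRule
        have := Nat.mul_le_mul_left M.numSymbols h2
        omega
    _ = cellSize M := by unfold cellSize; ring

lemma cellSize_pos (hM : M.Valid) : 0 < cellSize M :=
  Nat.mul_pos hM.1 (Nat.succ_pos _)

lemma pair_inj {U q v q' v' : ℕ} (h : q * U + v = q' * U + v') (hv : v < U) (hv' : v' < U) :
    q = q' ∧ v = v' := by
  have hU : 0 < U := by omega
  have h1 := congrArg (· / U) h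
  simp only [Nat.mul_comm _ U, Nat.mul_add_div hU, Nat.div_eq_of_lt hv, Nat.div_eq_of_lt hv',
    add_zero] at h1
  subst h1
  exact ⟨rfl, by omega⟩

lemma pair_lt {U Q q v : ℕ} (hq : q < Q) (hv : v < U) : q * U + v < Q * U := by
  have := Nat.mul_le_mul_right U (Nat.succ_le_of_lt hq)
  rw [Nat.succ_mul] at this
  omega

lemma win_lt {p c : ℕ} (hp : p < cellSize M) (hc : c < cellSize M) :
    winState M p c < cellSize M * cellSize M := pair_lt hp hc

lemma start_lt : startQ M < qStates M := by unfold startQ qStates; omega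

lemma mem_queueRules {x : ℕ × ℕ × ℕ × ℕ} :
    x ∈ queueRules M ↔
      (∃ p < cellSize M, ∃ c < cellSize M, ∃ a < cellSize M,
        (winState M p c, a, winState M c a, caRule M p c a) = x) ∨
      (∃ a < cellSize M, (startQ M, a, winState M 0 a, caRule M 0 0 a) = x) ∨
      (∃ p < cellSize M, ∃ c < cellSize M,
        (winState M p c, markA M, endQ M (caRule M c 0 0), caRule M p c 0) = x) ∨
      (∃ e < cellSize M, (endQ M e, markB M, startQ M, markA M) = x) := by
  simp only [queueRules, List.mem_append, List.mem_flatMap, List.mem_map, List.mem_range,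
    or_assoc]

lemma queueRules_bound (hM : M.Valid) {x : ℕ × ℕ × ℕ × ℕ} (hx : x ∈ queueRules M) :
    x.1 < qStates M ∧ x.2.1 < qSyms M ∧ x.2.2.1 < qStates M ∧ x.2.2.2 < qSyms M := by
  have h0 := cellSize_pos hM
  rcases mem_queueRules.mp hx with ⟨p, hp, c, hc, a, ha, rfl⟩ | ⟨a, ha, rfl⟩ |
    ⟨p, hp, c, hc, rfl⟩ | ⟨e, he, rfl⟩
  · have := win_lt hp hc
    have := win_lt hc ha
    have := caRule_lt hM hp hc ha
    refine ⟨?_, ?_, ?_, ?_⟩ <;> simp only [qStates, qSyms] <;> omega
  · have := win_lt h0 ha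
    have := caRule_lt hM h0 h0 ha
    refine ⟨?_, ?_, ?_, ?_⟩ <;> simp only [qStates, qSyms, startQ] <;> omega
  · have := win_lt hp hc
    have := caRule_lt hM hp hc h0
    have := caRule_lt hM hc h0 h0
    refine ⟨?_, ?_, ?_, ?_⟩ <;> simp only [qStates, qSyms, markA, endQ] <;> omega
  · refine ⟨?_, ?_, ?_, ?_⟩ <;> simp only [qStates, qSyms, markA, markB, startQ, endQ] <;> omega

lemma queueRules_fun {x y : ℕ × ℕ × ℕ × ℕ} (hx : x ∈ queueRules M) (hy : y ∈ queueRules M)
    (h1 : x.1 = y.1) (h2 : x.2.1 = y.2.1) : x = y := by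
  rcases mem_queueRules.mp hx with ⟨p, hp, c, hc, a, ha, rfl⟩ | ⟨a, ha, rfl⟩ |
    ⟨p, hp, c, hc, rfl⟩ | ⟨e, he, rfl⟩ <;>
  rcases mem_queueRules.mp hy with ⟨p', hp', c', hc', a', ha', rfl⟩ | ⟨a', ha', rfl⟩ |
    ⟨p', hp', c', hc', rfl⟩ | ⟨e', he', rfl⟩ <;>
  simp only [startQ, endQ, markA, markB] at h1 h2 ⊢ <;>
  (try have := win_lt (M := M) hp hc) <;> (try have := win_lt (M := M) hp' hc') <;>
  try omega
  all_goals first
    | (obtain ⟨rfl, rfl⟩ := pair_inj h1 hc hc'; subst h2; rfl)
    | (obtain ⟨rfl, rfl⟩ := pair_inj h1 hc hc'; rfl)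
    | (subst h2; rfl)
    | (obtain rfl : e = e' := by omega
       rfl)

lemma mem_dedup {l : List Rule} {r : Rule} : r ∈ dedupRules l ↔ r ∈ l := by
  induction l with
  | nil => simp [dedupRules]
  | cons a l ih =>
      unfold dedupRules at ih ⊢
      simp only [List.foldr_cons]
      split_ifs with h
      · rw [ih, List.mem_cons]
        exact ⟨Or.inr, by rintro (rfl | h'); exacts [ih.mp h, h']⟩
      · rw [List.mem_cons, List.mem_cons, ih]

lemma nodup_dedup (l : List Rule) : (dedupRules l).Nodup := by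
  induction l with
  | nil => simp [dedupRules]
  | cons a l ih =>
      unfold dedupRules at ih ⊢
      simp only [List.foldr_cons]
      split_ifs with h
      · exact ih
      · exact List.nodup_cons.mpr ⟨h, ih⟩

/-- The seven kinds of rules, with the bounds on their indices. -/
inductive IsRule (M : Machine) : Rule → Prop
  | read (q a q' v : ℕ) (h : (q, a, q', v) ∈ queueRules M) (hot : Bool)
      (hh : hot = readHot M a) (hq : q < qStates M) (ha : a < qSyms M)
      (hv : v < qSyms M) (b1 : q' * qSyms M + v < qStates M * qSyms M)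
      (b2 : q * qSyms M + a < qStates M * qSyms M) :
      IsRule M ⟨zRead q, sUn a, zCarry M q' v, sAnn M q a, hot⟩
  | pass (q v u : ℕ) (hq : q < qStates M) (hv : v < qSyms M) (hu : u < qSyms M)
      (b1 : q * qSyms M + v < qStates M * qSyms M) :
      IsRule M ⟨zCarry M q v, sUn u, zCarry M q v, sUn u, false⟩
  | last (q v : ℕ) (hq : q < qStates M) (hv : v < qSyms M)
      (b1 : q * qSyms M + v < qStates M * qSyms M) :
      IsRule M ⟨zCarry M q v, sDollar, endDst M q, sUn v, false⟩
  | mid (q : ℕ) (hq : q < qStates M) (hge : cellSize M * cellSize M ≤ q) :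
      IsRule M ⟨zMid M q, sBlank, zPut M q, sUn (extraSym M q), false⟩
  | put (q : ℕ) (hq : q < qStates M) :
      IsRule M ⟨zPut M q, sBlank, zRet M q, sDollar, false⟩
  | retPass (q u : ℕ) (hq : q < qStates M) (hu : u < qSyms M) :
      IsRule M ⟨zRet M q, sUn u, zRet M q, sUn u, false⟩
  | retStop (q p a : ℕ) (hq : q < qStates M) (hp : p < qStates M) (ha : a < qSyms M)
      (b2 : p * qSyms M + a < qStates M * qSyms M) :
      IsRule M ⟨zRet M q, sAnn M p a, zRead q, sAnn M p a, false⟩

lemma isRule_of_mem (hM : M.Valid) {r : Rule} (hr : r ∈ allRules M) : IsRule M r := by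
  simp only [allRules, mem_dedup, List.mem_append, readRules, passRules, endRules, midRules,
    putRules, retPassRules, retStopRules, List.mem_flatMap, List.mem_map, List.mem_range,
    List.mem_filter, decide_eq_true_eq] at hr
  rcases hr with ((((((⟨⟨q, a, q', v⟩, h, rfl⟩ | ⟨q, hq, v, hv, u, hu, rfl⟩) |
    ⟨q, hq, v, hv, rfl⟩) | ⟨q, ⟨hq, hge⟩, rfl⟩) | ⟨q, hq, rfl⟩) | ⟨q, hq, u, hu, rfl⟩) |
    ⟨q, hq, p, hp, a, ha, rfl⟩)
  · obtain ⟨h1, h2, h3, h4⟩ := queueRules_bound hM h
    exact .read q a q' v h _ rfl h1 h2 h4 (pair_lt h3 h4) (pair_lt h1 h2)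
  · exact .pass q v u hq hv hu (pair_lt hq hv)
  · exact .last q v hq hv (pair_lt hq hv)
  · exact .mid q hq hge
  · exact .put q hq
  · exact .retPass q u hq hu
  · exact .retStop q p a hq hp ha (pair_lt hp ha)

lemma mem_of_isRule {r : Rule} (h : IsRule M r) : r ∈ allRules M := by
  simp only [allRules, mem_dedup, List.mem_append, readRules, passRules, endRules, midRules,
    putRules, retPassRules, retStopRules, List.mem_flatMap, List.mem_map, List.mem_range,
    List.mem_filter, decide_eq_true_eq]
  cases h with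
  | read q a q' v h hot hh =>
      subst hh
      exact Or.inl (Or.inl (Or.inl (Or.inl (Or.inl (Or.inl ⟨_, h, rfl⟩)))))
  | pass q v u hq hv hu =>
      exact Or.inl (Or.inl (Or.inl (Or.inl (Or.inl (Or.inr ⟨q, hq, v, hv, u, hu, rfl⟩)))))
  | last q v hq hv => exact Or.inl (Or.inl (Or.inl (Or.inl (Or.inr ⟨q, hq, v, hv, rfl⟩))))
  | mid q hq hge => exact Or.inl (Or.inl (Or.inl (Or.inr ⟨q, ⟨hq, hge⟩, rfl⟩)))
  | put q hq => exact Or.inl (Or.inl (Or.inr ⟨q, hq, rfl⟩))
  | retPass q u hq hu => exact Or.inl (Or.inr ⟨q, hq, u, hu, rfl⟩)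
  | retStop q p a hq hp ha => exact Or.inr ⟨q, hq, p, hp, a, ha, rfl⟩

lemma zSyms_pos : 0 < zSyms M := by unfold zSyms; omega

lemma extraSym_lt {q : ℕ} (hq : q < qStates M) : extraSym M q < qSyms M := by
  unfold extraSym qSyms markB
  unfold qStates at hq
  split_ifs <;> omega

lemma isRule_bound {r : Rule} (hr : IsRule M r) :
    r.src < zStates M ∧ r.dst < zStates M ∧ r.sym < zSyms M ∧ r.wr < zSyms M := by
  cases hr with
  | read q a q' v h hot hh hq ha hv b1 b2 =>
      simp only [zRead, zCarry, sUn, sAnn, zStates, zSyms]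
      omega
  | pass q v u hq hv hu b1 => simp only [zCarry, sUn, zStates, zSyms]; omega
  | last q v hq hv b1 =>
      simp only [zCarry, sUn, sDollar, endDst, zPut, zMid, zStates, zSyms]
      split_ifs <;> omega
  | mid q hq hge =>
      have := extraSym_lt hq
      simp only [zMid, zPut, sBlank, sUn, zStates, zSyms]
      omega
  | put q hq => simp only [zPut, zRet, sBlank, sDollar, zStates, zSyms]; omega
  | retPass q u hq hu => simp only [zRet, sUn, zStates, zSyms]; omega
  | retStop q p a hq hp ha b2 => simp only [zRet, zRead, sAnn, zStates, zSyms]; omega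

lemma isRule_src_inj {r r' : Rule} (hr : IsRule M r) (hr' : IsRule M r')
    (e1 : r.src = r'.src) (e2 : r.sym = r'.sym) : r = r' := by
  cases hr <;> cases hr'
  case read.read q a q' v h hot hh hq ha hv b1 b2 p b p' v' h' hot' hh' hq_ ha_ hv_ c1 c2 =>
    have e1' : q = p := e1
    have e2' : a = b := Nat.add_left_cancel e2
    obtain ⟨rfl, rfl⟩ : q' = p' ∧ v = v' := by
      have hx := queueRules_fun h h' e1' e2'
      simp only [Prod.mk.injEq] at hx
      exact ⟨hx.2.2.1, hx.2.2.2⟩
    subst e1' e2'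
    rw [hh, hh']
  case pass.pass q v u hq hv hu b1 p v' u' hp hv' hu' c1 =>
    obtain ⟨rfl, rfl⟩ := pair_inj (Nat.add_left_cancel e1) hv hv'
    obtain rfl : u = u' := Nat.add_left_cancel e2
    rfl
  case last.last q v hq hv b1 p v' hp hv' c1 =>
    obtain ⟨rfl, rfl⟩ := pair_inj (Nat.add_left_cancel e1) hv hv'
    rfl
  case mid.mid q hq hge p hp hgp =>
    obtain rfl : q = p := Nat.add_left_cancel e1
    rfl
  case put.put q hq p hp =>
    obtain rfl : q = p := Nat.add_left_cancel e1
    rfl
  case retPass.retPass q u hq hu p u' hp hu' =>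
    obtain rfl : q = p := Nat.add_left_cancel e1
    obtain rfl : u = u' := Nat.add_left_cancel e2
    rfl
  case retStop.retStop q a b hq ha hb b2 p a' b' hp ha' hb' c2 =>
    obtain rfl : q = p := Nat.add_left_cancel e1
    obtain ⟨rfl, rfl⟩ := pair_inj (Nat.add_left_cancel e2) hb hb'
    rfl
  all_goals exfalso
  all_goals simp only [zRead, zCarry, zMid, zPut, zRet, sUn, sAnn, sDollar, sBlank] at e1 e2
  all_goals omega

lemma isRule_dst_inj {r r' : Rule} (hr : IsRule M r) (hr' : IsRule M r')
    (e1 : r.dst = r'.dst) (e2 : r.wr = r'.wr) : r = r' := by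
  cases hr <;> cases hr'
  case read.read q a q' v h hot hh hq ha hv b1 b2 p b p' v' h' hot' hh' hq_ ha_ hv_ c1 c2 =>
    obtain ⟨rfl, rfl⟩ := pair_inj (Nat.add_left_cancel e2) ha ha_
    obtain ⟨rfl, rfl⟩ := pair_inj (Nat.add_left_cancel e1) hv hv_
    rw [hh, hh']
  case pass.pass q v u hq hv hu b1 p v' u' hp hv' hu' c1 =>
    obtain ⟨rfl, rfl⟩ := pair_inj (Nat.add_left_cancel e1) hv hv'
    obtain rfl : u = u' := Nat.add_left_cancel e2
    rfl
  case last.last q v hq hv b1 p v' hp hv' c1 =>
    simp only [endDst, zMid, zPut] at e1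
    obtain rfl : v = v' := Nat.add_left_cancel e2
    obtain rfl : q = p := by split_ifs at e1 <;> omega
    rfl
  case mid.mid q hq hge p hp hgp =>
    obtain rfl : q = p := Nat.add_left_cancel e1
    rfl
  case put.put q hq p hp =>
    obtain rfl : q = p := Nat.add_left_cancel e1
    rfl
  case retPass.retPass q u hq hu p u' hp hu' =>
    obtain rfl : q = p := Nat.add_left_cancel e1
    obtain rfl : u = u' := Nat.add_left_cancel e2
    rfl
  case retStop.retStop q a b hq ha hb b2 p a' b' hp ha' hb' c2 =>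
    obtain rfl : q = p := e1
    obtain ⟨rfl, rfl⟩ := pair_inj (Nat.add_left_cancel e2) hb hb'
    rfl
  all_goals exfalso
  all_goals
    simp only [zRead, zCarry, zMid, zPut, zRet, endDst, sUn, sAnn, sDollar, sBlank] at e1 e2
  all_goals first
    | omega
    | (split_ifs at e1 <;> omega)

lemma shiftOf_states : (shiftOf M).states = zStates M := rfl
lemma shiftOf_syms : (shiftOf M).syms = zSyms M := rfl
lemma shiftOf_rules : (shiftOf M).rules = allRules M := rfl
lemma shiftOf_left : (shiftOf M).left = zLeft M := rfl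

lemma allRules_nodup : (allRules M).Nodup := by
  unfold allRules
  exact nodup_dedup _

lemma shiftOf_good (hM : M.Valid) : (shiftOf M).Good := by
  have h : ∀ {r}, r ∈ (shiftOf M).rules → IsRule M r := fun {r} hr =>
    isRule_of_mem hM (shiftOf_rules (M := M) ▸ hr)
  refine ⟨?_, ?_, ?_, ?_, ?_, ?_, ?_, ?_⟩
  · intro r hr; rw [shiftOf_states]; exact (isRule_bound (h hr)).1
  · intro r hr; rw [shiftOf_states]; exact (isRule_bound (h hr)).2.1
  · intro r hr; rw [shiftOf_syms]; exact (isRule_bound (h hr)).2.2.1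
  · intro r hr; rw [shiftOf_syms]; exact (isRule_bound (h hr)).2.2.2
  · rw [shiftOf_syms]; exact zSyms_pos
  · rw [shiftOf_rules]; exact allRules_nodup
  · exact fun r hr r' hr' => isRule_src_inj (h hr) (h hr')
  · exact fun r hr r' hr' => isRule_dst_inj (h hr) (h hr')

end Vale.Agent.P113
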